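import Vale.Agent.P354XM.AI2
import Vale.Agent.P354YJ.GinM

/-!
The Kerr family, the shifts, and the propagation AIK.
-/

set_option maxSynthPendingDepth 3
set_option linter.unnecessarySeqFocus false

open scoped ContDiff
open Set Filter Topology Metric

noncomputable section

namespace Vale.Agent.P354XM

open Vale.Agent.P354n (R4)
open Vale.Agent.P354RC
open Vale.Agent.P354XE (rd gin dr dq kf xs Bd)
open Vale.Agent.P354XA (ip dr_eq dq_eq rnd_eq Sg_eq rd_eq rd_cd rd_cont rd_sq)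
open Vale.Agent.P354YJ

/-- The Kerr metric as a field of bilinear forms. -/
def hin (p : ℝ × ℝ) (x : R4) : B2 := bil (gin p.1 p.2 x)

theorem bil_lin {f : R4 → R4 → ℝ} (l : ∀ v, IsLinearMap ℝ (f v)) (s : ∀ v w, f v w = f w v)
    (v w : R4) : bil f v w = f v w := by
  have e : ∀ a b, f a b = ∑ i, cv i b * f a (bs i) := fun a b => by
    conv_lhs => rw [← sum_bs b]
    exact (map_sum (IsLinearMap.mk' _ (l a)) _ _).trans
      (Finset.sum_congr rfl fun i _ => (l a).map_smul _ _)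
  rw [bil_ap, s v, e]
  refine Finset.sum_congr rfl fun i _ => ?_
  rw [s w, e, Finset.mul_sum]
  exact Finset.sum_congr rfl fun j _ => by simp only [smul_eq_mul]

theorem hin_ap (p : ℝ × ℝ) (x v w : R4) : hin p x v w = gin p.1 p.2 x v w :=
  bil_lin (gin_lin _ _ _) (gin_symm _ _ _) v w

theorem gin_cd2 {q : (ℝ × ℝ) × R4} (h : 0 < rd q.2) (v w : R4) :
    ContDiffAt ℝ ∞ (fun q : (ℝ × ℝ) × R4 => gin q.1.1 q.1.2 q.2 v w) q := by
  have k := h.ne'
  have π : ContDiffAt ℝ ∞ (fun q : (ℝ × ℝ) × R4 => q.2) q := contDiffAt_snd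
  have a : ContDiffAt ℝ ∞ (fun q : (ℝ × ℝ) × R4 => q.1.2) q := contDiffAt_fst.snd
  have r := (rd_cd (n := ∞) k).comp q π
  have d1 := fun v => (dr_cd k v).comp q π
  have d2 := fun v => (dq_cd k v).comp q π
  have d3 := fun v : R4 => ((contDiffAt_const (c := v.1)).add (d1 v)).sub (a.mul (d2 v))
  have s := (r.pow 2).add ((a.pow 2).mul
    (ContDiffAt.div (π.snd.snd.snd.pow 2) (r.pow 2) (pow_ne_zero 2 k)))
  exact ((((contDiffAt_const.add ((d1 v).mul (d1 w))).sub (a.mul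
    (((d1 v).mul (d2 w)).add ((d2 v).mul (d1 w))))).add
    (s.mul ((rnd_cd k v w).comp q π))).add ((a.pow 2).mul ((d2 v).mul (d2 w)))).add
    ((((contDiffAt_const.mul contDiffAt_fst.fst).mul r).div s (Sg_pos q.1.2 h).ne').mul
      ((d3 v).mul (d3 w)))

/-- The domain of the family. -/
def Wk : Set ((ℝ × ℝ) × R4) := {q | 0 < rd q.2}

theorem famK : Fam hin Wk :=
  ⟨open_rd.preimage continuous_snd, fun _ hq => bil_cd fun v w => gin_cd2 hq v w,
    fun q _ v w => by rw [hin_ap, hin_ap, gin_symm],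
    fun q hq v hv => gin_nondeg hq fun w => (hin_ap ..).symm.trans (hv w)⟩

/-- From the components to the bilinear forms. -/
theorem jb_of_bd {p p' : ℝ × ℝ} {b : R4 → R4} {x : R4} {k : ℕ} {η : ℝ} (hb : ContDiffAt ℝ ∞ b x)
    (hx : 0 < rd x) (hx' : 0 < rd (b x))
    (h : Bd k (P354XE.pb b (gin p'.1 p'.2) - gin p.1 p.2) x η) :
    Jb k (pb (hin p') b - hin p) x (c16 * η) := by
  have e : ∀ y v w, (P354XE.pb b (gin p'.1 p'.2) - gin p.1 p.2) y v w =
      (pb (hin p') b - hin p) y v w := fun y v w => by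
    simp [pb_ap, hin_ap, P354XE.pb]
  have s := (pb_cd (famK.at (p := p') hx') hb).sub (famK.at (p := p) hx)
  refine (bil_jb (fun v w => ?_) h).congr (.of_forall fun y => ?_)
  · simp only [e]
    exact (s.clm_apply contDiffAt_const).clm_apply contDiffAt_const
  · rw [← bil_eq ((pb (hin p') b - hin p) y)]
    exact congrArg bil (funext fun v => funext fun w => (e y v w).symm)

/-! ### The shifts -/

/-- The linear part. -/
def rot (φ : ℝ) : L4 := LinearMap.toContinuousLinearMap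
  { toFun := sh 0 φ
    map_add' := fun p v => by simp only [sh]; ext <;> simp <;> ring
    map_smul' := fun c p => by simp only [sh]; ext <;> simp <;> ring }

theorem rot_ap (φ : ℝ) (x : R4) : rot φ x = sh 0 φ x := rfl

theorem sh_eq (c φ : ℝ) (x : R4) : sh c φ x = rot φ x + (c, 0) := by simp [rot_ap, sh]

theorem sh_fd (c φ : ℝ) (x : R4) : HasFDerivAt (sh c φ) (rot φ) x := by
  rw [show sh c φ = fun x => rot φ x + (c, 0) from funext (sh_eq c φ)]
  exact (rot φ).hasFDerivAt.add_const _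

theorem sh_cd (c φ : ℝ) : ContDiff ℝ ∞ (sh c φ) := by
  rw [show sh c φ = fun x => rot φ x + (c, 0) from funext (sh_eq c φ)]
  exact (rot φ).contDiff.add contDiff_const

theorem sh_zero : sh 0 0 = id := by funext x; simp [sh]

theorem sh_sh (c φ c' φ' : ℝ) (x : R4) : sh c φ (sh c' φ' x) = sh (c + c') (φ + φ') x := by
  simp only [sh, Real.cos_add, Real.sin_add]
  ext <;> simp <;> ring

theorem rot_norm (φ : ℝ) : ‖rot φ‖ ≤ 2 := by
  refine ContinuousLinearMap.opNorm_le_bound _ zero_le_two fun x => ?_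
  have a1 : |x.1| ≤ ‖x‖ := norm_fst_le x
  have a2 : |x.2.1| ≤ ‖x‖ := (norm_fst_le x.2).trans (norm_snd_le x)
  have a3 : |x.2.2.1| ≤ ‖x‖ := (norm_fst_le x.2.2).trans ((norm_snd_le x.2).trans (norm_snd_le x))
  have a4 : |x.2.2.2| ≤ ‖x‖ := (norm_snd_le x.2.2).trans ((norm_snd_le x.2).trans (norm_snd_le x))
  have k : ∀ u v, |u| ≤ 1 → |v| ≤ 1 → |u * x.2.1| + |v * x.2.2.1| ≤ 2 * ‖x‖ := fun u v hu hv => by
    rw [abs_mul, abs_mul]
    nlinarith [abs_nonneg x.2.1, abs_nonneg x.2.2.1, abs_nonneg u, abs_nonneg v]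
  have n := norm_nonneg x
  simp only [rot_ap, sh, Prod.norm_def, Real.norm_eq_abs, add_zero, max_le_iff] at *
  exact ⟨by linarith, (abs_sub _ _).trans (k _ _ (Real.abs_cos_le_one _) (Real.abs_sin_le_one _)),
    (abs_add_le _ _).trans (k _ _ (Real.abs_sin_le_one _) (Real.abs_cos_le_one _)), by linarith⟩

theorem ip_sh (c c' φ : ℝ) (x v : R4) : ip (sh c φ x) (sh c' φ v) = ip x v := by
  simp only [ip, sh]
  linear_combination (x.2.1 * v.2.1 + x.2.2.1 * v.2.2.1) * Real.sin_sq_add_cos_sq φ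

theorem rd_sh (c φ : ℝ) (x : R4) : rd (sh c φ x) = rd x := by simp only [rd_eq, ip_sh]

theorem dr_sh (c φ : ℝ) (x v : R4) : dr (sh c φ x) (rot φ v) = dr x v := by
  rw [dr_eq, dr_eq, rot_ap, ip_sh, rd_sh]

theorem dq_sh (c φ : ℝ) (x v : R4) : dq (sh c φ x) (rot φ v) = dq x v := by
  rw [dq_eq, dq_eq, rd_sh]
  congr 1
  simp only [rot_ap, sh]
  linear_combination (x.2.1 * v.2.2.1 - x.2.2.1 * v.2.1) * Real.sin_sq_add_cos_sq φ

theorem hin_sh (p : ℝ × ℝ) (c φ : ℝ) (x v w : R4) :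
    hin p (sh c φ x) (rot φ v) (rot φ w) = hin p x v w := by
  simp only [hin_ap, gin, kf, dr_sh, dq_sh, rnd_eq, Sg_eq]
  simp only [rot_ap, ip_sh, rd_sh]
  simp [sh]

/-- The normalised map. -/
def nm (b : R4 → R4) (t c φ : ℝ) (x : R4) : R4 := sh (-c - t) (-φ) (b (x + (t, 0)))

section
variable {b : R4 → R4} {t c φ : ℝ} {x : R4}

theorem nm_cd (hb : ContDiffAt ℝ ∞ b (x + (t, 0))) : ContDiffAt ℝ ∞ (nm b t c φ) x :=
  (sh_cd _ _).contDiffAt.comp x (hb.comp x (f := fun x => x + (t, 0)) (by fun_prop))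

theorem nm_on {O : Set R4} (hb : ContDiffOn ℝ ∞ b O) :
    ContDiffOn ℝ ∞ (nm b t c φ) ((fun x => x + (t, 0)) ⁻¹' O) :=
  (sh_cd _ _).comp_contDiffOn (hb.comp (f := fun x => x + (t, 0)) (by fun_prop) fun _ h => h)

theorem rd_add (x : R4) (t : ℝ) : rd (x + (t, 0)) = rd x := by simp [rd_eq, ip]

theorem hin_add (p : ℝ × ℝ) (x : R4) (t : ℝ) : hin p (x + (t, 0)) = hin p x :=
  ContinuousLinearMap.ext fun v => ContinuousLinearMap.ext fun w => by
    have := hin_sh p t 0 x v w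
    rwa [rot_ap, rot_ap, sh_eq t, rot_ap, sh_zero] at this

theorem nm_pb {k : ℕ} {η : ℝ} {p p' : ℝ × ℝ} (hb : ContDiffAt ℝ ∞ b (x + (t, 0)))
    (h : Jb k (pb (hin p') b - hin p) (x + (t, 0)) η) :
    Jb k (pb (hin p') (nm b t c φ) - hin p) x η := by
  refine (h.shift _).congr ?_
  have : ∀ᶠ y in 𝓝 x, DifferentiableAt ℝ b (y + (t, 0)) :=
    (continuous_id.add continuous_const).continuousAt.eventually (ev_df hb)
  filter_upwards [this] with y hy
  have d : HasFDerivAt (nm b t c φ) ((rot (-φ)).comp (fderiv ℝ b (y + (t, 0)))) y :=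
    (sh_fd _ _ _).comp y ((hasFDerivAt_comp_add_right _).2 hy.hasFDerivAt)
  refine ContinuousLinearMap.ext fun v => ContinuousLinearMap.ext fun w => ?_
  simp only [Pi.sub_apply, sub_apply, pb_ap, d.fderiv, hin_add, nm, ContinuousLinearMap.comp_apply,
    hin_sh]

theorem nm_jb {k : ℕ} {η c1 φ1 : ℝ} (hb : ContDiffAt ℝ ∞ b (x + (t, 0)))
    (h : Jb k (b - sh (c + c1) (φ + φ1)) (x + (t, 0)) η) : Jb k (nm b t c φ - sh c1 φ1) x (2 * η) := by
  refine ((Jb.clm (rot (-φ)) ((hb.sub (sh_cd _ _).contDiffAt).comp x (f := fun x => x + (t, 0))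
    (by fun_prop)) (h.shift _)).congr (.of_forall fun y => ?_)).mono le_rfl
    (mul_le_mul_of_nonneg_right (rot_norm _) h.nonneg)
  simp only [Pi.sub_apply, Function.comp_apply, map_sub, nm]
  rw [rot_ap _ (sh ..), sh_sh, sh_eq (-c - t), sh_eq c1, sh_eq (0 + _), map_add, rot_ap _ (t, 0),
    neg_add_cancel_left]
  ext <;> simp [sh] <;> ring

theorem jb_nm {k : ℕ} {η c1 φ1 : ℝ} (hb : ContDiffAt ℝ ∞ b x)
    (h : Jb k (nm b t c φ - sh c1 φ1) (x + (-t, 0)) η) :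
    Jb k (b - sh (c + c1) (φ + φ1)) x (2 * η) := by
  have e : ∀ y : R4, y + (-t, 0) + (t, 0) = y := fun y => by ext <;> simp
  refine ((Jb.clm (rot φ) (((nm_cd (by rwa [e])).sub (sh_cd _ _).contDiffAt).comp x
    (f := fun x => x + (-t, 0)) (by fun_prop)) (h.shift _)).congr (.of_forall fun y => ?_)).mono
    le_rfl (mul_le_mul_of_nonneg_right (rot_norm _) h.nonneg)
  simp only [Pi.sub_apply, Function.comp_apply, map_sub, nm, e]
  rw [rot_ap _ (sh ..), rot_ap _ (sh ..), sh_sh, sh_sh, add_neg_cancel, sh_eq (c + c1), sh_eq (0 + c1),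
    map_add, rot_ap _ (-t, 0)]
  ext <;> simp [sh] <;> ring

end

theorem Join.le {U : Set R4} {x0 x : R4} {L : ℝ} (J : Join U x0 L) (hx : x ∈ U) :
    x0 ∈ U ∧ ‖x - x0‖ ≤ L := by
  obtain ⟨γ, γ', rfl, rfl, h⟩ := J x hx
  refine ⟨(h 0 (left_mem_Icc.2 zero_le_one)).1, ?_⟩
  exact norm_image_sub_le_of_norm_deriv_le_segment_01' (fun s hs => (h s hs).2.1.hasDerivWithinAt)
    fun s hs => (h s (Ico_subset_Icc_self hs)).2.2

theorem Join.shift {U : Set R4} {x0 : R4} {L : ℝ} (a : R4) (J : Join U (x0 + a) L) :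
    Join ((fun x => x + a) ⁻¹' U) x0 L := fun x hx => by
  obtain ⟨γ, γ', h0, h1, h⟩ := J _ hx
  exact ⟨fun s => γ s - a, γ', by simp [h0], by simp [h1], fun s hs =>
    ⟨by simpa using (h s hs).1, (h s hs).2.1.sub_const a, (h s hs).2.2⟩⟩

/-- The propagation, with two parameters. -/
theorem ai2 (p0 : ℝ × ℝ) (ρ L r0 : ℝ) (k : ℕ) (hρ : 0 < ρ) : ∃ C δ : ℝ, 0 < C ∧ 0 < δ ∧
    ∀ (p p' : ℝ × ℝ) (c φ η : ℝ) (U O : Set R4) (x0 : R4) (b : R4 → R4),
      ‖p - p0‖ ≤ 1 → ‖p' - p0‖ ≤ 1 → ‖p' - p‖ ≤ η → η ≤ δ → rd x0 ≤ r0 →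
      IsOpen O → U ⊆ O → ContDiffOn ℝ ∞ b O → Join U x0 L →
      (∀ x ∈ U, ρ ≤ rd x ∧ (0 < rd (b x) → Jb (k + 1) (pb (hin p') b - hin p) x η)) →
      Jb 1 (b - sh c φ) x0 η → ∀ x ∈ U, Jb (k + 2) (b - sh c φ) x (C * η) := by
  have hK : IsCompact (closedBall p0 1 ×ˢ (closedBall (0 : R4) (r0 + L) ∩ {x | ρ ≤ rd x})) :=
    (isCompact_closedBall _ _).prod
      ((isCompact_closedBall _ _).inter_right (isClosed_le continuous_const rd_cont))
  have hW : closedBall p0 1 ×ˢ (closedBall (0 : R4) (r0 + L) ∩ {x | ρ ≤ rd x}) ⊆ Wk :=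
    fun q hq => hρ.trans_le hq.2.2
  obtain ⟨C, δ, C0, δ0, H⟩ := famK.ai hK hW L k
  obtain ⟨B, B0, hB⟩ := bd_cpt (k + 1) hK fun q hq => famK.sm q (hW hq)
  refine ⟨2 * (C * (2 + B)), δ / (2 + B), by positivity, by positivity,
    fun p p' c φ η U O x0 b hp hp' hd hη h0 hO hU hb J hx hj x m => ?_⟩
  have η0 := hj.nonneg
  have at' : ∀ x ∈ U, ContDiffAt ℝ ∞ b x := fun x m => hb.contDiffAt (hO.mem_nhds (hU m))
  have e0 : ((0, x0.2) : R4) + (x0.1, 0) = x0 := by ext <;> simp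
  have e : x + (-x0.1, 0) + (x0.1, 0) = x := by ext <;> simp
  have J' := Join.shift (x0 := (0, x0.2)) (x0.1, 0) (by rwa [e0])
  have mem : ∀ y : R4, y + (x0.1, 0) ∈ U → y ∈ closedBall (0 : R4) (r0 + L) ∩ {x | ρ ≤ rd x} :=
    fun y m => by
      refine ⟨mem_closedBall_zero_iff.2 ?_, (hx _ m).1.trans_eq (rd_add ..)⟩
      have a := (J'.le m).2
      have a2 := P354XA.norm_le (0, x0.2)
      rw [← rd_add _ x0.1, e0, abs_zero] at a2
      have a3 := norm_add_le (y - (0, x0.2)) (0, x0.2)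
      rw [sub_add_cancel] at a3
      linarith
  have := H ((2 + B) * η) p' ((fun x => x + (x0.1, 0)) ⁻¹' U) ((fun x => x + (x0.1, 0)) ⁻¹' O)
    (nm b x0.1 c φ) (0, x0.2)
    (by rw [mul_comm]; exact (le_div_iff₀ (by positivity)).1 hη)
    ⟨hO.preimage (by fun_prop), fun y m => hU m, nm_on hb,
      fun y m => ⟨mem_closedBall_iff_norm.2 hp', mem y m⟩, fun y m w => ?_⟩ J'
    (nm_cd (by rw [e0]; exact at' _ (J.le m).1))
    (by
      rw [← sh_zero]
      exact (nm_jb (by rw [e0]; exact at' _ (J.le m).1) (by rwa [e0, add_zero, add_zero])).mono le_rfl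
        (by nlinarith)) (x + (-x0.1, 0)) (by rwa [mem_preimage, e])
  · rw [← sh_zero] at this
    simpa only [add_zero, mul_assoc] using jb_nm (at' x m) this
  · have w' : 0 < rd (b (y + (x0.1, 0))) := by rw [← rd_sh]; exact w
    have t := hB p p' y ⟨mem_closedBall_iff_norm.2 hp, mem y m⟩ ⟨mem_closedBall_iff_norm.2 hp', mem y m⟩
    refine ((Jb.add ((pb_cd (famK.at w) (nm_cd (at' _ m))).sub t.su) (t.su.sub t.sv)
      (nm_pb (at' _ m) ((hx _ m).2 w')) t.bd).congr (.of_forall fun z => by simp)).mono le_rfl ?_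
    rw [norm_sub_rev] at hd
    nlinarith

/-- **AIK.** -/
theorem aik : AIK := by
  intro M0 a0 ρ L r0 k hρ hk
  obtain ⟨k, rfl⟩ := Nat.exists_eq_add_of_le' hk
  obtain ⟨C, δ, C0, δ0, H⟩ := ai2 (M0, a0) ρ L r0 k hρ
  have n := c16_nn
  refine ⟨C * (c16 + 1), δ / (c16 + 1), by positivity, by positivity,
    fun M a c φ η U O x0 b hM ha hη h0 hO hU hb J hx hj x m => ?_⟩
  have η0 := hj.nonneg
  have hp : ‖((M, a) : ℝ × ℝ) - (M0, a0)‖ ≤ 1 := max_le hM ha
  rw [mul_assoc]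
  exact H (M, a) (M, a) c φ _ U O x0 b hp hp (by rw [sub_self, norm_zero]; positivity)
    (by rw [mul_comm]; exact (le_div_iff₀ (by positivity)).1 hη) h0 hO hU hb J
    (fun x m => ⟨(hx x m).1, fun w => (jb_of_bd (p := (M, a)) (p' := (M, a)) (hb.contDiffAt (hO.mem_nhds (hU m)))
      (hρ.trans_le (hx x m).1) w (hx x m).2).mono le_rfl (by nlinarith)⟩)
    (hj.mono le_rfl (by nlinarith)) x m

end Vale.Agent.P354XM
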