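import Vale.Agent.P354YJ.Chain

/-!
SWITCH: the extension of a slice by shifts of the Kerr slices.
-/

open scoped ContDiff
open Set Filter Topology Metric Matrix

noncomputable section

namespace Vale.Agent.P354XM

open Vale.Agent.P354n (R4)
open Vale.Agent.P354I (X P3 rm rp)
open Vale.Agent.P354R (omm)
open Vale.Agent.P354D (sgn)
open Vale.Agent.P354XE (xs pt rd ch Par)
open Vale.Agent.P354XA (xs_pt rd_lin linL)
open Vale.Agent.P354XU (Jt)
open Vale.Agent.P354YR (ci DE DI isCh open_DE open_DI)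
open Vale.Agent.P354YJ
open Vale.Agent.P354YM

section
variable {E F G V : Type} [NormedAddCommGroup E] [NormedSpace ℝ E] [NormedAddCommGroup F]
  [NormedSpace ℝ F] [NormedAddCommGroup G] [NormedSpace ℝ G] [NormedAddCommGroup V]
  [NormedSpace ℝ V] {m : ℕ} {x : E} {c c' : ℝ} {u v : E → F}

theorem jt_mono {m' : ℕ} (h : Jt m u x c) (hm : m' ≤ m) (hc : c ≤ c') : Jt m' u x c' :=
  fun j hj => (h j (hj.trans hm)).trans hc

theorem jt_zero (h : Jt m u x c) : ‖u x‖ ≤ c := by simpa using h 0 (Nat.zero_le _)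

theorem jt_nonneg (h : Jt m u x c) : 0 ≤ c := (norm_nonneg _).trans (jt_zero h)

theorem jt_congr (h : Jt m u x c) (e : v =ᶠ[𝓝 x] u) : Jt m v x c := fun j hj => by
  rw [(e.iteratedFDeriv ℝ j).eq_of_nhds]; exact h j hj

theorem jt_ev0 (e : u =ᶠ[𝓝 x] fun _ => 0) (hc : 0 ≤ c) : Jt m u x c :=
  jt_congr (fun j _ => by simpa using hc) e

/-- The Leibniz rule. -/
theorem jt_bil {w : E → G} (L : F →L[ℝ] G →L[ℝ] V) (hL : ‖L‖ ≤ 1) (hu : ContDiffAt ℝ ∞ u x)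
    (hw : ContDiffAt ℝ ∞ w x) (h : Jt m u x c) (h' : Jt m w x c') :
    Jt m (fun y => L (u y) (w y)) x (2 ^ m * (c * c')) := fun j hj => by
  obtain ⟨t, ht, o, xt⟩ := _root_.eventually_nhds_iff.1 (((hu.of_le (le_inf' j)).eventually
    (by simp)).and ((hw.of_le (le_inf' j)).eventually (by simp)))
  have k := L.norm_iteratedFDerivWithin_le_of_bilinear_of_le_one (N := j) (n := j)
    (fun y hy => (ht y hy).1.contDiffWithinAt) (fun y hy => (ht y hy).2.contDiffWithinAt)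
    o.uniqueDiffOn xt le_rfl hL
  simp only [iteratedFDerivWithin_of_isOpen _ o xt] at k
  have c0 := jt_nonneg h
  have c1 := jt_nonneg h'
  refine k.trans ((Finset.sum_le_sum (g := fun i => (j.choose i : ℝ) * (c * c'))
    fun i hi => ?_).trans ?_)
  · rw [mul_assoc]
    have := Finset.mem_range.1 hi
    exact mul_le_mul_of_nonneg_left (mul_le_mul (h i (by omega)) (h' _ (by omega)) (norm_nonneg _)
      c0) (Nat.cast_nonneg _)
  · rw [← Finset.sum_mul, ← Nat.cast_sum, Nat.sum_range_choose, Nat.cast_pow, Nat.cast_ofNat]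
    exact mul_le_mul_of_nonneg_right (pow_le_pow_right₀ one_le_two hj) (mul_nonneg c0 c1)

/-- Composition with a linear map on the right. -/
theorem jt_lin (L : G →L[ℝ] E) {z : G} {K : ℝ} (hL : ‖L‖ ≤ K) (hK : 1 ≤ K)
    (hu : ContDiffAt ℝ ∞ u (L z)) (h : Jt m u (L z) c) : Jt m (u ∘ L) z (c * K ^ m) :=
  fun j hj => by
  obtain ⟨t, ht, o, xt⟩ := _root_.eventually_nhds_iff.1 ((hu.of_le (le_inf' j)).eventually
    (by simp))
  have o' := o.preimage L.continuous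
  have k := L.iteratedFDerivWithin_comp_right (n := j) (i := j)
    (fun y hy => (ht y hy).contDiffWithinAt) o.uniqueDiffOn o'.uniqueDiffOn xt le_rfl
  rw [iteratedFDerivWithin_of_isOpen _ o xt, iteratedFDerivWithin_of_isOpen _ o' xt] at k
  rw [k]
  refine (ContinuousMultilinearMap.norm_compContinuousLinearMap_le _ _).trans
    (mul_le_mul (h j hj) ?_ (by positivity) (jt_nonneg h))
  rw [Finset.prod_const, Finset.card_univ, Fintype.card_fin]
  exact (pow_le_pow_left₀ (norm_nonneg _) hL j).trans (pow_le_pow_right₀ hK hj)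

/-- The jets of a smooth function on a compact set. -/
theorem jt_cpt (m : ℕ) {K : Set E} (hK : IsCompact K) (hu : ∀ y ∈ K, ContDiffAt ℝ ∞ u y) :
    ∃ C, 0 < C ∧ ∀ y ∈ K, Jt m u y C := by
  choose C hC using fun j : ℕ => hK.exists_bound_of_continuousOn (f := iteratedFDeriv ℝ j u)
    fun y hy => ((hu y hy).continuousAt_iteratedFDeriv (le_inf' j)).continuousWithinAt
  refine ⟨∑ j ∈ Finset.range (m + 1), |C j| + 1, by positivity, fun y hy j hj => ?_⟩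
  have := Finset.single_le_sum (f := fun j => |C j|) (fun _ _ => abs_nonneg _)
    (Finset.mem_range.2 (Nat.lt_succ_of_le hj))
  linarith [hC j y hy, le_abs_self (C j)]

end

variable {M a : ℝ} {σ : Bool} {q : Par} {y : X} {v : R4}

theorem lg_cd (σ : Bool) (hy : y ≠ 0) : ContDiffAt ℝ ∞ (lg σ) y :=
  contDiffAt_const.mul ((contDiffAt_norm ℝ hy).log (norm_ne_zero_iff.2 hy))

theorem lg_not (σ : Bool) (y : X) : lg (!σ) y = -lg σ y := by cases σ <;> simp [lg, sgn]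

theorem rg_nhds {Z : Bool → ℝ} (h : y ∈ Rg Z) : Rg Z ∈ 𝓝 y :=
  (eventually_ne_nhds h.1).and (eventually_all.2 fun σ =>
    (lg_cd σ h.1).continuousAt.eventually_lt continuousAt_const (h.2 σ))

/-- The dilation as a linear map. -/
def dL (σ : Bool) (x : ℝ) : X →L[ℝ] X := Real.exp (sgn σ * x) • .id ℝ X

theorem dL_norm (σ : Bool) {x b : ℝ} (h : |x| ≤ b) : ‖dL σ x‖ ≤ Real.exp b := by
  rw [dL, norm_smul, Real.norm_of_nonneg (Real.exp_pos _).le]
  refine (mul_le_of_le_one_right (Real.exp_pos _).le ContinuousLinearMap.norm_id_le).trans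
    (Real.exp_le_exp.2 ?_)
  have := abs_le.1 h
  cases σ <;> simp only [sgn, cond_true, cond_false] <;> linarith

theorem dl_cd (σ : Bool) (x : ℝ) (y : X) : ContDiffAt ℝ ∞ (dl σ x) y := (dL σ x).contDiff.contDiffAt

theorem inv_lin (h : q.Rᵀ * q.R = 1) (hl : q.l ≠ 0) (v : R4) : inv q (q.lin v) = v := by
  rw [P354YM.inv.eq_1, Par.lin, xs_pt]
  simp only [mulVec_mulVec, h, one_mulVec]
  exact Prod.ext (mul_div_cancel_left₀ _ hl) rfl

theorem lin_inv (h : q.Rᵀ * q.R = 1) (hl : q.l ≠ 0) (v : R4) : q.lin (inv q v) = v := by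
  rw [Par.lin, P354YM.inv.eq_1, xs_pt]
  simp only [mulVec_mulVec, mul_eq_one_comm.1 h, one_mulVec]
  exact Prod.ext (mul_div_cancel₀ _ hl) rfl

theorem inv_cd (q : Par) : ContDiff ℝ ∞ (inv q) := by
  rw [show inv q = linL ⟨0, 0, q.l⁻¹, q.Rᵀ⟩ from funext fun v => by
    rw [P354YM.inv.eq_1, div_eq_inv_mul]; rfl]
  exact (linL _).contDiff

theorem lin_DI (h : q.Rᵀ * q.R = 1) (hv : v ∈ DI M a) : q.lin v ∈ DI M a := by
  rwa [DI, mem_ofPred_eq, rd_lin h]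

theorem cq_mem (hM : |a| < M) (h : q.Rᵀ * q.R = 1) (hv : v ∈ DI M a) : cq M a σ q v ∈ DE M a σ :=
  (isCh hM σ).maps (lin_DI h hv)

theorem cq_cd (hM : |a| < M) (h : q.Rᵀ * q.R = 1) (hv : v ∈ DI M a) :
    ContDiffAt ℝ ∞ (cq M a σ q) v :=
  ((isCh hM σ).pull.smooth.contDiffAt (open_DI.mem_nhds (lin_DI h hv))).comp v
    (linL q).contDiff.contDiffAt

theorem iq_cd (hM : |a| < M) (q : Par) (hv : v ∈ DE M a σ) : ContDiffAt ℝ ∞ (iq M a σ q) v :=
  (inv_cd q).contDiffAt.comp v ((isCh hM σ).back.smooth.contDiffAt ((open_DE σ).mem_nhds hv))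

theorem iq_cq (hM : |a| < M) (h : q.Rᵀ * q.R = 1) (hl : q.l ≠ 0) (hv : v ∈ DI M a) :
    iq M a σ q (cq M a σ q v) = v := by
  simp only [iq, cq, Function.comp, (isCh hM σ).left _ (lin_DI h hv), inv_lin h hl]

theorem cq_iq (hM : |a| < M) (h : q.Rᵀ * q.R = 1) (hl : q.l ≠ 0) (hv : v ∈ DE M a σ) :
    cq M a σ q (iq M a σ q v) = v := by
  simp only [iq, cq, Function.comp, lin_inv h hl, (isCh hM σ).right _ hv]

/-- A margin for the slices. -/
theorem margin {j : Jd} (h : j.Is) (ha : j.a ≠ 0) (hM : |j.a| < j.M) : ∃ e0 > 0, ∀ q : Par,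
    q.Near j.M j.a e0 → q.l ≠ 0 ∧ pp j.M q ∈ ball j.p0 j.ε0 ∧ ∀ σ, ∀ y ≠ 0, ∀ c φ v,
      ‖v - sh c φ (j.Js σ (pp j.M q) y)‖ ≤ e0 → v ∈ DI j.M j.a := by
  obtain ⟨r2, hr, hR, -⟩ := rad j h ha hM
  obtain ⟨e, ep, E⟩ := Metric.eventually_nhds_iff.1 (ev2 h hR)
  obtain ⟨e0, e0p, l1, l2⟩ : ∃ e0 > 0, e0 < e ∧ e0 ≤ 1 :=
    ⟨min (e / 2) 1, by positivity, (min_le_left _ _).trans_lt (by linarith), min_le_right _ _⟩
  refine ⟨e0, e0p, fun q hq => ?_⟩
  obtain ⟨⟨m, -⟩, F⟩ := @E (pp j.M q, e0) (by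
    simp only [Prod.dist_eq, pp, Jd.p0, Real.dist_eq, max_lt_iff, sub_self, sub_zero, abs_zero]
    exact ⟨⟨hq.1.trans l1, hq.2.1.trans l1, ep⟩, by rwa [abs_of_pos e0p]⟩)
  refine ⟨fun e => ?_, m, fun σ y hy c φ v hv => ?_⟩
  · have := hq.2.2.1
    rw [e] at this
    norm_num at this
    linarith
  have k := (F (dl σ (-lg σ y) y)
    ⟨dl_ne hy, by rw [← abs_lg σ, lg_dl hy, neg_add_cancel, abs_zero]; exact zero_le_one⟩ σ).1
  have k1 := abs_le.1 (P354YO.rd_lip v (sh c φ (j.Js σ (pp j.M q) y)))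
  rw [js_dl h m hy, rd_sh] at k
  rw [rd_sh] at k1
  exact show rm _ _ < _ by linarith [hr.1, k1.1]

/-- The cut off function. -/
def ct (o : ℝ) (σ : Bool) (u : X) : ℝ := 1 - Real.smoothTransition (2 * (lg σ u + o) / o)

theorem ct_cd (o : ℝ) (σ : Bool) (hy : y ≠ 0) : ContDiffAt ℝ ∞ (ct o σ) y :=
  contDiffAt_const.sub (Real.smoothTransition.contDiffAt.comp y
    ((contDiffAt_const.mul ((lg_cd σ hy).add contDiffAt_const)).div_const o))

theorem ct_one {o : ℝ} (ho : 0 < o) (h : lg σ y ≤ -o) : ct o σ y = 1 := by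
  rw [ct, Real.smoothTransition.zero_of_nonpos (div_nonpos_of_nonpos_of_nonneg (by linarith) ho.le),
    sub_zero]

theorem ct_zero {o : ℝ} (ho : 0 < o) (h : -(o / 2) ≤ lg σ y) : ct o σ y = 0 := by
  rw [ct, Real.smoothTransition.one_of_one_le ((one_le_div ho).2 (by linarith)), sub_self]

theorem ct_ev {o : ℝ} (ho : 0 < o) (hy : y ≠ 0) (h : -(o / 2) < lg σ y) (f : X → R4) :
    (fun u => ct o σ u • f u) =ᶠ[𝓝 y] fun _ => 0 :=
  (continuousAt_const.eventually_lt (lg_cd σ hy).continuousAt h).mono fun u hu => by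
    simp [ct_zero ho hu.le]

/-- The cut off difference. -/
theorem ct_jt (n : ℕ) {o : ℝ} (ho : 0 < o) : ∃ A, 0 < A ∧ ∀ σ (f : X → R4) ε, 0 ≤ ε →
    (∀ u ≠ 0, -4 ≤ lg σ u → lg σ u < 0 → ContDiffAt ℝ ∞ f u ∧ Jt n f u ε) → ∀ u ≠ 0,
      -4 ≤ lg σ u → ContDiffAt ℝ ∞ (fun u => ct o σ u • f u) u ∧
        Jt n (fun u => ct o σ u • f u) u (A * ε) := by
  choose C C0 hC using fun σ => jt_cpt n (shell_cpt 4) fun y hy => ct_cd o σ hy.1
  have p1 := C0 true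
  have p2 := C0 false
  refine ⟨2 ^ n * (C true + C false), by positivity, fun σ f ε ε0 hf u hu h4 => ?_⟩
  rcases lt_or_ge (-(o / 2)) (lg σ u) with h | h
  · exact ⟨contDiffAt_const.congr_of_eventuallyEq (ct_ev ho hu h f),
      jt_ev0 (ct_ev ho hu h f) (by positivity)⟩
  obtain ⟨s, b⟩ := hf u hu h4 (by linarith)
  refine ⟨(ct_cd o σ hu).smul s, jt_mono (jt_bil (ContinuousLinearMap.lsmul ℝ ℝ)
    ContinuousLinearMap.opNorm_lsmul_le (ct_cd o σ hu) s (jt_mono (hC σ u ⟨hu, ?_⟩) le_rfl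
      (show _ ≤ C true + C false by cases σ <;> linarith)) b) le_rfl (le_of_eq (by ring))⟩
  rw [← abs_lg σ, abs_le]
  exact ⟨h4, by linarith⟩

theorem rpow_cmp {s x Z : ℝ} (hs : 0 ≤ s) (hx : 0 ≤ x) (h : x ≤ Z + 1) (hZ : 0 ≤ Z) :
    (1 + Z) ^ (-s) ≤ 2 ^ s * (1 + x) ^ (-s) := by
  have h1 : (2 * (1 + Z)) ^ (-s) ≤ (1 + x) ^ (-s) :=
    Real.rpow_le_rpow_of_nonpos (by linarith) (by linarith) (by linarith)
  rw [Real.mul_rpow zero_le_two (by linarith), Real.rpow_neg zero_le_two] at h1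
  rwa [← inv_mul_le_iff₀ (Real.rpow_pos_of_pos two_pos s)]

/-- **SWITCH.** -/
theorem switch : SWITCH := by
  intro j r1 r0 r2 s δ h hB hX n o ho e' he'
  have hM := hB.lt
  have s0 : 0 ≤ s := by linarith [hB.hs]
  obtain ⟨e0, e0p, E0⟩ := margin h hB.ne hM
  obtain ⟨A, A0, HA⟩ := ct_jt n ho.1
  obtain ⟨K, hK⟩ : ∃ K : ℝ, K = A * 2 ^ s * Real.exp 3 ^ n := ⟨_, rfl⟩
  have K0 : 0 < K := by rw [hK]; positivity
  obtain ⟨e, ep, l1, l2, l3⟩ : ∃ e > 0, e ≤ e0 ∧ A * e ≤ e0 ∧ K * e ≤ e' :=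
    ⟨min e0 (min (e0 / A) (e' / K)), by positivity, min_le_left _ _,
      (le_div_iff₀' A0).1 ((min_le_right _ _).trans (min_le_left _ _)),
      (le_div_iff₀' K0).1 ((min_le_right _ _).trans (min_le_right _ _))⟩
  refine ⟨e, ep, fun Z J q hZ hq sJ hL => ?_⟩
  choose c φ hL using hL
  have Z6 : ∀ σ, 6 ≤ Z σ := fun σ => by linarith [hZ σ]
  have oR := fun σ => (hq σ).2.2.2.1
  have E := fun σ => E0 (q σ) ⟨(hq σ).1.trans_le l1, (hq σ).2.1.trans_le l1,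
    (hq σ).2.2.1.trans_le l1, oR σ, fun i k => ((hq σ).2.2.2.2 i k).trans_le l1⟩
  obtain ⟨S, hS⟩ : ∃ S : Bool → X → R4, S = fun σ u => sh (c σ) (φ σ) (j.Js σ (pp j.M (q σ)) u) :=
    ⟨_, rfl⟩
  obtain ⟨H, hH⟩ : ∃ H : Bool → X → R4,
      H = fun σ u => ct o σ u • (iq j.M j.a σ (q σ) (J (dl σ (Z σ) u)) - S σ u) := ⟨_, rfl⟩
  have sS : ∀ σ, ∀ u ≠ 0, ContDiffAt ℝ ∞ (S σ) u := fun σ u hu => by
    rw [hS]
    exact (sh_cd _ _).contDiffAt.comp u ((js_cd h (E σ).2.1 hu σ).comp u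
      (f := fun z => (pp j.M (q σ), z)) (contDiffAt_const.prodMk contDiffAt_id))
  have rg : ∀ σ, ∀ y ≠ 0, Z σ - 4 ≤ lg σ y → lg σ y < Z σ → y ∈ Rg Z := fun σ y hy h1 h2 =>
    ⟨hy, fun σ' => by
      rcases eq_or_ne σ' σ with rfl | e
      · exact h2
      · rw [Bool.eq_not_of_ne e, lg_not]; linarith [Z6 σ, Z6 (!σ)]⟩
  have rg' : ∀ σ, ∀ u ≠ 0, -4 ≤ lg σ u → lg σ u < 0 → dl σ (Z σ) u ∈ Rg Z := fun σ u hu h1 h2 =>
    rg σ _ (dl_ne hu) (by rw [lg_dl hu]; linarith) (by rw [lg_dl hu]; linarith)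
  have w0 : ∀ σ, 0 ≤ (1 + Z σ) ^ (-s) := fun σ => Real.rpow_nonneg (by linarith [Z6 σ]) _
  have sH : ∀ σ, ∀ u ≠ 0, -4 ≤ lg σ u → ContDiffAt ℝ ∞ (H σ) u ∧
      Jt n (H σ) u (A * (e * (1 + Z σ) ^ (-s))) := fun σ => by
    rw [hH]
    refine HA σ _ _ (mul_nonneg ep.le (w0 σ)) fun u hu h1 h2 => ?_
    obtain ⟨k1, k2⟩ := hL σ u hu ⟨h1, h2.le⟩ (rg' σ u hu h1 h2)
    have k3 : ContDiffAt ℝ ∞ (fun u => J (dl σ (Z σ) u)) u :=
      (sJ.contDiffAt (rg_nhds (rg' σ u hu h1 h2))).comp u (dl_cd _ _ _)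
    exact ⟨((iq_cd hM (q σ) k1).comp u (f := fun u => J (dl σ (Z σ) u)) k3).sub (sS σ u hu),
      by rw [hS]; exact k2⟩
  obtain ⟨W, hW⟩ : ∃ W : Bool → X → R4,
      W = fun σ y => S σ (dl σ (-Z σ) y) + H σ (dl σ (-Z σ) y) := ⟨_, rfl⟩
  have sW : ∀ σ, ∀ y ≠ 0, Z σ - 4 ≤ lg σ y → ContDiffAt ℝ ∞ (W σ) y ∧ W σ y ∈ DI j.M j.a :=
    fun σ y hy h1 => by
    obtain ⟨k1, k2⟩ := sH σ (dl σ (-Z σ) y) (dl_ne hy) (by rw [lg_dl hy]; linarith)
    rw [hW]
    refine ⟨((sS σ _ (dl_ne hy)).comp y (dl_cd _ _ _)).add (k1.comp y (dl_cd _ _ _)),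
      (E σ).2.2 σ (dl σ (-Z σ) y) (dl_ne hy) (c σ) (φ σ) _ ?_⟩
    have k3 : (1 + Z σ) ^ (-s) ≤ 1 := Real.rpow_le_one_of_one_le_of_nonpos (by linarith [Z6 σ])
      (by linarith)
    simp only [hS, add_sub_cancel_left]
    exact (jt_zero k2).trans ((mul_le_mul_of_nonneg_left (mul_le_of_le_one_right ep.le k3)
      A0.le).trans l2)
  obtain ⟨J', hJ⟩ : ∃ J' : X → R4, J' = fun y =>
      if Z true - o ≤ lg true y then cq j.M j.a true (q true) (W true y)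
      else if Z false - o ≤ lg false y then cq j.M j.a false (q false) (W false y) else J y :=
    ⟨_, rfl⟩
  have e1 : ∀ y, (∀ σ, lg σ y < Z σ - o) → J' y = J y := fun y hy => by
    rw [hJ]
    simp only [if_neg (hy true).not_ge, if_neg (hy false).not_ge]
  have e2 : ∀ σ y, Z σ - o ≤ lg σ y → J' y = cq j.M j.a σ (q σ) (W σ y) := fun σ y hy => by
    rw [hJ]
    cases σ
    · have : ¬Z true - o ≤ lg true y := by
        rw [show lg true y = -lg false y from lg_not false y]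
        linarith [Z6 true, Z6 false, ho.2]
      simp only [if_neg this, if_pos hy]
    · simp only [if_pos hy]
  have e3 : ∀ σ, ∀ y ≠ 0, Z σ - 4 ≤ lg σ y →
      J' =ᶠ[𝓝 y] fun z => cq j.M j.a σ (q σ) (W σ z) := fun σ y hy h1 => by
    have c1 := (lg_cd σ hy).continuousAt
    have a1 : ∀ᶠ z in 𝓝 y, lg σ z < Z σ - o → J z ∈ DE j.M j.a σ := by
      rcases lt_or_ge (lg σ y) (Z σ) with h2 | h2
      · have := (hL σ (dl σ (-Z σ) y) (dl_ne hy) (by rw [lg_dl hy]; constructor <;> linarith)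
          (by rw [dl_dl, add_neg_cancel, dl_zero]; exact rg σ y hy h1 h2)).1
        rw [dl_dl, add_neg_cancel, dl_zero] at this
        exact ((sJ.contDiffAt (rg_nhds (rg σ y hy h1 h2))).continuousAt.eventually
          ((open_DE σ).mem_nhds this)).mono fun z hz _ => hz
      · exact (continuousAt_const.eventually_lt c1 (show Z σ - o < _ by linarith [ho.1])).mono
          fun z hz hz' => absurd hz hz'.not_gt
    filter_upwards [a1, eventually_ne_nhds hy, continuousAt_const.eventually_lt c1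
      (show 0 < _ by linarith [Z6 σ])] with z a1 a2 a3
    rcases le_or_gt (Z σ - o) (lg σ z) with h2 | h2
    · exact e2 σ z h2
    rw [e1 z fun σ' => ?_, hW, hH]
    · simp only [ct_one ho.1 (show lg σ (dl σ (-Z σ) z) ≤ -o by rw [lg_dl a2]; linarith), one_smul,
        add_sub_cancel, dl_dl, add_neg_cancel, dl_zero, cq_iq hM (oR σ) (E σ).1 (a1 h2)]
    · rcases eq_or_ne σ' σ with rfl | e
      · exact h2
      · rw [Bool.eq_not_of_ne e, lg_not]; linarith [Z6 (!σ), ho.2]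
  have eS : ∀ σ x, ∃ c' φ', ∀ z ≠ 0, S σ (dl σ x z) = sh c' φ' (j.Js σ (pp j.M (q σ)) z) :=
    fun σ x => ⟨_, _, fun z hz => by simp only [hS]; rw [js_dl h (E σ).2.1 hz, sh_sh]⟩
  refine ⟨J', fun y hy => e1 y hy.2, fun σ => ?_, fun y hy => ?_, fun σ x hx => ?_⟩
  · obtain ⟨c', φ', k⟩ := eS σ (-Z σ)
    refine ⟨c', φ', fun y hy h1 => ?_⟩
    rw [e2 σ y (by linarith [ho.1]), hW, hH]
    simp only [ct_zero ho.1 (show -(o / 2) ≤ lg σ (dl σ (-Z σ) y) by rw [lg_dl hy]; linarith [ho.1]),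
      zero_smul, add_zero, k y hy]
  · refine ContDiffAt.contDiffWithinAt ?_
    by_cases h1 : ∃ σ, Z σ - 4 ≤ lg σ y
    · obtain ⟨σ, h1⟩ := h1
      obtain ⟨k1, k2⟩ := sW σ y hy h1
      exact ((cq_cd hM (oR σ) k2).comp y k1).congr_of_eventuallyEq (e3 σ y hy h1)
    push Not at h1
    have m : y ∈ Rg fun σ => Z σ - o := ⟨hy, fun σ => by linarith [h1 σ, ho.2]⟩
    exact (sJ.contDiffAt (rg_nhds ⟨hy, fun σ => by linarith [h1 σ]⟩)).congr_of_eventuallyEq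
      (Filter.mem_of_superset (rg_nhds m) fun z hz => e1 z hz.2)
  obtain ⟨c', φ', k⟩ := eS σ (x - Z σ)
  refine ⟨c', φ', fun y hy hl _ => ?_⟩
  have h1 : Z σ - 4 ≤ lg σ (dl σ x y) := by rw [lg_dl hy]; linarith [hl.1]
  obtain ⟨k1, k2⟩ := sW σ _ (dl_ne hy) h1
  have k3 := e3 σ _ (dl_ne hy) h1
  have cd := (dl_cd σ x y).continuousAt
  refine ⟨k3.eq_of_nhds ▸ cq_mem hM (oR σ) k2, ?_⟩
  have e4 : (fun z => iq j.M j.a σ (q σ) (J' (dl σ x z)) - sh c' φ' (j.Js σ (pp j.M (q σ)) z))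
      =ᶠ[𝓝 y] H σ ∘ dL σ (x - Z σ) := by
    filter_upwards [cd.eventually k3, cd.eventually (k1.continuousAt.eventually
      (open_DI.mem_nhds k2)), eventually_ne_nhds hy] with z a1 a2 a3
    rw [a1, iq_cq hM (oR σ) (E σ).1 a2, ← k z a3, hW]
    simp only [dl_dl, neg_add_eq_sub, add_sub_cancel_left]
    rfl
  have x0 : 0 ≤ x := by linarith [Z6 σ]
  have w1 : 0 ≤ (1 + x) ^ (-s) := Real.rpow_nonneg (by linarith) _
  have u0 : dl σ (x - Z σ) y ≠ 0 := dl_ne hy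
  refine jt_congr ?_ e4
  rcases lt_or_ge (Z σ + 1) x with h2 | h2
  · refine jt_ev0 ?_ (by positivity)
    have k4 : -(o / 2) < lg σ (dl σ (x - Z σ) y) := by rw [lg_dl hy]; linarith [hl.1, ho.1]
    have k5 : H σ =ᶠ[𝓝 (dl σ (x - Z σ) y)] fun _ => 0 := by rw [hH]; exact ct_ev ho.1 u0 k4 _
    exact (dl_cd σ (x - Z σ) y).continuousAt.eventually k5
  obtain ⟨k4, k5⟩ := sH σ _ u0 (by rw [lg_dl hy]; linarith [hl.1])
  refine jt_mono (jt_lin (dL σ (x - Z σ)) (dL_norm σ (b := 3) (abs_le.2 ⟨by linarith, by linarith⟩))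
    (Real.one_le_exp (by norm_num)) k4 k5) le_rfl ?_
  have k6 := rpow_cmp s0 x0 h2 (by linarith [Z6 σ])
  calc _ ≤ A * (e * (2 ^ s * (1 + x) ^ (-s))) * Real.exp 3 ^ n := by gcongr
    _ = K * e * (1 + x) ^ (-s) := by rw [hK]; ring
    _ ≤ _ := by gcongr

end Vale.Agent.P354XM
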