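import Vale.Agent.P354XM.AI

/-!
Two scalar invariants of the curvature: smooth functions of the 2-jet, natural under pull back.
-/

set_option maxSynthPendingDepth 3

open scoped ContDiff Kronecker
open Set Filter Topology

noncomputable section

namespace Vale.Agent.P354XM

open Vale.Agent.P354n (R4)
open Vale.Agent.P354R (Pull)
open Vale.Agent.P354RC

/-- Functions of four vectors which are linear in each of them. -/
structure ML (R : R4 → R4 → R4 → R4 → ℝ) : Prop where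
  l1 : ∀ b c d, IsLinearMap ℝ fun a => R a b c d
  l2 : ∀ a c d, IsLinearMap ℝ fun b => R a b c d
  l3 : ∀ a b d, IsLinearMap ℝ fun c => R a b c d
  l4 : ∀ a b c, IsLinearMap ℝ fun d => R a b c d

theorem lin_sum {f : R4 → ℝ} (l : IsLinearMap ℝ f) (c : Fin 4 → ℝ) (u : Fin 4 → R4) :
    f (∑ i, c i • u i) = ∑ i, c i * f (u i) :=
  (map_sum (IsLinearMap.mk' _ l) _ _).trans (Finset.sum_congr rfl fun _ _ => l.map_smul _ _)

theorem ML.sum {R : R4 → R4 → R4 → R4 → ℝ} (m : ML R) (x y z w : Fin 4 → ℝ) (u v : Fin 4 → R4) :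
    R (∑ i, x i • u i) (∑ i, y i • u i) (∑ i, z i • v i) (∑ i, w i • v i) =
      ∑ i, x i * ∑ j, y j * ∑ k, z k * ∑ l, w l * R (u i) (u j) (v k) (v l) := by
  simp only [lin_sum (m.l1 _ _ _), lin_sum (m.l2 _ _ _), lin_sum (m.l3 _ _ _), lin_sum (m.l4 _ _ _)]

theorem ML.ext {R R' : R4 → R4 → R4 → R4 → ℝ} (m : ML R) (m' : ML R')
    (e : ∀ i j k l, R (bs i) (bs j) (bs k) (bs l) = R' (bs i) (bs j) (bs k) (bs l)) (a b c d : R4) :
    R a b c d = R' a b c d := by
  rw [← sum_bs a, ← sum_bs b, ← sum_bs c, ← sum_bs d, m.sum, m'.sum]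
  simp only [e]

theorem ml_Rm (h : R4 → B2) (y : R4) : ML (Rm h y) :=
  ⟨fun _ _ _ => ⟨fun _ _ => by simp only [Rm, dC, Gm_add1, map_add, add_apply]; ring,
      fun _ _ => by simp only [Rm, dC, Gm_smul1, map_smul, smul_apply, smul_eq_mul]; ring⟩,
    fun _ _ _ => ⟨fun _ _ => by simp only [Rm, dC, Gm_add1, map_add, add_apply]; ring,
      fun _ _ => by simp only [Rm, dC, Gm_smul1, map_smul, smul_apply, smul_eq_mul]; ring⟩,
    fun _ _ _ => ⟨fun _ _ => by simp only [Rm, dC, Gm_add2, map_add, add_apply]; ring,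
      fun _ _ => by simp only [Rm, dC, Gm_smul2, map_smul, smul_apply, smul_eq_mul]; ring⟩,
    fun _ _ _ => ⟨fun _ _ => by simp only [Rm, dC, Gm_add2, map_add, add_apply]; ring,
      fun _ _ => by simp only [Rm, dC, Gm_smul2, map_smul, smul_apply, smul_eq_mul]; ring⟩⟩

/-- The matrix of the curvature operator in dual bases, and the two traces. -/
def Mx (R : R4 → R4 → R4 → R4 → ℝ) (E E' : Fin 4 → R4) :
    Matrix (Fin 4 × Fin 4) (Fin 4 × Fin 4) ℝ :=
  Matrix.of fun A B => R (E' A.1) (E' A.2) (E B.1) (E B.2)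
def trs (M : Matrix (Fin 4 × Fin 4) (Fin 4 × Fin 4) ℝ) : ℝ × ℝ := ((M * M).trace, (M * M * M).trace)

theorem trs_conj {ι : Type} [Fintype ι] [DecidableEq ι] {M P Q : Matrix ι ι ℝ} (h : P * Q = 1) :
    (Q * M * P * (Q * M * P)).trace = (M * M).trace ∧
      (Q * M * P * (Q * M * P) * (Q * M * P)).trace = (M * M * M).trace := by
  have e : ∀ X : Matrix ι ι ℝ, P * (Q * X) = X := fun X => by rw [← mul_assoc, h, one_mul]
  have t : ∀ X : Matrix ι ι ℝ, (Q * (X * P)).trace = X.trace := fun X => by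
    rw [Matrix.trace_mul_comm, mul_assoc, h, mul_one]
  constructor
  · rw [← t (M * M)]; simp only [mul_assoc, e]
  · rw [← t (M * M * M)]; simp only [mul_assoc, e]

theorem trs_dual {h : B2} (hs : ∀ a b, h a b = h b a) {E E' F F' : Fin 4 → R4} (d : Dual h E E')
    (d' : Dual h F F') {R : R4 → R4 → R4 → R4 → ℝ} (m : ML R) :
    trs (Mx R F F') = trs (Mx R E E') := by
  have d2 : Dual h E' E := fun i j => by rw [hs, d j i]; simp only [eq_comm]
  set P : Matrix (Fin 4) (Fin 4) ℝ := Matrix.of fun i j => h (F j) (E' i) with hP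
  set Q : Matrix (Fin 4) (Fin 4) ℝ := Matrix.of fun i j => h (F' i) (E j) with hQ
  have PQ : P * Q = 1 := by
    ext i k
    have := congrArg (fun v => h v (E' i)) (d'.exp (E k))
    simp only [map_sum, map_smul, sum_apply, smul_apply, smul_eq_mul, d k i] at this
    rw [Matrix.mul_apply, Matrix.one_apply, if_congr eq_comm rfl rfl, this]
    exact Finset.sum_congr rfl fun j _ => by simp only [hP, hQ, Matrix.of_apply, hs (F' j), mul_comm]
  have e : Mx R F F' = Q ⊗ₖ Q * Mx R E E' * P ⊗ₖ P := by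
    ext A B
    rw [Mx, Matrix.of_apply, d2.exp (F' A.1), d2.exp (F' A.2), d.exp (F B.1), d.exp (F B.2), m.sum,
      mul_assoc]
    simp only [Matrix.mul_apply, Fintype.sum_prod_type, Matrix.kroneckerMap_apply, hP, hQ, Mx,
      Matrix.of_apply, Finset.mul_sum]
    exact Finset.sum_congr rfl fun _ _ => Finset.sum_congr rfl fun _ _ =>
      Finset.sum_congr rfl fun _ _ => Finset.sum_congr rfl fun _ _ => by ring
  have := trs_conj (M := Mx R E E') (P := P ⊗ₖ P) (Q := Q ⊗ₖ Q)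
    (by rw [← Matrix.mul_kronecker_mul, PQ, Matrix.one_kronecker_one])
  rw [e, trs, trs, this.1, this.2]

/-- The 2-jets, and the curvature as a function of the 2-jet. -/
abbrev J2 : Type := J1 × (R4 →L[ℝ] R4 →L[ℝ] B2)
instance nJ2 : NormedAddCommGroup J2 := inferInstance
instance sJ2 : NormedSpace ℝ J2 := inferInstance
instance finJ2 : @FiniteDimensional ℝ J2 _ nJ2.toAddCommGroup sJ2.toModule :=
  @Module.Finite.prod ℝ J1 _ _ _ _ _ _ finJ finB4

def j2 (h : R4 → B2) (y : R4) : J2 := ((h y, fderiv ℝ h y), fderiv ℝ (fderiv ℝ h) y)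

def RJ (J : J2) (a b c d : R4) : ℝ :=
  (J.2 a b c d + J.2 a c b d - J.2 a d b c) / 2 - (J.2 b a c d + J.2 b c a d - J.2 b d a c) / 2 -
    J.1.1 (GJ J.1 b c) (GJ J.1 a d) + J.1.1 (GJ J.1 a c) (GJ J.1 b d)

theorem Rm_eq (h : R4 → B2) (y : R4) : Rm h y = RJ (j2 h y) := rfl

theorem RJ_cd {Q : Type} [NormedAddCommGroup Q] [NormedSpace ℝ Q] {J : Q → J2} {a b c d : Q → R4}
    {q : Q} (hi : (J q).1.1.IsInvertible) (hJ : ContDiffAt ℝ ∞ J q) (ha : ContDiffAt ℝ ∞ a q)
    (hb : ContDiffAt ℝ ∞ b q) (hc : ContDiffAt ℝ ∞ c q) (hd : ContDiffAt ℝ ∞ d q) :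
    ContDiffAt ℝ ∞ (fun q => RJ (J q) (a q) (b q) (c q) (d q)) q := by
  have k : ∀ {a b c d : Q → R4}, ContDiffAt ℝ ∞ a q → ContDiffAt ℝ ∞ b q → ContDiffAt ℝ ∞ c q →
      ContDiffAt ℝ ∞ d q → ContDiffAt ℝ ∞ (fun q => (J q).2 (a q) (b q) (c q) (d q)) q :=
    fun ha hb hc hd => (((hJ.snd.clm_apply ha).clm_apply hb).clm_apply hc).clm_apply hd
  have g : ∀ {a b c d : Q → R4}, ContDiffAt ℝ ∞ a q → ContDiffAt ℝ ∞ b q → ContDiffAt ℝ ∞ c q →
      ContDiffAt ℝ ∞ d q → ContDiffAt ℝ ∞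
        (fun q => (J q).1.1 (GJ (J q).1 (a q) (b q)) (GJ (J q).1 (c q) (d q))) q :=
    fun ha hb hc hd => (hJ.fst.fst.clm_apply (GJ_cd (J := fun q => (J q).1) hi hJ.fst ha hb)).clm_apply
      (GJ_cd (J := fun q => (J q).1) hi hJ.fst hc hd)
  exact ((((((k ha hb hc hd).add (k ha hc hb hd)).sub (k ha hd hb hc)).div_const 2).sub
    ((((k hb ha hc hd).add (k hb hc ha hd)).sub (k hb hd ha hc)).div_const 2)).sub
    (g hb hc ha hd)).add (g ha hc hb hd)

/-- The invariants as functions of the 2-jet. -/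
def IJ (J : J2) : ℝ × ℝ := trs (Mx (RJ J) bs fun i => J.1.1.inverse (cv i))

theorem IJ_cd {J : J2} (hi : J.1.1.IsInvertible) : ContDiffAt ℝ ∞ IJ J := by
  have i : ∀ i, ContDiffAt ℝ ∞ (fun J : J2 => J.1.1.inverse (cv i)) J := fun i =>
    (hi.contDiffAt_map_inverse.comp J contDiffAt_fst.fst).clm_apply contDiffAt_const
  have m : ∀ A B, ContDiffAt ℝ ∞ (fun J : J2 => Mx (RJ J) bs (fun i => J.1.1.inverse (cv i)) A B) J :=
    fun A B => RJ_cd (J := id) hi contDiffAt_id (i _) (i _) contDiffAt_const contDiffAt_const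
  unfold IJ trs
  simp only [Matrix.trace, Matrix.diag, Matrix.mul_apply]
  exact (ContDiffAt.sum fun _ _ => ContDiffAt.sum fun _ _ => (m _ _).mul (m _ _)).prodMk
    (ContDiffAt.sum fun _ _ => ContDiffAt.sum fun _ _ =>
      (ContDiffAt.sum fun _ _ => (m _ _).mul (m _ _)).mul (m _ _))

variable {g g' : R4 → R4 → R4 → ℝ} {h : R4 → B2} {D D' : Set R4} {y : R4} {f : R4 → R4}

theorem IJ_dual (r : Rp g h D) (hy : y ∈ D) {E E' : Fin 4 → R4} (d : Dual (h y) E E') :
    IJ (j2 h y) = trs (Mx (Rm h y) E E') :=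
  (trs_dual (r.symm y hy) (r.dual hy) d (ml_Rm h y)).symm

theorem IJ_pb (p : Pull f g' D' g D) (r : Rp g h D) (hy : y ∈ D') :
    IJ (j2 (pb h f) y) = IJ (j2 h (f y)) := by
  rw [IJ_dual r (p.maps hy) (E := fun i => fderiv ℝ f y (bs i))
    (E' := fun i => fderiv ℝ f y ((pb h f y).inverse (cv i))) ((rp_pb p r).dual hy), IJ, ← Rm_eq]
  refine congrArg trs (Matrix.ext fun A B => ?_)
  exact Rm_pb p r hy _ _ _ _

theorem Rm_anti (r : Rp g h D) (hy : y ∈ D) (a b c d : R4) : Rm h y a b c d = -Rm h y a b d c := by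
  have k := r.at hy
  have s : ∀ a b c d, fderiv ℝ (fderiv ℝ h) y a b c d = fderiv ℝ (fderiv ℝ h) y a b d c :=
    fun a b c d => by
      have e : ∀ c d, fderiv ℝ (fderiv ℝ h) y a b c d =
          fderiv ℝ (fun z => fderiv ℝ h z b c d) y a := fun c d => by
        rw [fd_ap0 (((at_fd k).clm_apply contDiffAt_const).clm_apply contDiffAt_const),
          fd_ap0 ((at_fd k).clm_apply contDiffAt_const), fd_ap0 (at_fd k)]
      rw [e, e]
      refine congrFun (congrArg _ (EventuallyEq.fderiv_eq ?_)) _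
      filter_upwards [r.op.mem_nhds hy] with z hz using Rp.dsym r hz b c d
  simp only [Rm, dC]
  rw [r.symm y hy (Gm h y b d), r.symm y hy (Gm h y a d), s a b d c, s b a d c, sym2 k b a]
  ring

theorem j2_tm {m : ℕ} {B ε : ℝ} {x : R4} {u v : R4 → B2} (t : Tm (m + 2) B ε x u v) :
    Tm m B ε x (j2 u) (j2 v) :=
  ((t.mono (by omega) le_rfl le_rfl).pair (t.fd.mono (by omega) le_rfl le_rfl)).pair t.fd.fd

end Vale.Agent.P354XM
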