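import Vale.Agent.P354XE.Defs

/-!
KRIG: quantitative rigidity of almost isometries between Kerr metrics. The exact statement.
-/

open scoped ContDiff
open Set Filter Topology

noncomputable section

namespace Vale.Agent.P354XM

open Vale.Agent.P354n (R4)
open Vale.Agent.P354XE (Tw rd pb gin Bd)

/-- The shift of the time by c and the rotation about the axis by the angle φ. -/
def sh (c φ : ℝ) (p : R4) : R4 :=
  (p.1 + c, Real.cos φ * p.2.1 - Real.sin φ * p.2.2.1, Real.sin φ * p.2.1 + Real.cos φ * p.2.2.1,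
    p.2.2.2)

/-- Every point of U is joined with x0 inside U by a curve of speed at most L. -/
def Join (U : Set R4) (x0 : R4) (L : ℝ) : Prop :=
  ∀ x ∈ U, ∃ γ γ' : ℝ → R4, γ 0 = x0 ∧ γ 1 = x ∧
    ∀ s ∈ Icc (0 : ℝ) 1, γ s ∈ U ∧ HasDerivAt γ (γ' s) s ∧ ‖γ' s‖ ≤ L

/-- The derivatives of order at most m of u at x are at most c. -/
def Jb {E : Type} [NormedAddCommGroup E] [NormedSpace ℝ E] (m : ℕ) (u : R4 → E) (x : R4)
    (c : ℝ) : Prop := ∀ j ≤ m, ‖iteratedFDeriv ℝ j u x‖ ≤ c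

/-- A base point: in the half plane φ = 0, not on the equator, and 3 r^2 ≠ a^2 cos^2 θ. -/
def Base (a : ℝ) (y : ℝ × ℝ × ℝ) : Prop :=
  0 < y.1 ∧ y.2.1 = 0 ∧ y.2.2 ≠ 0 ∧ a ^ 2 * y.2.2 ^ 2 ≠ 3 * (y.1 ^ 2 + y.2.2 ^ 2) ^ 2

/-- KRIG. If b pulls the Kerr metric with the parameters (M', a') back to the Kerr metric with the
parameters (M, a) up to η in C^k on U, and the 1-jet of b at the base point is ν-close to the
1-jet of a shift, then the parameters agree up to C η, and b is a shift up to C η in C^(k+1). -/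
def KRIG : Prop :=
  ∀ (M0 a0 ρ L : ℝ) (y0 : ℝ × ℝ × ℝ) (k : ℕ), M0 ≠ 0 → a0 ≠ 0 → 0 < ρ → Base a0 y0 → 3 ≤ k →
    ∃ C δ : ℝ, 0 < C ∧ 0 < δ ∧ ∀ (M a M' a' t0 c φ η ν : ℝ) (U O : Set R4) (b : R4 → R4),
      |M - M0| ≤ δ → |a - a0| ≤ δ → |M' - M0| ≤ δ → |a' - a0| ≤ δ → η ≤ δ → ν ≤ δ →
      IsOpen O → U ⊆ O → ContDiffOn ℝ ∞ b O → (t0, y0) ∈ U → Join U (t0, y0) L →
      (∀ x ∈ U, ρ ≤ rd x ∧ Bd k (pb b (gin M' a') - gin M a) x η) →
      Jb 1 (b - sh c φ) (t0, y0) ν →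
      |M' - M| ≤ C * η ∧ |a' - a| ≤ C * η ∧ ∃ c' φ', |c' - c| ≤ C * ν ∧ |φ' - φ| ≤ C * ν ∧
        ∀ x ∈ U, Jb (k + 1) (b - sh c' φ') x (C * η)

/-- AI. The propagation alone: an almost isometry of a Kerr metric whose 1-jet at one point is
close to the 1-jet of a shift is close to this shift. -/
def AIK : Prop :=
  ∀ (M0 a0 ρ L r0 : ℝ) (k : ℕ), 0 < ρ → 1 ≤ k →
    ∃ C δ : ℝ, 0 < C ∧ 0 < δ ∧ ∀ (M a c φ η : ℝ) (U O : Set R4) (x0 : R4) (b : R4 → R4),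
      |M - M0| ≤ 1 → |a - a0| ≤ 1 → η ≤ δ → rd x0 ≤ r0 →
      IsOpen O → U ⊆ O → ContDiffOn ℝ ∞ b O → Join U x0 L →
      (∀ x ∈ U, ρ ≤ rd x ∧ Bd k (pb b (gin M a) - gin M a) x η) → Jb 1 (b - sh c φ) x0 η →
      ∀ x ∈ U, Jb (k + 1) (b - sh c φ) x (C * η)

end Vale.Agent.P354XM
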