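import Vale.Agent.P354XM.Arg1
import Vale.Agent.P354XM.Kin
import Vale.Agent.P354YM.Props

/-!
ARG: almost isometries along a curve.
-/

set_option maxSynthPendingDepth 3

open scoped ContDiff
open Set Filter Topology Metric

noncomputable section

namespace Vale.Agent.P354XM

open Vale.Agent.P354n (R4)
open Vale.Agent.P354R (Met)
open Vale.Agent.P354RC
open Vale.Agent.P354XE (Tw Bd)

/-- A metric as a field of bilinear forms. -/
def bm (g : Tw) (y : R4) : B2 := bil (g y)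

variable {g g0 : Tw} {D O Ob : Set R4} {x : R4} {b : R4 → R4} {n : ℕ} {η : ℝ}

theorem bm_ap (m : Met g D) (hx : x ∈ D) (v w : R4) : bm g x v w = g x v w :=
  bil_lin (m.lin x hx) (m.symm x hx) v w

theorem met_at (o : IsOpen D) (m : Met g D) (hx : x ∈ D) (v w : R4) :
    ContDiffAt ℝ ∞ (fun y => g y v w) x := (m.smooth v w).contDiffAt (o.mem_nhds hx)

theorem bm_cd (o : IsOpen D) (m : Met g D) (hx : x ∈ D) : ContDiffAt ℝ ∞ (bm g) x :=
  bil_cd (met_at o m hx)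

theorem bm_fam (o : IsOpen D) (m : Met g D) : Fam (fun _ : ℝ => bm g) {q | q.2 ∈ D} :=
  ⟨o.preimage continuous_snd, fun q hq => (bm_cd o m hq).comp q contDiffAt_snd,
    fun q hq v w => by rw [bm_ap m hq, bm_ap m hq, m.symm _ hq],
    fun q hq v hv => m.nondeg _ hq v fun w => (bm_ap m hq v w).symm.trans (hv w)⟩

/-- From the components to the bilinear forms. -/
theorem jb_ev {f : Tw} {h : R4 → B2} (s : ContDiffAt ℝ ∞ h x)
    (e : ∀ᶠ y in 𝓝 x, ∀ v w, f y v w = h y v w) (H : Bd n f x η) : Jb n h x (c16 * η) := by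
  refine (bil_jb (fun v w => ?_) H).congr (e.mono fun y hy => ?_)
  · exact ((s.clm_apply contDiffAt_const).clm_apply contDiffAt_const).congr_of_eventuallyEq
      (e.mono fun y hy => hy v w)
  · exact (bil_eq (h y)).symm.trans (congrArg bil (funext fun v => funext fun w => (hy v w).symm))

theorem pt_of {B c ρ : ℝ} (hρ : 0 ≤ ρ) (o0 : IsOpen O) (m0 : Met g0 O) (o : IsOpen D) (m : Met g D)
    (ob : IsOpen Ob) (sb : ContDiffOn ℝ ∞ b Ob) (hx : x ∈ Ob) (hb : b x ∈ D)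
    (h1 : ∀ y, ‖y - x‖ ≤ ρ → y ∈ O ∧ Bd (n + 1) g0 y B ∧ ∀ v, ∃ w, ‖w‖ ≤ 1 ∧ c * ‖v‖ ≤ g0 y v w)
    (h2 : Bd n (P354XE.pb b g - g0) x η) (h3 : ‖b x - x‖ ≤ ρ → Bd n (g - g0) (b x) η) :
    Pt n (c16 * |B|) c ρ (c16 * η) (bm g0) (bm g) b x := by
  have s := sb.contDiffAt (ob.mem_nhds hx)
  obtain ⟨xo, -, nd⟩ := h1 x (by simpa using hρ)
  refine ⟨s, bm_cd o m hb, fun hi => (bm_fam o m).eqn (p := 0) ob sb hx hb hi, fun y hy => ?_,
    fun v => ?_, ?_, fun e => ?_⟩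
  · obtain ⟨yo, bd, -⟩ := h1 y hy
    exact ⟨bm_cd o0 m0 yo, (bil_jb (met_at o0 m0 yo) bd).mono le_rfl
      (mul_le_mul_of_nonneg_left (le_abs_self B) c16_nn)⟩
  · obtain ⟨w, hw, h⟩ := nd v
    rw [← bm_ap m0 xo] at h
    exact h.trans ((le_abs_self _).trans (((bm g0 x v).le_opNorm w).trans
      (mul_le_of_le_one_right (norm_nonneg _) hw)))
  · refine jb_ev ((pb_cd (bm_cd o m hb) s).sub (bm_cd o0 m0 xo)) ?_ h2
    filter_upwards [s.continuousAt.eventually (o.mem_nhds hb), o0.mem_nhds xo] with y a1 a2 v w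
    simp [pb_ap, bm_ap m a1, bm_ap m0 a2, P354XE.pb]
  · have bo := (h1 _ e).1
    refine jb_ev ((bm_cd o m hb).sub (bm_cd o0 m0 bo)) ?_ (h3 e)
    filter_upwards [o.mem_nhds hb, o0.mem_nhds bo] with y a1 a2 v w
    simp [bm_ap m a1, bm_ap m0 a2]

/-- **ARG.** -/
theorem arg : P354YM.ARG := by
  intro n L B c ρ hn hc hρ
  have c0 := c16_nn
  have hB : 0 ≤ c16 * |B| := by positivity
  obtain ⟨C0, δ0, hC0, hδ0, H0⟩ := arg0 L hB hc hρ
  obtain ⟨C, δ, hC, hδ, H⟩ := arg1 n hB hc hρ hC0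
  refine ⟨C * (c16 + 1), min δ0 δ / (c16 + 1), by positivity,
    fun g0 g O D Ob b γ η ν o0 m0 o m ob sb hη hν hγ z s hs => ?_⟩
  have z' : Jb 1 (b - id) (γ 0) ν := z
  have ν0 := z'.nonneg
  have pt : ∀ s ∈ Icc (0 : ℝ) 1, Pt n (c16 * |B|) c ρ (c16 * η + ν) (bm g0) (bm g) b (γ s) :=
    fun s hs => by
      obtain ⟨-, -, a1, a2, a3, a4, a5⟩ := hγ s hs
      exact (pt_of hρ.le o0 m0 o m ob sb a1 a2 a3 a4 a5).mono le_rfl (by linarith)
  have η0 : 0 ≤ η := by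
    have := (norm_nonneg _).trans ((hγ s hs).2.2.2.2.2.1 0 (Nat.zero_le _) (1, 0) (1, 0))
    simpa using this
  have e : c16 * η + ν ≤ min δ0 δ := by
    have := mul_le_mul_of_nonneg_left hη c0
    have t : c16 * (min δ0 δ / (c16 + 1)) + min δ0 δ / (c16 + 1) = min δ0 δ := by field_simp
    linarith
  have p : 0 ≤ c16 * η := by positivity
  have t := H _ _ _ b _ (e.trans (min_le_right _ _)) (pt s hs) (H0 _ _ _ b γ
    (e.trans (min_le_left _ _)) (fun s hs => ⟨(hγ s hs).1, (hγ s hs).2.1,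
      (pt s hs).mono hn le_rfl⟩) (z'.mono le_rfl (by linarith)) s hs)
  refine t.mono le_rfl ?_
  rw [mul_assoc]
  exact mul_le_mul_of_nonneg_left (by nlinarith) (by linarith)

end Vale.Agent.P354XM
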