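import Vale.Agent.P354XM.Lam

/-!
The estimate at the base point, and KRIG.
-/

set_option maxSynthPendingDepth 3

open scoped ContDiff
open Set Filter Topology Metric

noncomputable section

namespace Vale.Agent.P354XM

open Vale.Agent.P354n (R4)
open Vale.Agent.P354RC
open Vale.Agent.P354XE (rd gin Bd)
open Vale.Agent.P354XA (ip rd_sq)

/-- The jets of the pull backs. -/
theorem jets {x : R4} (hx : 0 < rd x) (p0 : P2) {F : Type} [NormedAddCommGroup F] [NormedSpace ℝ F]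
    {Φ : J2 → F} (hΦ : ∀ J : J2, J.1.1.IsInvertible → ContDiffAt ℝ ∞ Φ J) :
    ∃ C δ, 0 < C ∧ 0 < δ ∧ ∀ (p : P2) (H : R4 → B2) (η : ℝ), ‖p - p0‖ ≤ δ → η ≤ δ →
      ContDiffAt ℝ ∞ H x → Jb 3 (H - hin p) x η → (H x).IsInvertible ∧
        Tm 1 C (C * η) x (fun y => Φ (j2 H y)) (fun y => Φ (j2 (hin p) y)) := by
  have : ProperSpace J2 := FiniteDimensional.proper ℝ _
  have o : IsOpen {J : J2 | J.1.1.IsInvertible} := open_inv.preimage continuous_fst.fst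
  obtain ⟨δ, δ0, hδ⟩ := nhds_basis_closedBall.mem_iff.1
    (o.mem_nhds (x := j2 (hin p0) x) (inv_of_inj (famK.nd (p0, x) hx)))
  obtain ⟨B, B0, hB⟩ := bd_cpt 3 ((isCompact_closedBall p0 1).prod (isCompact_singleton (x := x)))
    fun q hq => famK.sm q (by obtain ⟨p, y⟩ := q; obtain rfl : y = x := hq.2; exact hx)
  obtain ⟨C, C0, hC⟩ := comp 1 (isCompact_closedBall (j2 (hin p0) x) δ) (fun J hJ => hΦ J (hδ hJ))
    (B + 1)
  refine ⟨C, min 1 (δ / (B + 1)), C0, by positivity, fun p H η hp hη hH hj => ?_⟩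
  have t := hB p p0 x ⟨mem_closedBall_iff_norm.2 (hp.trans (min_le_left _ _)), rfl⟩
    ⟨mem_closedBall_self zero_le_one, rfl⟩
  have t2 := j2_tm ((Tm.of_bd hH t.su t.bu hj).mono le_rfl
    (add_le_add le_rfl (hη.trans (min_le_left _ _))) le_rfl)
  have n1 : ‖j2 (hin p) x - j2 (hin p0) x‖ ≤ B * ‖p - p0‖ := (j2_tm t).bd.zero
  have n2 : ‖j2 H x - j2 (hin p) x‖ ≤ η := t2.bd.zero
  have a1 := (le_div_iff₀ (by positivity)).1 (hp.trans (min_le_right _ _))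
  have a2 := (le_div_iff₀ (by positivity)).1 (hη.trans (min_le_right _ _))
  have a3 := (le_div_iff₀ (show 0 < B + 1 by positivity)).1 (le_refl (δ / (B + 1)))
  have b1 := mul_le_mul_of_nonneg_left (hp.trans (min_le_right _ _)) B0.le
  have η0 := hj.nonneg
  have m1 : j2 H x ∈ closedBall (j2 (hin p0) x) δ := mem_closedBall_iff_norm.2
    ((norm_sub_le_norm_sub_add_norm_sub _ _ _).trans (by linarith [hη.trans (min_le_right _ _)]))
  exact ⟨hδ m1, hC _ _ x η t2 m1 (mem_closedBall_iff_norm.2 (by nlinarith [norm_nonneg (p - p0)]))⟩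

theorem be_ne {M a : ℝ} {y : ℝ × ℝ × ℝ} (hM : M ≠ 0) (ha : a ≠ 0) (h : Base a y) :
    be (M, a) (lam (0, y)) ≠ 0 := by
  have r := (rd_pos (x := (0, y)) h.1).ne'
  have k := rd_sq (0, y)
  simp only [ip, h.2.1] at k
  refine mul_ne_zero (mul_ne_zero (mul_ne_zero (mul_ne_zero hM ha) (div_ne_zero h.2.2.1 r)) ?_)
    (inv_ne_zero (lam_dom (x := (0, y)) h.1 (M, a)).1)
  refine fun e => h.2.2.2 ?_
  simp only [lam] at e
  field_simp at e
  rw [show y.1 ^ 2 + y.2.2 ^ 2 = rd (0, y) ^ 2 by linarith]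
  linarith

theorem wj_id (x : R4) : wj id x = (x, 1) := by simp [wj]; rfl

theorem near {x : R4} (h : 0 < x.2.1) : ∃ C δ, 0 < C ∧ 0 < δ ∧ ∀ (b : R4 → R4) (ν : ℝ), ν ≤ δ →
    ‖wj b x - (x, 1)‖ ≤ ν → 0 < (b x).2.1 ∧ ‖lam (b x) - lam x‖ ≤ C * ν ∧
      ‖(fderiv ℝ lam (b x)).comp (fderiv ℝ b x) - fderiv ℝ lam x‖ ≤ C * ν := by
  obtain ⟨δ, δ0, H⟩ := nhds_basis_closedBall.mem_iff.1
    ((isOpen_lt continuous_const continuous_fst.snd.fst).mem_nhds (x := ((x, 1) : W1)) h)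
  have : ProperSpace W1 := FiniteDimensional.proper ℝ _
  obtain ⟨C, C0, H1⟩ := lip_cpt (isCompact_closedBall ((x, 1) : W1) δ) fun w hw => Xi_cd (H hw)
  refine ⟨C, δ, C0, δ0, fun b ν hν n0 => ?_⟩
  have m0 : wj b x ∈ closedBall ((x, 1) : W1) δ := mem_closedBall_iff_norm.2 (n0.trans hν)
  have n1 : ‖Xi (wj b x) - Xi (x, 1)‖ ≤ C * ν :=
    ((H1 _ m0).2 _ (mem_closedBall_self δ0.le)).trans (by gcongr)
  exact ⟨H m0, (norm_fst_le _).trans n1, (norm_snd_le _).trans n1⟩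

theorem back {x : R4} (h : 0 < x.2.1) (h0 : x.2.2.1 = 0) : ∃ C δ, 0 < C ∧ 0 < δ ∧
    ∀ (b : R4 → R4) (c φ ε : ℝ), ContDiffAt ℝ ∞ b x → ‖wj b x - (x, 1)‖ ≤ δ → |c| ≤ δ → |φ| ≤ δ →
      ‖Bm b c φ x - lam x‖ ≤ ε → ‖(fderiv ℝ lam (b x)).comp (fderiv ℝ b x) - fderiv ℝ lam x‖ ≤ ε →
      Jb 1 (b - sh c φ) x (C * ε) := by
  obtain ⟨C, δ, C0, δ0, H⟩ := Xi_sep h
  obtain ⟨δ', δ0', H'⟩ := nhds_basis_closedBall.mem_iff.1 ((sh_cont x).continuousAt (x := 0)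
    (closedBall_mem_nhds _ δ0))
  refine ⟨C, min δ (min δ' 1), C0, by positivity, fun b c φ ε s n0 hc hφ n1 n2 => ?_⟩
  simp only [le_min_iff] at n0 hc hφ
  obtain ⟨-, l1, l2⟩ := lam_sh (c := c) h h0 (hφ.2.2.trans_lt (by linarith [Real.pi_gt_three]))
  have e : Xi (wj b x) - Xi (wj (sh c φ) x) =
      (Bm b c φ x - lam x, (fderiv ℝ lam (b x)).comp (fderiv ℝ b x) - fderiv ℝ lam x) := by
    simp only [Xi, wj, Bm, l1, (sh_fd _ _ _).fderiv, l2, Prod.mk_sub_mk]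
    rw [sub_sub, add_comm]
  have m := H' (a := (c, φ)) (mem_closedBall_zero_iff.2 (max_le hc.2.1 hφ.2.1))
  rw [mem_preimage, mem_closedBall_iff_norm, Prod.fst_zero, Prod.snd_zero, sh_zero, wj_id] at m
  have n := (H (wj b x) (wj (sh c φ) x) n0.1 m).trans
    (mul_le_mul_of_nonneg_left ((congrArg norm e).trans_le (max_le n1 n2)) C0.le)
  refine .succ ((norm_fst_le _).trans n) (.of_zero ?_)
  rw [(fd_sub s (sh_cd c φ).contDiffAt).eq_of_nhds]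
  exact (norm_snd_le _).trans n

theorem psd {E F : Type} [NormedAddCommGroup E] [NormedSpace ℝ E] [NormedAddCommGroup F]
    [NormedSpace ℝ F] {u v : R4 → E × F} {x : R4} {B ε : ℝ} (T : Tm 1 B ε x u v) (Λ : L4) (t : ℝ × ℝ) :
    ‖(t, (u x).1, (fderiv ℝ (fun y => (u y).1) x).comp Λ, (u x).2) -
      (t, (v x).1, (fderiv ℝ (fun y => (v y).1) x).comp Λ, (v x).2)‖ ≤ (‖Λ‖ + 1) * ε := by
  have ε0 := T.bd.nonneg
  have le : ε ≤ (‖Λ‖ + 1) * ε := le_mul_of_one_le_left ε0 (by linarith [norm_nonneg Λ])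
  refine max_le (by simpa using ε0.trans le) (max_le (((norm_fst_le _).trans T.bd.zero).trans le)
    (max_le ?_ (((norm_snd_le _).trans T.bd.zero).trans le)))
  have f1 := (Jb.clm (ContinuousLinearMap.fst ℝ E F) (T.su.sub T.sv) T.bd).fd.zero
  have f2 := (fd_sub T.su.fst T.sv.fst).eq_of_nhds
  refine ((congrArg norm (ContinuousLinearMap.sub_comp ..).symm).trans_le
    (ContinuousLinearMap.opNorm_comp_le _ _)).trans ?_
  rw [mul_comm]
  refine mul_le_mul (by linarith) (((congrArg norm f2.symm).trans_le f1).trans ?_) (norm_nonneg _)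
    (by positivity)
  exact mul_le_of_le_one_left ε0 (ContinuousLinearMap.norm_fst_le ..)

theorem mid {p0 : P2} {x : R4} (h : 0 < x.2.1) (hM : p0.1 ≠ 0) (ha : p0.2 ≠ 0)
    (hb : be p0 (lam x) ≠ 0) {Λ : L4} (Λ1 : (fderiv ℝ lam x).comp Λ = 1) : ∃ C δ, 0 < C ∧ 0 < δ ∧
    ∀ (p p' : P2) (η c φ : ℝ) (O : Set R4) (b : R4 → R4), ‖p - p0‖ ≤ δ → ‖p' - p0‖ ≤ δ → η ≤ δ →
      IsOpen O → x ∈ O → ContDiffOn ℝ ∞ b O → 0 < (b x).2.1 → Jb 3 (pb (hin p') b - hin p) x η →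
      ((Bm b c φ x).1, (Bm b c φ x).2.2.2) = ((lam x).1, (lam x).2.2.2) →
      ‖Bm b c φ x - lam x‖ ≤ δ → ‖(fderiv ℝ (Bm b c φ) x).comp Λ - 1‖ ≤ δ →
      ‖p' - p‖ ≤ C * η ∧ ‖Bm b c φ x - lam x‖ ≤ C * η ∧
        ‖(fderiv ℝ (Bm b c φ) x).comp Λ - 1‖ ≤ C * η := by
  obtain ⟨C1, δ1, C10, δ10, H1⟩ := sep (lam_dom h p0) hM ha hb
  obtain ⟨C2, δ2, C20, δ20, H2⟩ := jets (rd_pos h) p0 fun J hJ =>
    Ph_cd Λ (fr p0 (lam x) 1) (fr p0 (lam x) 0) (fr p0 (lam x) 2) hJ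
  refine ⟨C1 * ((‖Λ‖ + 1) * C2), min δ1 δ2, by positivity, by positivity,
    fun p p' η c φ O b hp hp' hη hO hx sm pos hB e q1 q2 => ?_⟩
  simp only [le_min_iff] at hp hp' hη q1 q2
  obtain ⟨i1, T⟩ := H2 p _ η hp.2 hη.2
    (pb_cd (famK.at (rd_pos pos)) (sm.contDiffAt (hO.mem_nhds hx))) hB
  have E1 := Ps_nat (p := p') Λ (fr p0 (lam x) 1) (fr p0 (lam x) 0) (fr p0 (lam x) 2) hO sm hx pos
    i1 c φ
  have E2 := Ps_nat (p := p) Λ (fr p0 (lam x) 1) (fr p0 (lam x) 0) (fr p0 (lam x) 2) isOpen_univ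
    contDiffOn_id (mem_univ x) h (by rw [pb_id]; exact inv_of_inj (famK.nd (p, x) (rd_pos h))) 0 0
  have b0 : Bm id 0 0 = lam := by funext y; ext <;> simp [Bm]
  rw [pb_id, b0, Λ1] at E2
  rw [e] at E1
  have z : ∀ q : P2, ((q, lam x, 1) : P2 × W1) - (p0, lam x, 1) = (q - p0, 0) := fun q => by
    rw [Prod.mk_sub_mk, sub_self]
  have key := H1 (p', Bm b c φ x, (fderiv ℝ (Bm b c φ) x).comp Λ) (p, lam x, 1)
    (max_le hp'.1 (max_le q1.1 q2.1)) (by rw [z]; exact max_le hp.1 (norm_zero.trans_le δ10.le))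
  rw [E1, E2] at key
  have key2 := key.trans (mul_le_mul_of_nonneg_left (psd T Λ _) C10.le)
  rw [← mul_assoc, ← mul_assoc, mul_assoc C1] at key2
  exact ⟨(norm_fst_le _).trans key2, ((norm_fst_le _).trans (norm_snd_le _)).trans key2,
    ((norm_snd_le _).trans (norm_snd_le _)).trans key2⟩

/-- The estimate at the base point. -/
theorem loc {p0 : P2} {x : R4} (h : 0 < x.2.1) (h0 : x.2.2.1 = 0) (hM : p0.1 ≠ 0) (ha : p0.2 ≠ 0)
    (hb : be p0 (lam x) ≠ 0) : ∃ C δ, 1 ≤ C ∧ 0 < δ ∧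
    ∀ (p p' : P2) (η ν : ℝ) (O : Set R4) (b : R4 → R4), ‖p - p0‖ ≤ δ → ‖p' - p0‖ ≤ δ → η ≤ δ →
      ν ≤ δ → IsOpen O → x ∈ O → ContDiffOn ℝ ∞ b O → Jb 1 (b - id) x ν →
      (0 < rd (b x) → Jb 3 (pb (hin p') b - hin p) x η) →
      ‖p' - p‖ ≤ C * η ∧ ∃ c φ, |c| ≤ C * ν ∧ |φ| ≤ C * ν ∧ Jb 1 (b - sh c φ) x (C * η) := by
  obtain ⟨Λ, Λ1, Λ2⟩ : ∃ Λ : L4, (fderiv ℝ lam x).comp Λ = 1 ∧ Λ.comp (fderiv ℝ lam x) = 1 := by
    obtain ⟨e, he⟩ : (fderiv ℝ lam x).IsInvertible :=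
      ⟨(LinearMap.linearEquivOfInjective (fderiv ℝ lam x : R4 →ₗ[ℝ] R4) (lam_inj h)
        rfl).toContinuousLinearEquiv, rfl⟩
    exact ⟨e.symm, by rw [← he]; exact e.coe_comp_coe_symm,
      by rw [← he]; exact e.coe_symm_comp_coe⟩
  obtain ⟨C1, δ1, C10, δ10, H1⟩ := mid h hM ha hb Λ1
  obtain ⟨C3, δ3, C30, δ30, H3⟩ := back h h0
  obtain ⟨C4, δ4, C40, δ40, H4⟩ := near h
  obtain ⟨N, N1, N2, N3⟩ : ∃ N, ‖Λ‖ ≤ N ∧ ‖fderiv ℝ lam x‖ ≤ N ∧ 2 ≤ N := by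
    have := norm_nonneg Λ
    have := norm_nonneg (fderiv ℝ lam x)
    exact ⟨‖Λ‖ + ‖fderiv ℝ lam x‖ + 2, by linarith, by linarith, by linarith⟩
  have N0 : 0 < N := by linarith
  refine ⟨1 + C4 + C1 + C3 * (N * C1), min (min δ1 (min δ3 δ4)) (min (δ1 / (N * C4)) (δ3 / C4)), by
      have : 0 ≤ C4 + C1 + C3 * (N * C1) := by positivity
      linarith, by positivity, fun p p' η ν O b hp hp' hη hν hO hx sm hj hB => ?_⟩
  simp only [le_min_iff] at hp hp' hη hν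
  have s := sm.contDiffAt (hO.mem_nhds hx)
  have ν0 := hj.nonneg
  have n0 : ‖wj b x - (x, 1)‖ ≤ ν := by rw [← wj_id]; exact ((jb_wj (j := 0) s).2 hj).zero
  obtain ⟨pos, n2, n3⟩ := H4 b ν hν.1.2.2 n0
  obtain ⟨c, hc⟩ : ∃ c, c = (lam (b x) - lam x).1 := ⟨_, rfl⟩
  obtain ⟨φ, hφ⟩ : ∃ φ, φ = (lam (b x) - lam x).2.2.2 := ⟨_, rfl⟩
  have c1 : |c| ≤ C4 * ν := hc ▸ (norm_fst_le _).trans n2
  have φ1 : |φ| ≤ C4 * ν :=
    hφ ▸ ((norm_snd_le _).trans ((norm_snd_le _).trans (norm_snd_le _))).trans n2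
  have k1 : C4 * ν ≤ δ3 := by rw [mul_comm]; exact (le_div_iff₀ C40).1 hν.2.2
  have k2 : N * (C4 * ν) ≤ δ1 := by
    rw [← mul_assoc, mul_comm]; exact (le_div_iff₀ (by positivity)).1 hν.2.1
  have η0 := (hB (rd_pos pos)).nonneg
  have q1 : ‖Bm b c φ x - lam x‖ ≤ N * (C4 * ν) := by
    have : ‖((c, 0, 0, φ) : R4)‖ ≤ C4 * ν := by simpa [Prod.norm_def] using ⟨c1, φ1⟩
    rw [Bm, sub_right_comm]
    refine (norm_sub_le _ _).trans ?_
    nlinarith [mul_nonneg C40.le ν0]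
  have q2 : ‖(fderiv ℝ (Bm b c φ) x).comp Λ - 1‖ ≤ N * (C4 * ν) := by
    rw [← Λ1, ← ContinuousLinearMap.sub_comp, Bm_fd s pos, mul_comm]
    exact (ContinuousLinearMap.opNorm_comp_le _ _).trans (by gcongr)
  obtain ⟨r1, r2, r3⟩ := H1 p p' η c φ O b hp.1.1 hp'.1.1 hη.1.1 hO hx sm pos (hB (rd_pos pos))
    (by simp [Bm, hc, hφ]) (q1.trans k2) (q2.trans k2)
  have P1 : 0 ≤ C1 * η := by positivity
  have r4 : ‖(fderiv ℝ lam (b x)).comp (fderiv ℝ b x) - fderiv ℝ lam x‖ ≤ N * (C1 * η) := by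
    have e : (fderiv ℝ lam (b x)).comp (fderiv ℝ b x) - fderiv ℝ lam x =
        ((fderiv ℝ (Bm b c φ) x).comp Λ - 1).comp (fderiv ℝ lam x) := by
      rw [ContinuousLinearMap.sub_comp, ContinuousLinearMap.comp_assoc, Λ2, Bm_fd s pos]
      rfl
    rw [e, mul_comm N]
    exact (ContinuousLinearMap.opNorm_comp_le _ _).trans (mul_le_mul r3 N2 (norm_nonneg _) P1)
  have r5 := H3 b c φ _ s (n0.trans hν.1.2.1) (c1.trans k1) (φ1.trans k1)
    (r2.trans (le_mul_of_one_le_left P1 (by linarith))) r4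
  have P2 : 0 ≤ C3 * (N * (C1 * η)) := by positivity
  have P3 : 0 ≤ C4 * η := by positivity
  have P4 : 0 ≤ (1 + C1 + C3 * (N * C1)) * ν := by positivity
  exact ⟨r1.trans (by linarith), c, φ, c1.trans (by linarith), φ1.trans (by linarith),
    r5.mono le_rfl (by linarith)⟩

/-- **KRIG.** -/
theorem krig : KRIG := by
  intro M0 a0 ρ L y0 k hM ha hρ hy hk
  obtain ⟨k, rfl⟩ : ∃ k', k = k' + 1 := ⟨k - 1, by omega⟩
  obtain ⟨C1, δ1, C10, δ10, H1⟩ := loc (p0 := (M0, a0)) (x := (0, y0)) hy.1 hy.2.1 hM ha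
    (be_ne hM ha hy)
  obtain ⟨C2, δ2, C20, δ20, H2⟩ := ai2 (M0, a0) ρ L (rd (0, y0)) k hρ
  have n := c16_nn
  have n1 : 0 < 2 * C1 * (c16 + 1) := by positivity
  refine ⟨(C2 + 1) * (2 * C1 * (c16 + 1)), min (min 1 (δ1 / (c16 + 2))) (δ2 / (2 * C1 * (c16 + 1))),
    by positivity, by positivity,
    fun M a M' a' t0 c φ η ν U O b hM1 ha1 hM2 ha2 hη hν hO hU sm m J hx hj => ?_⟩
  simp only [le_min_iff] at hM1 ha1 hM2 ha2 hη hν
  have d1 : δ1 / (c16 + 2) ≤ δ1 := div_le_self δ10.le (by linarith)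
  have at' : ∀ x ∈ U, ContDiffAt ℝ ∞ b x := fun x m => sm.contDiffAt (hO.mem_nhds (hU m))
  have e0 : ((0, y0) : R4) + (t0, 0) = (t0, y0) := by ext <;> simp
  have η0 : 0 ≤ η := by
    have := (norm_nonneg _).trans ((hx _ m).2 0 (Nat.zero_le _) (1, 0) (1, 0))
    simpa [Prod.norm_def] using this
  have ν0 := hj.nonneg
  have jb : ∀ x ∈ U, 0 < rd (b x) → Jb (k + 1) (pb (hin (M', a')) b - hin (M, a)) x (c16 * η) :=
    fun x m w => jb_of_bd (p := (M, a)) (p' := (M', a')) (at' x m) (hρ.trans_le (hx x m).1) w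
      (hx x m).2
  have a1 := (le_div_iff₀ (by positivity)).1 hη.1.2
  have a2 := (le_div_iff₀ (by positivity)).1 hν.1.2
  obtain ⟨k1, c1, φ1, k2, k3, k4⟩ := H1 (M, a) (M', a') (c16 * η) (2 * ν)
    ((fun x => x + (t0, 0)) ⁻¹' O) (nm b t0 c φ) (max_le (hM1.1.2.trans d1) (ha1.1.2.trans d1))
    (max_le (hM2.1.2.trans d1) (ha2.1.2.trans d1)) (by nlinarith) (by nlinarith)
    (hO.preimage (by fun_prop)) (by rw [mem_preimage, e0]; exact hU m) (nm_on sm)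
    (by
      rw [← sh_zero]
      exact nm_jb (by rw [e0]; exact at' _ m) (by rwa [e0, add_zero, add_zero]))
    (fun w => nm_pb (by rw [e0]; exact at' _ m) (by
      rw [e0]
      exact (jb _ m (by rwa [nm, rd_sh, e0] at w)).mono (by omega) le_rfl))
  have p1 : 0 ≤ C1 * η := by positivity
  have p2 : 0 ≤ C1 * (c16 * η) := by positivity
  have p3 : c16 * η ≤ C1 * (c16 * η) := le_mul_of_one_le_left (by positivity) C10
  have p4 : 0 ≤ C2 * (2 * C1 * (c16 + 1) * η) := by positivity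
  have p5 : 0 ≤ (C2 * (2 * C1 * (c16 + 1)) + 2 * C1 * c16) * ν := by positivity
  refine ⟨((norm_fst_le _).trans k1).trans (by linarith), ((norm_snd_le _).trans k1).trans
    (by linarith), c + c1, φ + φ1, by rw [add_sub_cancel_left]; linarith,
    by rw [add_sub_cancel_left]; linarith, fun x mx => ?_⟩
  refine (H2 (M, a) (M', a') (c + c1) (φ + φ1) (2 * C1 * (c16 + 1) * η) U O (t0, y0) b
    (max_le hM1.1.1 ha1.1.1) (max_le hM2.1.1 ha2.1.1) (k1.trans (by linarith))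
    (by rw [mul_comm]; exact (le_div_iff₀ n1).1 hη.2) (by rw [← e0, rd_add]) hO hU sm J
    (fun x m => ⟨(hx x m).1, fun w => (jb x m w).mono le_rfl (by linarith)⟩)
    ((jb_nm (t := t0) (at' _ m) (by rw [← e0]; simpa using k4)).mono le_rfl (by linarith))
    x mx).mono le_rfl ?_
  have : 0 ≤ 2 * C1 * (c16 + 1) * η := by positivity
  linarith

end Vale.Agent.P354XM
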