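import Vale.Agent.P354XM.Defs
import Vale.Agent.P354RC.Pull

/-!
Bounds of jets at a point: calculus, composition with smooth maps, and the immersion lemma.
-/

set_option maxSynthPendingDepth 3

open scoped ContDiff
open Set Filter Topology

noncomputable section

namespace Vale.Agent.P354XM

open Vale.Agent.P354n (R4)
open Vale.Agent.P354RC (at_fd at_df)

section
variable {E F : Type} [NormedAddCommGroup E] [NormedSpace ℝ E] [NormedAddCommGroup F]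
  [NormedSpace ℝ F] {m : ℕ} {u v : R4 → E} {x : R4} {c c' : ℝ}

theorem le_inf' (j : ℕ) : (j : WithTop ℕ∞) ≤ ∞ := by exact_mod_cast le_top

theorem Jb.mono {m' : ℕ} (h : Jb m u x c) (hm : m' ≤ m) (hc : c ≤ c') : Jb m' u x c' :=
  fun j hj => (h j (hj.trans hm)).trans hc

theorem Jb.zero (h : Jb m u x c) : ‖u x‖ ≤ c := by
  simpa using h 0 (Nat.zero_le _)

theorem Jb.nonneg (h : Jb m u x c) : 0 ≤ c := (norm_nonneg _).trans h.zero

theorem Jb.fd (h : Jb (m + 1) u x c) : Jb m (fderiv ℝ u) x c := fun j hj => by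
  rw [norm_iteratedFDeriv_fderiv]; exact h _ (by omega)

theorem Jb.succ (h0 : ‖u x‖ ≤ c) (h : Jb m (fderiv ℝ u) x c) : Jb (m + 1) u x c := fun j hj => by
  cases j with
  | zero => simpa using h0
  | succ j => rw [← norm_iteratedFDeriv_fderiv]; exact h j (by omega)

theorem Jb.of_zero (h0 : ‖u x‖ ≤ c) : Jb 0 u x c := fun j hj => by
  obtain rfl : j = 0 := by omega
  simpa using h0

theorem Jb.congr (h : Jb m u x c) (e : v =ᶠ[𝓝 x] u) : Jb m v x c := fun j hj => by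
  rw [(e.iteratedFDeriv ℝ j).eq_of_nhds]; exact h j hj

theorem Jb.add (hu : ContDiffAt ℝ ∞ u x) (hv : ContDiffAt ℝ ∞ v x) (h : Jb m u x c)
    (h' : Jb m v x c') : Jb m (u + v) x (c + c') := fun j hj => by
  rw [iteratedFDeriv_add_apply (hu.of_le (le_inf' j)) (hv.of_le (le_inf' j))]
  exact norm_add_le_of_le (h j hj) (h' j hj)

theorem Jb.clm (L : E →L[ℝ] F) (hu : ContDiffAt ℝ ∞ u x) (h : Jb m u x c) :
    Jb m (fun y => L (u y)) x (‖L‖ * c) := fun j hj =>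
  (L.norm_iteratedFDeriv_comp_left hu (le_inf' j)).trans (by gcongr; exact h j hj)

theorem Jb.pair {w : R4 → F} (hu : ContDiffAt ℝ ∞ u x) (hw : ContDiffAt ℝ ∞ w x) (h : Jb m u x c)
    (h' : Jb m w x c) : Jb m (fun y => (u y, w y)) x c := fun j hj => by
  rw [iteratedFDeriv_prodMk hu hw (le_inf' j), ContinuousMultilinearMap.opNorm_prod]
  exact max_le (h j hj) (h' j hj)

theorem Jb.const (e : E) : Jb m (fun _ => e) x ‖e‖ := fun j _ => by
  cases j with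
  | zero => simp
  | succ j => rw [iteratedFDeriv_const_of_ne (by omega)]; simp

theorem Jb.lin (L : R4 →L[ℝ] E) : Jb m L x (‖L x‖ + ‖L‖) := by
  cases m with
  | zero => exact .of_zero (le_add_of_nonneg_right (norm_nonneg _))
  | succ m =>
    refine .succ (le_add_of_nonneg_right (norm_nonneg _)) ?_
    rw [show fderiv ℝ L = fun _ => L from funext fun _ => L.fderiv]
    exact (Jb.const L).mono le_rfl (le_add_of_nonneg_left (norm_nonneg _))

theorem Jb.sum {ι : Type} (s : Finset ι) {f : ι → R4 → E} {c : ι → ℝ}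
    (hf : ∀ i, ContDiffAt ℝ ∞ (f i) x) (h : ∀ i, Jb m (f i) x (c i)) :
    Jb m (fun y => ∑ i ∈ s, f i y) x (∑ i ∈ s, c i) := fun j hj => by
  rw [iteratedFDeriv_fun_sum_apply fun i _ => (hf i).of_le (le_inf' j)]
  exact (norm_sum_le _ _).trans (Finset.sum_le_sum fun i _ => h i j hj)

theorem Jb.shift (a : R4) (h : Jb m u (x + a) c) : Jb m (fun y => u (y + a)) x c := fun j hj => by
  rw [iteratedFDeriv_comp_add_right]; exact h j hj

theorem ev_df (hu : ContDiffAt ℝ ∞ u x) : ∀ᶠ y in 𝓝 x, DifferentiableAt ℝ u y :=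
  ((hu.of_le (le_inf' 1)).eventually (by simp)).mono fun _ h => h.differentiableAt (by simp)

theorem fd_sub (hu : ContDiffAt ℝ ∞ u x) (hv : ContDiffAt ℝ ∞ v x) :
    fderiv ℝ (u - v) =ᶠ[𝓝 x] fderiv ℝ u - fderiv ℝ v := by
  filter_upwards [ev_df hu, ev_df hv] with y h h' using fderiv_sub h h'

/-- The jets of u and of v at x are at most B, those of the difference at most ε. -/
structure Tm (m : ℕ) (B ε : ℝ) (x : R4) (u v : R4 → E) : Prop where
  su : ContDiffAt ℝ ∞ u x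
  sv : ContDiffAt ℝ ∞ v x
  bu : Jb m u x B
  bv : Jb m v x B
  bd : Jb m (u - v) x ε

variable {B ε : ℝ}

theorem Tm.mono {m' : ℕ} {B' ε' : ℝ} (h : Tm m B ε x u v) (hm : m' ≤ m) (hB : B ≤ B')
    (hε : ε ≤ ε') : Tm m' B' ε' x u v :=
  ⟨h.su, h.sv, h.bu.mono hm hB, h.bv.mono hm hB, h.bd.mono hm hε⟩

theorem Tm.fd (h : Tm (m + 1) B ε x u v) : Tm m B ε x (fderiv ℝ u) (fderiv ℝ v) :=
  ⟨at_fd h.su, at_fd h.sv, h.bu.fd, h.bv.fd, h.bd.fd.congr (fd_sub h.su h.sv).symm⟩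

theorem Tm.pair {u' v' : R4 → F} (h : Tm m B ε x u v) (h' : Tm m B ε x u' v') :
    Tm m B ε x (fun y => (u y, u' y)) (fun y => (v y, v' y)) :=
  ⟨h.su.prodMk h'.su, h.sv.prodMk h'.sv, .pair h.su h'.su h.bu h'.bu, .pair h.sv h'.sv h.bv h'.bv,
    Jb.pair (h.su.sub h.sv) (h'.su.sub h'.sv) h.bd h'.bd⟩

theorem Tm.congr {u' v' : R4 → E} (h : Tm m B ε x u v) (e : u' =ᶠ[𝓝 x] u) (e' : v' =ᶠ[𝓝 x] v) :
    Tm m B ε x u' v' :=
  ⟨h.su.congr_of_eventuallyEq e, h.sv.congr_of_eventuallyEq e', h.bu.congr e, h.bv.congr e',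
    h.bd.congr (e.sub e')⟩

theorem Tm.of_bd (hu : ContDiffAt ℝ ∞ u x) (hv : ContDiffAt ℝ ∞ v x) (bv : Jb m v x B)
    (bd : Jb m (u - v) x ε) : Tm m (B + ε) ε x u v :=
  ⟨hu, hv, (Jb.add hv (hu.sub hv) bv bd).congr (.of_forall fun y => by simp),
    bv.mono le_rfl (le_add_of_nonneg_right bd.nonneg), bd⟩

theorem Tm.const (e e' : E) (h : ‖e‖ ≤ B) (h' : ‖e'‖ ≤ B) (hd : ‖e - e'‖ ≤ ε) :
    Tm m B ε x (fun _ => e) (fun _ => e') :=
  ⟨contDiffAt_const, contDiffAt_const, (Jb.const e).mono le_rfl h, (Jb.const e').mono le_rfl h',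
    (Jb.const (e - e')).mono le_rfl hd⟩

theorem Tm.refl (hu : ContDiffAt ℝ ∞ u x) (bu : Jb m u x B) (hε : 0 ≤ ε) : Tm m B ε x u u :=
  ⟨hu, hu, bu, bu, by
    rw [sub_self]
    exact (Jb.const (0 : E)).mono le_rfl (by simpa using hε)⟩

theorem Tm.succ (su : ContDiffAt ℝ ∞ u x) (sv : ContDiffAt ℝ ∞ v x) (bu : ‖u x‖ ≤ B)
    (bv : ‖v x‖ ≤ B) (bd : ‖u x - v x‖ ≤ ε) (h : Tm m B ε x (fderiv ℝ u) (fderiv ℝ v)) :
    Tm (m + 1) B ε x u v :=
  ⟨su, sv, .succ bu h.bu, .succ bv h.bv, .succ bd (h.bd.congr (fd_sub su sv))⟩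

/-- A smooth map is bounded and Lipschitz on a compact set. -/
theorem lip_cpt {Φ : E → F} {K : Set E} (hK : IsCompact K) (hΦ : ∀ e ∈ K, ContDiffAt ℝ ∞ Φ e) :
    ∃ C, 0 < C ∧ ∀ e ∈ K, ‖Φ e‖ ≤ C ∧ ∀ e' ∈ K, ‖Φ e - Φ e'‖ ≤ C * ‖e - e'‖ := by
  obtain ⟨L, hL⟩ := LocallyLipschitzOn.exists_lipschitzOnWith_of_compact hK (f := Φ)
    fun e he => by
      obtain ⟨L, t, ht, h⟩ := ((hΦ e he).of_le (le_inf' 1)).exists_lipschitzOnWith
      exact ⟨L, t, mem_nhdsWithin_of_mem_nhds ht, h⟩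
  obtain ⟨C, hC⟩ := hK.exists_bound_of_continuousOn (f := Φ)
    fun e he => (hΦ e he).continuousAt.continuousWithinAt
  refine ⟨|C| + L + 1, by positivity, fun e he => ⟨?_, fun e' he' => ?_⟩⟩
  · linarith [hC e he, le_abs_self C, L.2]
  · refine (hL.norm_sub_le he he').trans ?_
    gcongr
    linarith [abs_nonneg C]

end

/-- Composition with a smooth map. -/
theorem comp (m : ℕ) : ∀ {E F : Type} [NormedAddCommGroup E] [NormedSpace ℝ E]
    [FiniteDimensional ℝ E] [NormedAddCommGroup F] [NormedSpace ℝ F] {Φ : E → F} {K : Set E},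
    IsCompact K → (∀ e ∈ K, ContDiffAt ℝ ∞ Φ e) → ∀ B : ℝ, ∃ C, 0 < C ∧
    ∀ (u v : R4 → E) (x : R4) (ε : ℝ), Tm m B ε x u v → u x ∈ K → v x ∈ K →
      Tm m C (C * ε) x (fun y => Φ (u y)) (fun y => Φ (v y)) := by
  induction m with
  | zero =>
    intro E F _ _ _ _ _ Φ K hK hΦ B
    obtain ⟨C, h0, hC⟩ := lip_cpt hK hΦ
    exact ⟨C, h0, fun u v x ε h hu hv => ⟨(hΦ _ hu).comp x h.su, (hΦ _ hv).comp x h.sv,
      .of_zero (hC _ hu).1, .of_zero (hC _ hv).1,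
      .of_zero (((hC _ hu).2 _ hv).trans (by gcongr; exact h.bd.zero))⟩⟩
  | succ m ih =>
    intro E F _ _ _ _ _ Φ K hK hΦ B
    obtain ⟨C, h0, hC⟩ := lip_cpt hK hΦ
    obtain ⟨C', h0', hC'⟩ := ih (Φ := fun q : E × (R4 →L[ℝ] E) => (fderiv ℝ Φ q.1).comp q.2)
      (hK.prod (isCompact_closedBall (0 : R4 →L[ℝ] E) B))
      (fun q hq => ((((hΦ _ hq.1).fderiv_right (m := ∞) (by simp)).comp q
        contDiffAt_fst).clm_comp contDiffAt_snd)) B
    refine ⟨C + C', by positivity, fun u v x ε h hu hv => ?_⟩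
    have e : ∀ w : R4 → E, ContDiffAt ℝ ∞ w x → w x ∈ K → fderiv ℝ (fun y => Φ (w y)) =ᶠ[𝓝 x]
        fun y => (fderiv ℝ Φ (w y)).comp (fderiv ℝ w y) := fun w hw hk => by
      have := hw.continuousAt.eventually
        (((hΦ _ hk).of_le (le_inf' 1)).eventually (by simp))
      filter_upwards [this, ev_df hw] with y h1 h2
      exact fderiv_fun_comp y (h1.differentiableAt (by simp)) h2
    have hε := h.bd.nonneg
    refine .succ ((hΦ _ hu).comp x h.su) ((hΦ _ hv).comp x h.sv) (by linarith [(hC _ hu).1])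
      (by linarith [(hC _ hv).1]) (((hC _ hu).2 _ hv).trans ?_) ?_
    · exact mul_le_mul (by linarith) h.bd.zero (norm_nonneg _) (by positivity)
    · refine ((hC' _ _ x ε ((h.mono (Nat.le_succ m) le_rfl le_rfl).pair h.fd)
        ⟨hu, mem_closedBall_zero_iff.2 h.bu.fd.zero⟩
        ⟨hv, mem_closedBall_zero_iff.2 h.bv.fd.zero⟩).congr (e u h.su hu) (e v h.sv hv)).mono
        le_rfl (by linarith) (by gcongr; linarith)

/-- Bounds of the jets of a smooth function with parameters on a compact set. -/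
theorem bd_cpt (m : ℕ) {P F : Type} [NormedAddCommGroup P] [NormedSpace ℝ P]
    [FiniteDimensional ℝ P] [NormedAddCommGroup F] [NormedSpace ℝ F] {Φ : P × R4 → F}
    {K : Set (P × R4)} (hK : IsCompact K) (hΦ : ∀ e ∈ K, ContDiffAt ℝ ∞ Φ e) :
    ∃ C, 0 < C ∧ ∀ p p' x, (p, x) ∈ K → (p', x) ∈ K →
      Tm m C (C * ‖p - p'‖) x (fun y => Φ (p, y)) (fun y => Φ (p', y)) := by
  obtain ⟨B, hB⟩ := hK.isBounded.exists_norm_le
  obtain ⟨C, h0, hC⟩ := comp m hK hΦ (B + 1)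
  refine ⟨C, h0, fun p p' x h h' => hC (fun y => (p, y)) (fun y => (p', y)) x _ ?_ h h'⟩
  have n := hB _ h
  have n' := hB _ h'
  rw [Prod.norm_def, max_le_iff] at n n'
  refine (Tm.const p p' (by linarith [n.1]) (by linarith [n'.1]) le_rfl).pair
    (Tm.refl contDiffAt_id ((Jb.lin (ContinuousLinearMap.id ℝ R4)).mono le_rfl ?_) (norm_nonneg _))
  exact add_le_add n.2 ContinuousLinearMap.norm_id_le

/-- The immersion lemma. -/
theorem immers {E F : Type} [NormedAddCommGroup E] [NormedSpace ℝ E] [FiniteDimensional ℝ E]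
    [NormedAddCommGroup F] [NormedSpace ℝ F] {Ψ : E → F} {e : E} (hΨ : ContDiffAt ℝ ∞ Ψ e)
    (hk : ∀ v, HasDerivAt (fun s : ℝ => Ψ (e + s • v)) 0 0 → v = 0) :
    ∃ C δ, 0 < C ∧ 0 < δ ∧ ∀ x y, ‖x - e‖ ≤ δ → ‖y - e‖ ≤ δ → ‖x - y‖ ≤ C * ‖Ψ x - Ψ y‖ := by
  have hd := hΨ.hasStrictFDerivAt (by simp)
  obtain ⟨K, K0, hK⟩ := LinearMap.exists_antilipschitzWith (fderiv ℝ Ψ e : E →ₗ[ℝ] F)
    (LinearMap.ker_eq_bot'.2 fun v hv => hk v (by
      have l : HasDerivAt (fun s : ℝ => e + s • v) v 0 := by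
        simpa using ((hasDerivAt_id (0 : ℝ)).smul_const v).const_add e
      have := HasFDerivAt.comp_hasDerivAt_of_eq (0 : ℝ) hd.hasFDerivAt l (by simp)
      rwa [show fderiv ℝ Ψ e v = 0 from hv] at this))
  have K1 : (0 : ℝ) < K := K0
  have := hd.isLittleO.def (c := (2 * (K : ℝ))⁻¹) (by positivity)
  obtain ⟨δ, hδ, h⟩ := Metric.eventually_nhds_iff.1 this
  refine ⟨2 * K, δ / 2, by positivity, by positivity, fun x y hx hy => ?_⟩
  have h1 := h (y := (x, y)) (by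
    rw [Prod.dist_eq, dist_eq_norm, dist_eq_norm]
    exact max_lt (by linarith) (by linarith))
  have h2 := hK.le_mul_norm (map_zero _) (x - y)
  have h3 : ‖fderiv ℝ Ψ e (x - y)‖ ≤ ‖Ψ x - Ψ y‖ + (2 * (K : ℝ))⁻¹ * ‖x - y‖ := by
    have := norm_sub_le (Ψ x - Ψ y) (Ψ x - Ψ y - fderiv ℝ Ψ e (x - y))
    rw [sub_sub_cancel] at this
    exact this.trans (add_le_add le_rfl h1)
  have h4 : (K : ℝ) * ((2 * (K : ℝ))⁻¹ * ‖x - y‖) = ‖x - y‖ / 2 := by field_simp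
  have h5 := mul_le_mul_of_nonneg_left h3 K1.le
  rw [mul_add, h4] at h5
  have h6 : ‖x - y‖ ≤ K * ‖fderiv ℝ Ψ e (x - y)‖ := h2
  linarith

end Vale.Agent.P354XM
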