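import Vale.Agent.P354SA.FD
import Vale.Agent.P354LF.Hj
import Vale.Agent.P354YR.Geo2

/-!
Joint jets of the characteristics, and jets of implicit functions.
-/

set_option maxSynthPendingDepth 3

open scoped ContDiff Nat
open Set Filter Topology Metric

noncomputable section

namespace Vale.Agent.P354XM

open Vale.Agent.P354n (R4)
open Vale.Agent.P354H (X3)
open Vale.Agent.P354YQ (SA JB JD Sol ode_jet)
open Vale.Agent.P354SA Vale.Agent.P354LF Vale.Agent.P354YR.Geo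

theorem jb_cpt {E F : Type} [NormedAddCommGroup E] [NormedSpace ℝ E] [NormedAddCommGroup F]
    [NormedSpace ℝ F] (n : ℕ) {K U : Set E} {G : E → F} (hK : IsCompact K) (hU : IsOpen U)
    (s : K ⊆ U) (h : ∀ x ∈ U, ContDiffAt ℝ ∞ G x) : ∃ c, 0 ≤ c ∧ ∀ x ∈ K, JB n G x c :=
  let ⟨c, c0, hc⟩ := P354YI.ex_jb n hK fun x hx => h x (s hx)
  ⟨c, c0, fun x hx => ⟨(hU.eventually_mem (s hx)).mono h, hc x hx⟩⟩

theorem gr_fd {S : X3 → ℝ} {F : R4 → ℝ} {y : X3} {c : ℝ} (s : SA S y) (f : SA F (S y, y))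
    (h : ∀ᶠ x in 𝓝 y, F (S x, x) = c) (ξ : X3) :
    fderiv ℝ S y ξ * fderiv ℝ F (S y, y) e0 + fderiv ℝ F (S y, y) (0, ξ) = 0 := by
  have := DFunLike.congr_fun ((HasFDerivAt.comp (f := fun x => (S x, x)) y f.diff.hasFDerivAt
    (s.diff.hasFDerivAt.prodMk (hasFDerivAt_id y))).unique
    ((hasFDerivAt_const c y).congr_of_eventuallyEq h)) ξ
  rw [← smul_eq_mul, ← map_smul, ← map_add]
  simpa [e0, Prod.mk_zero_zero] using this

theorem impj : IMPJ := by
  intro n C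
  induction n with
  | zero => exact ⟨1, le_rfl, fun _ _ _ s _ _ _ _ => .zero s⟩
  | succ k ih =>
    obtain ⟨C', C1, ih⟩ := ih
    have : ProperSpace (R4 →L[ℝ] ℝ) := FiniteDimensional.proper ℝ _
    have ce : Continuous fun a : R4 →L[ℝ] ℝ => a e0 := by fun_prop
    obtain ⟨A, A0, hA⟩ := jb_cpt k (K := closedBall 0 C ∩ {a | C⁻¹ ≤ |a e0| ∧ 0 < C})
      (U := {a : R4 →L[ℝ] ℝ | a e0 ≠ 0}) (G := fun a => -(a e0)⁻¹ • a.comp (.inr ℝ ℝ X3))
      ((isCompact_closedBall _ _).inter_right ((isClosed_le continuous_const ce.abs).inter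
        isClosed_const)) (isOpen_ne.preimage ce)
      (fun a ha => abs_pos.1 ((inv_pos.2 ha.2.2).trans_le ha.2.1))
      fun a ha => ((contDiffAt_id.clm_apply contDiffAt_const).inv ha).neg.smul
        (contDiffAt_id.clm_comp contDiffAt_const)
    refine ⟨max 1 (k ! * (k ! * A * max 1 C ^ k) * C' ^ k), le_max_left _ _,
      fun F S x s e h c0 hc => ?_⟩
    have a := ((hA _ ⟨mem_closedBall_zero_iff.2 h.fderiv.zero, hc, c0⟩).comp
      (h.fderiv.jd.mono (le_max_right 1 C)) (le_max_left _ _)).comp (f := fun y => (S y, y))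
      ((ih F S x s e (h.ord k.le_succ) c0 hc).prod (JD.id.mono C1)) C1
    refine (JD.of_fderiv s (a.congr ?_)).mono (le_max_right _ _)
    have g : ContinuousAt (fun y => (S y, y)) x := s.cont.prodMk continuousAt_id
    filter_upwards [s.ev, g.eventually h.sm.ev, e.eventually_nhds, g.eventually
      ((ce.continuousAt.comp h.sm.fderiv.cont).eventually_ne
        (abs_pos.1 ((inv_pos.2 c0).trans_le hc)))] with y s f e n
    refine ContinuousLinearMap.ext fun ξ => ?_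
    have := gr_fd s f e ξ
    simp only [Function.comp] at n
    simp only [smul_apply, ContinuousLinearMap.comp_apply, ContinuousLinearMap.inr_apply,
      smul_eq_mul]
    field_simp
    linarith

/-- The linear part of dq. -/
def dQ (l r : ℝ) : Q6 →L[ℝ] Q6 := LinearMap.toContinuousLinearMap
  ⟨⟨fun ξ => ((l * ξ.1.1, r * ξ.1.2.1, ξ.1.2.2), r • ξ.2), fun _ _ => by simp [mul_add]⟩,
    fun a _ => by simp [mul_left_comm, smul_comm a]⟩

theorem dQ_ap (l r : ℝ) (ξ : Q6) :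
    dQ l r ξ = ((l * ξ.1.1, r * ξ.1.2.1, ξ.1.2.2), r • ξ.2) := rfl

theorem dq_fd {f : Q6 → ℝ} {l : ℝ} {q ζ : Q6} (h : DifferentiableAt ℝ f (dq l q ζ)) (w : Q6) :
    fderiv ℝ (fun ξ => f (dq l q ξ)) ζ w = fderiv ℝ f (dq l q ζ) (dQ l q.1.2.1 w) :=
  DFunLike.congr_fun (h.hasFDerivAt.comp ζ ((dQ l q.1.2.1).hasFDerivAt.const_add q)).fderiv w

/-- The field in terms of the value and the derivative of the Hamiltonian. -/
def Pl (a : (ℝ × (Q6 →L[ℝ] ℝ)) × Y2 × ℝ) : E5 × ℝ :=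
  ((a.1.1 - a.1.2 (0, a.2.1), (-a.1.2 (0, 1, 0), -a.1.2 (0, 0, 1)),
    a.1.2 (ey 0, 0) + a.2.1.1 * a.1.2 (e1, 0), a.1.2 (ey 1, 0) + a.2.1.2 * a.1.2 (e1, 0)),
    a.1.2 (e1, 0) * a.2.2)

theorem Pl_cd : ContDiff ℝ ∞ Pl := by
  unfold Pl
  fun_prop

/-- The phase point of a scaled state. -/
def Lq : R4 × E5 × ℝ →L[ℝ] Q6 := LinearMap.toContinuousLinearMap
  ⟨⟨fun a => ((a.1.1, a.2.1.1, a.2.1.2.1), a.2.1.2.2), fun _ _ => rfl⟩, fun _ _ => rfl⟩

theorem Lq_ap (a : R4 × E5 × ℝ) : Lq a = ((a.1.1, a.2.1.1, a.2.1.2.1), a.2.1.2.2) := rfl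

def Pq : R4 × E5 × ℝ →L[ℝ] Y2 × ℝ := LinearMap.toContinuousLinearMap
  ⟨⟨fun a => (a.2.1.2.2, a.2.2), fun _ _ => rfl⟩, fun _ _ => rfl⟩

theorem jnt : JNT := by
  intro n K B
  have : ProperSpace ((ℝ × (Q6 →L[ℝ] ℝ)) × Y2 × ℝ) := FiniteDimensional.proper ℝ _
  let M := max (max 1 ‖Pq‖) (max (max |K| (n ! * |K| * 1 ^ n))
    (n ! * (|B| * |K|) * max 1 ‖Lq‖ ^ n))
  obtain ⟨A, A0, hA⟩ := jb_cpt n (isCompact_closedBall 0 M) isOpen_univ (subset_univ _)
    fun _ _ => Pl_cd.contDiffAt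
  obtain ⟨F, F0, hF⟩ := ode_jet n (max M (n ! * A * M ^ n))
  refine ⟨max 1 F, le_max_left _ _, fun m l g D Y z h hH hx => ?_⟩
  obtain ⟨o, mt⟩ := h.met
  obtain ⟨r1, m1, l1, lm, hp⟩ := h.par
  have r0 : 0 < (Y z).1 := one_pos.trans_le r1
  have m0 : 0 < m := (inv_pos.2 r0).trans_le m1
  have l0 : 0 < l := one_pos.trans_le l1
  have M1 : 1 ≤ M := (le_max_left _ _).trans (le_max_left _ _)
  have KM : K ≤ M := (le_abs_self K).trans (le_max_of_le_right (by simp))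
  have sY := h.sol.self_of_nhds.1.sm
  have sn : ∀ {x}, SA Y x → SA (nz Y z) x := fun s =>
    SA.prod (s.mono fun _ k => (k.fst.div_const (Y z).1).prodMk
      (k.snd.fst.prodMk (k.snd.snd.const_smul (Y z).1⁻¹))) ((s.and (sa_ph s).fderiv).mono fun _ k => (xp_cd.contDiffAt.comp _ k.1.snd.snd).clm_apply
        (k.2.clm_apply contDiffAt_const))
  let Φ : R4 → E5 × ℝ := fun ξ => nz Y z (dl l 1 z ξ)
  let Λ : R4 × E5 × ℝ → Q6 := fun a => Lq (a - (0, Φ 0))
  let H : Q6 → ℝ := fun ζ => Hm g (dq l (pq Y z) ζ)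
  have eΛ : ∀ ξ, dq l (pq Y z) (Λ (ξ, Φ ξ)) = pq Y (dl l 1 z ξ) := fun ξ => by
    simp only [Λ, Φ, dl_zero, Lq_ap, nz, dq, pq, ph]
    ext <;> simp [dl] <;> field_simp <;> ring
  have j1 : JB n (fun ζ => (l / (Y z).1) • (H ζ, fderiv ℝ H ζ)) 0 (|B| * |K|) := by
    refine (((hH.ord n.le_succ).prod hH.jd.fderiv).clm
      ((l / (Y z).1) • ContinuousLinearMap.id ℝ _)).mono ?_
    rw [norm_smul, ContinuousLinearMap.norm_id, Real.norm_of_nonneg (by positivity)]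
    refine le_of_eq_of_le (b := B * (l * m)) (by field_simp) ((le_abs_self _).trans ?_)
    rw [abs_mul]
    exact mul_le_mul_of_nonneg_left (abs_le_abs lm (by nlinarith)) (abs_nonneg _)
  have j2 : JD n Λ (0, Φ 0) (max 1 ‖Lq‖) :=
    (((JD.lin Lq).sub (JD.const (Lq (0, Φ 0)))).mono
      ((add_zero _).le.trans (le_max_right _ _))).congr (.of_forall fun a => map_sub _ _ _)
  have j3 := JB.comp (f := Λ) (by simpa only [Λ, sub_self, map_zero] using j1) j2 (le_max_left _ _)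
  have j4 : JB n (fun a : R4 × E5 × ℝ => (a.2.1.2.2, a.2.2)) (0, Φ 0) M := by
    refine JD.jb ((JD.lin Pq).mono ((le_max_right _ _).trans (le_max_left _ _))) (max_le ?_ ?_)
    · refine le_trans ?_ M1
      simp only [Φ, dl_zero, nz]
      rw [norm_smul, Real.norm_of_nonneg (inv_pos.2 r0).le, inv_mul_le_iff₀ r0, mul_one]
      exact hp
    · simp only [Φ, dl_zero, nz]
      exact (abs_of_nonneg ((inv_pos.2 ((mul_pos l0 m0).trans_le lm)).le.trans h.kap.1)).trans_le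
        (h.kap.2.trans KM)
  have j5 := (j3.mono ((le_max_right _ _).trans (le_max_right _ _))).prod j4
  have j6 := JB.comp (f := fun a => ((l / (Y z).1) • (H (Λ a), fderiv ℝ H (Λ a)), a.2.1.2.2, a.2.2))
    (hA _ (mem_closedBall_zero_iff.2 j5.zero)) j5.jd M1
  have pz : ∀ s, P354YQ.pt e0 Prod.fst s (0 : R4) = 0 := fun s => by simp [P354YQ.pt]
  refine (hF R4 _ e0 Prod.fst (fun a => Pl ((l / (Y z).1) • (H (Λ a), fderiv ℝ H (Λ a)),
    a.2.1.2.2, a.2.2)) Φ 0 (le_trans (by simp [e0, Prod.norm_def])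
    (M1.trans (le_max_left _ _))) (((JD.lin (.fst ℝ ℝ X3)).mono
      ((ContinuousLinearMap.norm_fst_le ℝ ℝ X3).trans (M1.trans (le_max_left _ _)))).jb
      (by simpa using Or.inl (zero_le_one.trans M1))) (fun s _ => ?_) ?_).mono (le_max_right _ _)
  · rw [pz]
    refine ⟨⟨SA.comp (u := nz Y z) (by simpa only [dl_zero] using sn sY) (.of (dl_cd ..)), ?_⟩,
      j6.mono (le_max_right _ _)⟩
    filter_upwards [ev_dl (l := l) (k := 1) h.sol] with ξ ⟨a, b, _⟩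
    have d := a.sm.diff.hasFDerivAt
    have dk := ((sn a.sm).diff.hasFDerivAt.snd.comp ξ (dl_fd l 1 z ξ))
    have e := DFunLike.congr_fun ((((d.fst.mul_const (Y z).1⁻¹).prodMk (d.snd.fst.prodMk
      (d.snd.snd.const_smul (Y z).1⁻¹))).comp ξ (dl_fd l 1 z ξ)).prodMk dk).fderiv e0
    have k := (((ray g D Y o mt).1 _ a b).2.2 e1 rfl).1
    have k' : (fderiv ℝ (nz Y z) (dl l 1 z ξ) e0).2 = _ :=
      (DFunLike.congr_fun (sn a.sm).diff.hasFDerivAt.snd.fderiv e0).symm.trans k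
    have e0' : dL l 1 e0 = l • e0 := by ext <;> simp [dL, e0]
    have w := fun π => (hm_p o mt b π).1
    have w2 := (wv_ap o mt b).2
    have hd : ∀ u, fderiv ℝ H (Λ (ξ, Φ ξ)) u =
        fderiv ℝ (Hm g) (pq Y (dl l 1 z ξ)) (dQ l (Y z).1 u) := fun u =>
      eΛ ξ ▸ dq_fd (eΛ ξ ▸ (hm_cd o mt b).differentiableAt (by simp)) u
    have q1 : ∀ A : Q6 →L[ℝ] ℝ, A (dQ l (Y z).1 (e1, 0)) = (Y z).1 * A (e1, 0) := fun A => by
      rw [← smul_eq_mul, ← map_smul]
      simp [dQ_ap, e1]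
    have q2 : ∀ a, dQ l (Y z).1 (ey a, 0) = (ey a, 0) := fun a => by
      fin_cases a <;> simp [dQ_ap, ey]
    have q3 : ∀ π, dQ l (Y z).1 (0, π) = (0, (Y z).1 • π) := fun π => by simp [dQ_ap]
    refine e.trans ?_
    rw [xp_ap] at w2
    simp only [ContinuousLinearMap.prod_apply, ContinuousLinearMap.comp_apply, e0', map_smul,
      a.ode.self_of_nhds, Pl, Prod.smul_mk, smul_apply, hd, q1, q2, q3, w, H, eΛ,
      ContinuousLinearMap.coe_snd', ContinuousLinearMap.coe_fst', Prod.smul_snd, k', ← w2]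
    simp only [Φ, nz, cf, Hd, pq, dot, smul_eq_mul, show ∀ w y, (ph w y).2 = y.2.2 from fun _ _ => rfl]
    ext <;> simp <;> field_simp <;> ring
  · refine ((JD.comp (f := fun w : R4 => z.2 + w.2) (z := 0) (D := 1)
      (by simpa using hx.mono (le_abs_self K)) ((((JD.const z.2).add (JD.lin (.snd ℝ ℝ X3))).mono
        (by simp))) le_rfl (abs_nonneg K)).congr
      (.of_forall fun w => congrArg (nz Y z) ?_)).mono (le_max_of_le_left (le_max_of_le_right
        ((le_max_right _ _).trans (le_max_left _ _))))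
    ext <;> simp [dl, P354YQ.pt, e0]

end Vale.Agent.P354XM
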