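import Vale.Agent.P354XM.Jet

/-!
Almost isometries: the differential equation for the 1-jet and the propagation of closeness.
-/

set_option maxSynthPendingDepth 3

open scoped ContDiff
open Set Filter Topology

noncomputable section

namespace Vale.Agent.P354XM

open Vale.Agent.P354n (R4)
open Vale.Agent.P354R (Pull)
open Vale.Agent.P354RC

/-- Linear maps, 1-jets of maps, and 1-jets of metrics. -/
abbrev L4 : Type := R4 →L[ℝ] R4
abbrev W1 : Type := R4 × L4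
abbrev J1 : Type := B2 × (R4 →L[ℝ] B2)

instance fin1 : FiniteDimensional ℝ (R4 →L[ℝ] ℝ) := inferInstance
instance finL : FiniteDimensional ℝ L4 := inferInstance
instance finB : FiniteDimensional ℝ B2 := ContinuousLinearMap.instModuleFinite
instance finB3 : FiniteDimensional ℝ (R4 →L[ℝ] B2) := ContinuousLinearMap.instModuleFinite
instance finB4 : FiniteDimensional ℝ (R4 →L[ℝ] R4 →L[ℝ] B2) := ContinuousLinearMap.instModuleFinite
instance finW : FiniteDimensional ℝ W1 := Module.Finite.prod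
instance finJ : FiniteDimensional ℝ J1 := Module.Finite.prod
instance finJW : FiniteDimensional ℝ (J1 × W1) := Module.Finite.prod

section
variable {V : Type} [NormedAddCommGroup V] [NormedSpace ℝ V]

/-- The bilinear map with given values on the coordinate vectors. -/
def bL (V : Type) [NormedAddCommGroup V] [NormedSpace ℝ V] (i : Fin 4 × Fin 4) :
    V →L[ℝ] R4 →L[ℝ] R4 →L[ℝ] V :=
  (ContinuousLinearMap.smulRightL ℝ R4 (R4 →L[ℝ] V) (cv i.1)).comp
    (ContinuousLinearMap.smulRightL ℝ R4 V (cv i.2))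
def bil (f : R4 → R4 → V) : R4 →L[ℝ] R4 →L[ℝ] V := ∑ i, bL V i (f (bs i.1) (bs i.2))

theorem bil_ap (f : R4 → R4 → V) (a c : R4) :
    bil f a c = ∑ i, ∑ j, cv i a • cv j c • f (bs i) (bs j) := by
  simp [bil, bL, Fintype.sum_prod_type]

theorem bil_eq (B : R4 →L[ℝ] R4 →L[ℝ] V) : bil (fun a c => B a c) = B := by
  refine ContinuousLinearMap.ext fun a => ContinuousLinearMap.ext fun c => ?_
  conv_rhs => rw [← sum_bs a, ← sum_bs c]
  simp only [bil_ap, map_sum, map_smul, sum_apply, smul_apply]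
  rw [Finset.sum_comm]
  simp only [Finset.smul_sum, smul_comm (cv _ c)]

theorem bil_cd {Q : Type} [NormedAddCommGroup Q] [NormedSpace ℝ Q] {f : Q → R4 → R4 → V} {q : Q}
    (hf : ∀ a c, ContDiffAt ℝ ∞ (fun q => f q a c) q) : ContDiffAt ℝ ∞ (fun q => bil (f q)) q :=
  ContDiffAt.sum fun i _ => (bL V i).contDiff.contDiffAt.comp q (hf _ _)

/-- The constant for the passage from components to bilinear maps. -/
def c16 : ℝ := ∑ i : Fin 4 × Fin 4, ‖bL ℝ i‖ * (‖bs i.1‖ * ‖bs i.2‖)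

theorem c16_nn : 0 ≤ c16 := Finset.sum_nonneg fun _ _ => by positivity

theorem bil_jb {f : R4 → R4 → R4 → ℝ} {x : R4} {k : ℕ} {c : ℝ}
    (hf : ∀ a c, ContDiffAt ℝ ∞ (fun y => f y a c) x) (h : P354XE.Bd k f x c) :
    Jb k (fun y => bil (f y)) x (c16 * c) := by
  refine (Jb.sum Finset.univ (fun i => (bL ℝ i).contDiff.contDiffAt.comp x (hf _ _))
    fun i => Jb.clm (bL ℝ i) (hf _ _) fun j hj => h j hj _ _).mono le_rfl (le_of_eq ?_)
  rw [c16, Finset.sum_mul]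
  exact Finset.sum_congr rfl fun _ _ => by ring

end

/-- The connection as a function of the 1-jet of the metric. -/
def GJ (J : J1) (a c : R4) : R4 :=
  J.1.inverse ((1 / 2 : ℝ) • (J.2 a c + J.2 c a - (J.2.flip a).flip c))

theorem GJ_cd {Q : Type} [NormedAddCommGroup Q] [NormedSpace ℝ Q] {J : Q → J1} {u v : Q → R4}
    {q : Q} (hi : (J q).1.IsInvertible) (hJ : ContDiffAt ℝ ∞ J q) (hu : ContDiffAt ℝ ∞ u q)
    (hv : ContDiffAt ℝ ∞ v q) : ContDiffAt ℝ ∞ (fun q => GJ (J q) (u q) (v q)) q := by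
  have k := hJ.snd
  have f1 : ContDiffAt ℝ ∞ (fun q => (J q).2.flip) q :=
    (ContinuousLinearMap.flipₗᵢ ℝ R4 R4 (R4 →L[ℝ] ℝ)).contDiff.contDiffAt.comp q k
  have f2 : ContDiffAt ℝ ∞ (fun q => ((J q).2.flip (u q)).flip) q :=
    (ContinuousLinearMap.flipₗᵢ ℝ R4 R4 ℝ).contDiff.contDiffAt.comp q (f1.clm_apply hu)
  exact (hi.contDiffAt_map_inverse.comp q hJ.fst).clm_apply (((((k.clm_apply hu).clm_apply hv).add
    ((k.clm_apply hv).clm_apply hu)).sub (f2.clm_apply hv)).const_smul (1 / 2 : ℝ))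

theorem open_inv : IsOpen {h : B2 | h.IsInvertible} := ContinuousLinearEquiv.isOpen

section
variable {P : Type} [NormedAddCommGroup P] [NormedSpace ℝ P]

/-- A smooth family of metrics. -/
structure Fam (h : P → R4 → B2) (W : Set (P × R4)) : Prop where
  op : IsOpen W
  sm : ∀ q ∈ W, ContDiffAt ℝ ∞ (fun q : P × R4 => h q.1 q.2) q
  sy : ∀ q ∈ W, ∀ a b, h q.1 q.2 a b = h q.1 q.2 b a
  nd : ∀ q ∈ W, ∀ a, (∀ b, h q.1 q.2 a b = 0) → a = 0

variable {h : P → R4 → B2} {W : Set (P × R4)} {p : P} {b : R4 → R4} {x : R4} {O : Set R4}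

theorem Fam.at (F : Fam h W) (hx : (p, x) ∈ W) : ContDiffAt ℝ ∞ (h p) x :=
  (F.sm _ hx).comp x (f := fun y => (p, y)) (by fun_prop)

theorem Fam.sm1 (F : Fam h W) {q : P × R4} (hq : q ∈ W) :
    ContDiffAt ℝ ∞ (fun q : P × R4 => fderiv ℝ (h q.1) q.2) q :=
  ContDiffAt.fderiv (f := fun q : P × R4 => h q.1) (n := ∞)
    ((F.sm _ hq).comp (f := fun r : (P × R4) × R4 => (r.1.1, r.2)) (q, q.2) (by fun_prop))
    contDiffAt_snd (by simp)

theorem Fam.rp (F : Fam h W) (p : P) : Rp (fun y a c => h p y a c) (h p) {y | (p, y) ∈ W} :=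
  ⟨F.op.preimage (f := fun y => (p, y)) (by fun_prop), fun _ _ _ _ => rfl,
    fun _ hy => (F.at hy).contDiffWithinAt, fun _ hy => F.sy _ hy, fun _ hy => F.nd _ hy⟩

/-- The pull back near a point where it is nondegenerate. -/
theorem Fam.pull (F : Fam h W) (hO : IsOpen O) (hb : ContDiffOn ℝ ∞ b O) (hx : x ∈ O)
    (hw : (p, b x) ∈ W) (hi : (pb (h p) b x).IsInvertible) : ∃ D', x ∈ D' ∧
      Pull b (fun y a c => pb (h p) b y a c) D' (fun y a c => h p y a c) {y | (p, y) ∈ W} := by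
  have r := F.rp p
  have o1 : IsOpen (O ∩ b ⁻¹' {y | (p, y) ∈ W}) := hb.continuousOn.isOpen_inter_preimage hO r.op
  have c1 : ContinuousOn (pb (h p) b) (O ∩ b ⁻¹' {y | (p, y) ∈ W}) := fun y hy =>
    (pb_cd (F.at hy.2) (hb.contDiffAt (hO.mem_nhds hy.1))).continuousAt.continuousWithinAt
  refine ⟨(O ∩ b ⁻¹' {y | (p, y) ∈ W}) ∩ pb (h p) b ⁻¹' {h | h.IsInvertible}, ⟨⟨hx, hw⟩, hi⟩,
    c1.isOpen_inter_preimage o1 open_inv, r.op, r.met,
    hb.mono fun y hy => hy.1.1, fun y hy => hy.1.2, fun y hy => ?_, fun _ _ _ _ => rfl⟩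
  refine (injective_iff_map_eq_zero _).2 fun v hv => ?_
  obtain ⟨e, he⟩ := hy.2
  refine e.injective ?_
  rw [map_zero, ← e.coe_coe, he]
  exact ContinuousLinearMap.ext fun c => by rw [pb_ap, hv]; simp

/-- The state, the 1-jet of the map, and the right side of the equation. -/
def st (h : P → R4 → B2) (p : P) (b : R4 → R4) (x : R4) : P × J1 × W1 :=
  (p, (pb (h p) b x, fderiv ℝ (pb (h p) b) x), b x, fderiv ℝ b x)
def wj (b : R4 → R4) (x : R4) : W1 := (b x, fderiv ℝ b x)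
def Th (h : P → R4 → B2) (q : P × J1 × W1) : R4 →L[ℝ] W1 :=
  q.2.2.2.prod (bil fun a c => q.2.2.2 (GJ q.2.1 a c) -
    GJ (h q.1 q.2.2.1, fderiv ℝ (h q.1) q.2.2.1) (q.2.2.2 a) (q.2.2.2 c))

theorem prod_cd {Q : Type} [NormedAddCommGroup Q] [NormedSpace ℝ Q] {f : Q → L4}
    {g : Q → R4 →L[ℝ] L4} {q : Q} (hf : ContDiffAt ℝ ∞ f q) (hg : ContDiffAt ℝ ∞ g q) :
    ContDiffAt ℝ ∞ (fun q => (f q).prod (g q)) q :=
  (ContinuousLinearMap.prodₗᵢ ℝ (𝕜 := ℝ) (E := R4) (F := R4)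
    (G := L4)).contDiff.contDiffAt.comp q (hf.prodMk hg)

theorem Fam.Th_cd (F : Fam h W) {q : P × J1 × W1} (hi : q.2.1.1.IsInvertible)
    (hw : (q.1, q.2.2.1) ∈ W) : ContDiffAt ℝ ∞ (Th h) q := by
  have a : ContDiffAt ℝ ∞ (fun q : P × J1 × W1 => q.2.2.2) q := contDiffAt_snd.snd.snd
  have j : ContDiffAt ℝ ∞ (fun q : P × J1 × W1 => q.2.1) q := contDiffAt_snd.fst
  have π : ContDiffAt ℝ ∞ (fun q : P × J1 × W1 => (q.1, q.2.2.1)) q :=
    contDiffAt_fst.prodMk contDiffAt_snd.snd.fst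
  have k0 : ContDiffAt ℝ ∞ (fun q : P × J1 × W1 => h q.1 q.2.2.1) q :=
    (F.sm _ hw).comp (f := fun q : P × J1 × W1 => (q.1, q.2.2.1)) q π
  have k1 : ContDiffAt ℝ ∞ (fun q : P × J1 × W1 => fderiv ℝ (h q.1) q.2.2.1) q :=
    (F.sm1 hw).comp (f := fun q : P × J1 × W1 => (q.1, q.2.2.1)) q π
  refine prod_cd a (bil_cd fun u v => ?_)
  exact (a.clm_apply (GJ_cd hi j contDiffAt_const contDiffAt_const)).sub
    (GJ_cd (J := fun q : P × J1 × W1 => (h q.1 q.2.2.1, fderiv ℝ (h q.1) q.2.2.1))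
      (inv_of_inj (F.nd _ hw)) (k0.prodMk k1) (a.clm_apply contDiffAt_const)
      (a.clm_apply contDiffAt_const))

theorem Fam.eqn (F : Fam h W) (hO : IsOpen O) (hb : ContDiffOn ℝ ∞ b O) (hx : x ∈ O)
    (hw : (p, b x) ∈ W) (hi : (pb (h p) b x).IsInvertible) :
    fderiv ℝ (wj b) =ᶠ[𝓝 x] fun y => Th h (st h p b y) := by
  obtain ⟨D', hD, pl⟩ := F.pull hO hb hx hw hi
  filter_upwards [pl.open'.mem_nhds hD] with y hy
  have k := p_at pl hy
  rw [show fderiv ℝ (wj b) y = _ from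
    ((at_df k).hasFDerivAt.prodMk (at_df (at_fd k)).hasFDerivAt).fderiv, Th, ← bil_eq
      (fderiv ℝ (fderiv ℝ b) y)]
  refine congrArg _ (congrArg bil (funext fun a => funext fun c => ?_))
  exact eq_sub_of_add_eq' (Gm_pb pl (F.rp p) hy a c).symm

theorem pb_id (g : R4 → B2) : pb g id = g := by
  funext y
  exact ContinuousLinearMap.ext fun a => ContinuousLinearMap.ext fun c => by simp [pb_ap]

theorem wj_cd (hb : ContDiffAt ℝ ∞ b x) : ContDiffAt ℝ ∞ (wj b) x := hb.prodMk (at_fd hb)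

theorem st_cd (hb : ContDiffAt ℝ ∞ b x) (hh : ContDiffAt ℝ ∞ (h p) (b x)) :
    ContDiffAt ℝ ∞ (st h p b) x :=
  contDiffAt_const.prodMk (((pb_cd hh hb).prodMk (at_fd (pb_cd hh hb))).prodMk (wj_cd hb))

theorem st_jb {j : ℕ} {c : ℝ} (hb : ContDiffAt ℝ ∞ b x) (hh : ContDiffAt ℝ ∞ (h p) (b x))
    (h0 : ContDiffAt ℝ ∞ (h p) x) (h1 : Jb (j + 1) (pb (h p) b - h p) x c)
    (h2 : Jb j (wj b - wj id) x c) : Jb j (st h p b - st h p id) x c := by
  have k := pb_cd hh hb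
  have e : st h p b - st h p id = fun y => ((0 : P), ((pb (h p) b - h p) y,
      (fderiv ℝ (pb (h p) b) - fderiv ℝ (h p)) y), (wj b - wj id) y) := by
    funext y
    simp [st, wj, pb_id]
  rw [e]
  exact Jb.pair contDiffAt_const (((k.sub h0).prodMk ((at_fd k).sub (at_fd h0))).prodMk
    ((wj_cd hb).sub (wj_cd contDiffAt_id))) ((Jb.const _).mono le_rfl (by simpa using h1.nonneg))
    (Jb.pair ((k.sub h0).prodMk ((at_fd k).sub (at_fd h0))) ((wj_cd hb).sub (wj_cd contDiffAt_id))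
      (Jb.pair (k.sub h0) ((at_fd k).sub (at_fd h0)) (h1.mono (Nat.le_succ j) le_rfl)
        (h1.fd.congr (fd_sub k h0).symm)) h2)

theorem Fam.st_id (F : Fam h W) {q : P × R4} (hq : q ∈ W) :
    ContDiffAt ℝ ∞ (fun q : P × R4 => st h q.1 id q.2) q := by
  simp only [st, pb_id, fderiv_id]
  exact contDiffAt_fst.prodMk (((F.sm _ hq).prodMk (F.sm1 hq)).prodMk
    (contDiffAt_snd.prodMk contDiffAt_const))

end

end Vale.Agent.P354XM
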