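import Vale.Agent.P354XM.AI

/-!
Almost isometries: propagation of closeness to the identity.
-/

set_option maxSynthPendingDepth 3

open scoped ContDiff
open Set Filter Topology Metric

noncomputable section

namespace Vale.Agent.P354XM

open Vale.Agent.P354n (R4)
open Vale.Agent.P354RC

variable {P : Type} [NormedAddCommGroup P] [NormedSpace ℝ P] [FiniteDimensional ℝ P]
  {h : P → R4 → B2} {W K : Set (P × R4)}

/-- A compact neighbourhood of the states of the identity. -/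
theorem Fam.nbh (F : Fam h W) (hK : IsCompact K) (hW : K ⊆ W) : ∃ (K1 : Set (P × J1 × W1)) (δ : ℝ),
    IsCompact K1 ∧ 0 < δ ∧ (∀ q ∈ K1, q.2.1.1.IsInvertible ∧ (q.1, q.2.2.1) ∈ W) ∧
    ∀ p x, (p, x) ∈ K → ∀ q, ‖q - st h p id x‖ ≤ δ → q ∈ K1 := by
  have : ProperSpace (P × J1 × W1) := FiniteDimensional.proper ℝ _
  have c : IsCompact ((fun q : P × R4 => st h q.1 id q.2) '' K) :=
    hK.image_of_continuousOn fun q hq => (F.st_id (hW hq)).continuousAt.continuousWithinAt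
  have o : IsOpen {q : P × J1 × W1 | q.2.1.1.IsInvertible ∧ (q.1, q.2.2.1) ∈ W} :=
    (open_inv.preimage continuous_snd.fst.fst).inter
      (F.op.preimage (continuous_fst.prodMk continuous_snd.snd.fst))
  obtain ⟨δ, hδ, hs⟩ := c.exists_cthickening_subset_open o (by
    rintro _ ⟨q, hq, rfl⟩
    refine ⟨?_, hW hq⟩
    simp only [st, pb_id]
    exact inv_of_inj (F.nd _ (hW hq)))
  exact ⟨_, δ, c.cthickening, hδ, fun q hq => hs hq, fun p x hx q hq =>
    mem_cthickening_of_dist_le q _ δ _ ⟨(p, x), hx, rfl⟩ (by rwa [dist_eq_norm])⟩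

omit [NormedSpace ℝ P] [FiniteDimensional ℝ P] in
theorem near_W {K1 : Set (P × J1 × W1)} {δ : ℝ} {p : P} {b : R4 → R4} {x : R4}
    (h1 : ∀ q ∈ K1, q.2.1.1.IsInvertible ∧ (q.1, q.2.2.1) ∈ W)
    (h2 : ∀ q, ‖q - st h p id x‖ ≤ δ → q ∈ K1) (hn : ‖wj b x - wj id x‖ ≤ δ) : (p, b x) ∈ W := by
  refine (h1 (p, (st h p id x).2.1, wj b x) (h2 _ ?_)).2
  have e : (p, (st h p id x).2.1, wj b x) - st h p id x = (0, 0, wj b x - wj id x) := by
    simp [st, wj]
  rw [e]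
  simpa [Prod.norm_def] using hn

theorem wj_sub {b : R4 → R4} {x : R4} (hb : ContDiffAt ℝ ∞ b x) :
    wj b - wj id =ᶠ[𝓝 x] wj (b - id) := by
  filter_upwards [fd_sub hb contDiffAt_id] with y hy
  simp only [wj, hy]
  rfl

theorem jb_wj {b : R4 → R4} {x : R4} {c : ℝ} {j : ℕ} (hb : ContDiffAt ℝ ∞ b x) :
    Jb j (wj b - wj id) x c ↔ Jb (j + 1) (b - id) x c := by
  have k := hb.sub contDiffAt_id
  refine ⟨fun H => ?_, fun H => (Jb.pair k (at_fd k) (H.mono (Nat.le_succ j) le_rfl) H.fd).congr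
    (wj_sub hb)⟩
  have H' := H.congr (wj_sub hb).symm
  refine .succ ((norm_fst_le _).trans H'.zero) ?_
  exact (Jb.clm (ContinuousLinearMap.snd ℝ R4 L4) (wj_cd k) H').mono le_rfl
    (mul_le_of_le_one_left H.nonneg (ContinuousLinearMap.norm_snd_le ..))

/-- The hypotheses of the propagation. -/
structure Hyp (h : P → R4 → B2) (W K : Set (P × R4)) (k : ℕ) (η : ℝ) (p : P) (U O : Set R4)
    (b : R4 → R4) : Prop where
  op : IsOpen O
  sub : U ⊆ O
  sm : ContDiffOn ℝ ∞ b O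
  mem : ∀ x ∈ U, (p, x) ∈ K
  bd : ∀ x ∈ U, (p, b x) ∈ W → Jb k (pb (h p) b - h p) x η

/-- The order zero. -/
theorem Fam.ai0 (F : Fam h W) (hK : IsCompact K) (hW : K ⊆ W) (L : ℝ) : ∃ C δ, 0 < C ∧ 0 < δ ∧
    ∀ η p U O b x0, η ≤ δ → Hyp h W K 1 η p U O b → Join U x0 L → ‖wj b x0 - wj id x0‖ ≤ η →
      ∀ x ∈ U, ‖wj b x - wj id x‖ ≤ C * η := by
  obtain ⟨K1, δ, c1, hδ, h1, h2⟩ := F.nbh hK hW
  obtain ⟨C, C0, hC⟩ := lip_cpt c1 fun q hq => F.Th_cd (h1 q hq).1 (h1 q hq).2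
  set l := C * |L| + 1 with hl
  have l0 : 0 < l := by positivity
  refine ⟨Real.exp l, δ / Real.exp l / 2, by positivity, by positivity,
    fun η p U O b x0 hη H J h0 x hx => ?_⟩
  obtain ⟨γ, γ', rfl, rfl, hγ⟩ := J x hx
  have η0 : 0 ≤ η := (norm_nonneg _).trans h0
  have sm : ∀ s ∈ Icc (0 : ℝ) 1, ContDiffAt ℝ ∞ b (γ s) := fun s hs =>
    H.sm.contDiffAt (H.op.mem_nhds (H.sub (hγ s hs).1))
  have df : ∀ s ∈ Icc (0 : ℝ) 1, HasDerivAt (fun s => wj b (γ s) - wj id (γ s))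
      ((fderiv ℝ (wj b) (γ s) - fderiv ℝ (wj id) (γ s)) (γ' s)) s := fun s hs =>
    ((at_df (wj_cd (sm s hs))).hasFDerivAt.sub
      (at_df (wj_cd contDiffAt_id)).hasFDerivAt).comp_hasDerivAt s (hγ s hs).2.1
  have key : ∀ θ ∈ Ioo η (δ / Real.exp l), ‖wj b (γ 1) - wj id (γ 1)‖ ≤ Real.exp l * θ := by
    intro θ hθ
    have θ0 : 0 < θ := η0.trans_lt hθ.1
    have := image_norm_le_of_norm_deriv_right_lt_deriv_boundary (a := 0) (b := 1)
      (B := fun s => Real.exp (l * s) * θ) (B' := fun s => Real.exp (l * s) * (l * 1) * θ)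
      (fun s hs => (df s hs).continuousAt.continuousWithinAt)
      (fun s hs => (df s (Ico_subset_Icc_self hs)).hasDerivWithinAt) (by simpa using h0.trans hθ.1.le)
      (fun s => (((hasDerivAt_id s).const_mul l).exp).mul_const θ) (fun s hs e => ?_)
      (right_mem_Icc.2 zero_le_one)
    · simpa using this
    have hs' := Ico_subset_Icc_self hs
    obtain ⟨m, -, v⟩ := hγ s hs'
    have e1 : 1 ≤ Real.exp (l * s) := Real.one_le_exp (mul_nonneg l0.le hs.1)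
    have e2 : Real.exp (l * s) * θ ≤ δ := by
      have : Real.exp (l * s) ≤ Real.exp l := Real.exp_le_exp.2 (mul_le_of_le_one_right l0.le hs'.2)
      have t := (lt_div_iff₀ (Real.exp_pos l)).1 hθ.2
      nlinarith
    have hk := H.mem _ m
    have w := near_W h1 (h2 p _ hk) (e.trans_le e2)
    have n : ‖st h p b (γ s) - st h p id (γ s)‖ ≤ Real.exp (l * s) * θ :=
      (st_jb (j := 0) (sm s hs') (F.at w) (F.at (hW hk)) ((H.bd _ m w).mono le_rfl (by nlinarith [hθ.1]))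
        (.of_zero e.le)).zero
    have m1 := h2 p _ hk _ (n.trans e2)
    have m2 := h2 p _ hk (st h p id (γ s)) (by simpa using hδ.le)
    rw [(F.eqn H.op H.sm (H.sub m) w (h1 _ m1).1).eq_of_nhds,
      (F.eqn isOpen_univ contDiffOn_id (mem_univ _) (hW hk) (h1 _ m2).1).eq_of_nhds]
    refine (ContinuousLinearMap.le_opNorm _ _).trans_lt ?_
    have t := ((hC _ m1).2 _ m2).trans (mul_le_mul_of_nonneg_left n C0.le)
    have t2 := mul_le_mul t (v.trans (le_abs_self L)) (norm_nonneg _) (by positivity)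
    have t3 : 0 < Real.exp (l * s) * θ := by positivity
    refine t2.trans_lt ?_
    rw [hl]
    nlinarith
  have lt : η < δ / Real.exp l := by
    have : 0 < δ / Real.exp l := by positivity
    linarith
  refine ge_of_tendsto (f := fun θ => Real.exp l * θ) (x := 𝓝[>] η)
    ((continuous_const.mul continuous_id).tendsto η |>.mono_left nhdsWithin_le_nhds) ?_
  filter_upwards [Ioo_mem_nhdsGT lt] with θ hθ using key θ hθ

/-- The higher orders at a point. -/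
theorem Fam.ai1 (F : Fam h W) (hK : IsCompact K) (hW : K ⊆ W) (C0 : ℝ) (hC0 : 1 ≤ C0) (j : ℕ) :
    ∃ C δ, 1 ≤ C ∧ 0 < δ ∧ ∀ η p U O b, η ≤ δ → Hyp h W K (j + 1) η p U O b →
      ∀ x ∈ U, ‖wj b x - wj id x‖ ≤ C0 * η → Jb (j + 1) (wj b - wj id) x (C * η) := by
  obtain ⟨K1, δ, c1, hδ, h1, h2⟩ := F.nbh hK hW
  have step : ∀ (j : ℕ) (C1 : ℝ), 1 ≤ C1 → ∃ C, C1 ≤ C ∧ ∀ η p U O b, C0 * η ≤ δ → η ≤ 1 →
      Hyp h W K (j + 1) η p U O b → ∀ x ∈ U, ‖wj b x - wj id x‖ ≤ C0 * η →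
      Jb j (wj b - wj id) x (C1 * η) → Jb (j + 1) (wj b - wj id) x (C * η) := fun j C1 hC1 => by
    obtain ⟨B, -, hB⟩ := bd_cpt j hK fun q hq => F.st_id (hW hq)
    obtain ⟨C, hC0', hC⟩ := comp j c1 (fun q hq => F.Th_cd (h1 q hq).1 (h1 q hq).2) (B + C1)
    refine ⟨C1 + C * C1, le_add_of_nonneg_right (by positivity),
      fun η p U O b hη hη1 H x m h0 hj => ?_⟩
    have hk := H.mem _ m
    have sm := H.sm.contDiffAt (H.op.mem_nhds (H.sub m))
    have w := near_W h1 (h2 p _ hk) (h0.trans hη)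
    have η0 := (H.bd _ m w).nonneg
    have m1 := h2 p _ hk _ ((st_jb (j := 0) sm (F.at w) (F.at (hW hk))
      ((H.bd _ m w).mono (by omega) (le_mul_of_one_le_left η0 hC0)) (.of_zero h0)).zero.trans hη)
    have m2 := h2 p _ hk (st h p id x) (by simpa using hδ.le)
    have t := (hC _ _ x _ ((Tm.of_bd (st_cd sm (F.at w)) (st_cd contDiffAt_id (F.at (hW hk)))
      (hB p p x hk hk).bu (st_jb sm (F.at w) (F.at (hW hk)) ((H.bd _ m w).mono le_rfl
        (le_mul_of_one_le_left η0 hC1)) hj)).mono le_rfl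
          (add_le_add le_rfl (mul_le_of_le_one_right (by linarith) hη1)) le_rfl) m1 m2).congr
      (F.eqn H.op H.sm (H.sub m) w (h1 _ m1).1)
      (F.eqn isOpen_univ contDiffOn_id (mem_univ _) (hW hk) (h1 _ m2).1)
    have p1 : 0 ≤ C * (C1 * η) := by positivity
    have p2 : 0 ≤ C1 * η := by positivity
    exact .succ (hj.zero.trans (by linarith))
      ((t.bd.congr (fd_sub (wj_cd sm) (wj_cd contDiffAt_id))).mono le_rfl (by linarith))
  have all : ∀ j, ∃ C, 1 ≤ C ∧ ∀ η p U O b, C0 * η ≤ δ → η ≤ 1 → Hyp h W K (j + 1) η p U O b →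
      ∀ x ∈ U, ‖wj b x - wj id x‖ ≤ C0 * η → Jb (j + 1) (wj b - wj id) x (C * η) := fun j => by
    induction j with
    | zero =>
      obtain ⟨C, hC, H⟩ := step 0 C0 hC0
      exact ⟨C, hC0.trans hC, fun η p U O b a1 a2 a3 x m h0 => H η p U O b a1 a2 a3 x m h0
        (.of_zero h0)⟩
    | succ j ih =>
      obtain ⟨C1, hC1, H1⟩ := ih
      obtain ⟨C, hC, H⟩ := step (j + 1) C1 hC1
      exact ⟨C, hC1.trans hC, fun η p U O b a1 a2 a3 x m h0 => H η p U O b a1 a2 a3 x m h0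
        (H1 η p U O b a1 a2 ⟨a3.op, a3.sub, a3.sm, a3.mem, fun x m w =>
          (a3.bd x m w).mono (Nat.le_succ _) le_rfl⟩ x m h0)⟩
  obtain ⟨C, hC, H⟩ := all j
  refine ⟨C, min 1 (δ / C0), hC, by positivity, fun η p U O b hη => H η p U O b ?_
    (hη.trans (min_le_left _ _))⟩
  rw [mul_comm]
  exact (le_div_iff₀ (by linarith)).1 (hη.trans (min_le_right _ _))

/-- **AI** for a general family of metrics. -/
theorem Fam.ai (F : Fam h W) (hK : IsCompact K) (hW : K ⊆ W) (L : ℝ) (k : ℕ) :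
    ∃ C δ, 0 < C ∧ 0 < δ ∧ ∀ η p U O b x0, η ≤ δ → Hyp h W K (k + 1) η p U O b → Join U x0 L →
      ContDiffAt ℝ ∞ b x0 → Jb 1 (b - id) x0 η → ∀ x ∈ U, Jb (k + 2) (b - id) x (C * η) := by
  obtain ⟨C0, δ0, hC0, hδ0, H0⟩ := F.ai0 hK hW L
  obtain ⟨C, δ, hC, hδ, H⟩ := F.ai1 hK hW (C0 + 1) (by linarith) k
  refine ⟨C, min δ0 δ, by linarith, by positivity, fun η p U O b x0 hη Hy J s0 h0 x m => ?_⟩
  have η0 := h0.nonneg
  have := H0 η p U O b x0 (hη.trans (min_le_left _ _)) ⟨Hy.op, Hy.sub, Hy.sm, Hy.mem,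
    fun x m w => (Hy.bd x m w).mono (by omega) le_rfl⟩ J ((jb_wj (j := 0) s0).2 h0).zero x m
  exact (jb_wj (Hy.sm.contDiffAt (Hy.op.mem_nhds (Hy.sub m)))).1
    (H η p U O b (hη.trans (min_le_right _ _)) Hy x m (by linarith))

end Vale.Agent.P354XM
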