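import Vale.Agent.P354XM.AI2

/-!
Almost isometries along a curve, uniformly in the metrics.
-/

set_option maxSynthPendingDepth 3

open scoped ContDiff
open Set Filter Topology Metric

noncomputable section

namespace Vale.Agent.P354XM

open Vale.Agent.P354n (R4)
open Vale.Agent.P354RC

section
variable {E F G : Type} [NormedAddCommGroup E] [NormedSpace ℝ E] [NormedAddCommGroup F]
  [NormedSpace ℝ F] [NormedAddCommGroup G] [NormedSpace ℝ G] {m : ℕ} {x : R4} {c c' : ℝ}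

/-- The Leibniz rule. -/
theorem Jb.bil {u : R4 → E} {w : R4 → F} (L : E →L[ℝ] F →L[ℝ] G) (hL : ‖L‖ ≤ 1)
    (hu : ContDiffAt ℝ ∞ u x) (hw : ContDiffAt ℝ ∞ w x) (h : Jb m u x c) (h' : Jb m w x c') :
    Jb m (fun y => L (u y) (w y)) x (2 ^ m * (c * c')) := fun j hj => by
  obtain ⟨t, ht, o, xt⟩ := _root_.eventually_nhds_iff.1 (((hu.of_le (le_inf' j)).eventually
    (by simp)).and ((hw.of_le (le_inf' j)).eventually (by simp)))
  have k := L.norm_iteratedFDerivWithin_le_of_bilinear_of_le_one (N := j) (n := j)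
    (fun y hy => (ht y hy).1.contDiffWithinAt) (fun y hy => (ht y hy).2.contDiffWithinAt)
    o.uniqueDiffOn xt le_rfl hL
  simp only [iteratedFDerivWithin_of_isOpen _ o xt] at k
  have c0 := h.nonneg
  have c1 := h'.nonneg
  refine k.trans ((Finset.sum_le_sum (g := fun i => (j.choose i : ℝ) * (c * c'))
    fun i hi => ?_).trans ?_)
  · rw [mul_assoc]
    have := Finset.mem_range.1 hi
    exact mul_le_mul_of_nonneg_left (mul_le_mul (h i (by omega)) (h' _ (by omega)) (norm_nonneg _)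
      c0) (Nat.cast_nonneg _)
  · rw [← Finset.sum_mul, ← Nat.cast_sum, Nat.sum_range_choose, Nat.cast_pow, Nat.cast_ofNat]
    exact mul_le_mul_of_nonneg_right (pow_le_pow_right₀ one_le_two hj) (mul_nonneg c0 c1)

theorem Jb.cl {u : R4 → F →L[ℝ] G} {w : R4 → E →L[ℝ] F} (hu : ContDiffAt ℝ ∞ u x)
    (hw : ContDiffAt ℝ ∞ w x) (h : Jb m u x c) (h' : Jb m w x c') :
    Jb m (fun y => (u y).comp (w y)) x (2 ^ m * (c * c')) :=
  Jb.bil (ContinuousLinearMap.compL ℝ E F G) (ContinuousLinearMap.norm_compL_le ..) hu hw h h'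

theorem jb_d1 {b : R4 → R4} (hb : ContDiffAt ℝ ∞ b x) (h : Jb (m + 1) (b - id) x c) :
    Jb m (fderiv ℝ b - fderiv ℝ id) x c := h.fd.congr (fd_sub hb contDiffAt_id).symm

theorem jb_id : Jb m (fderiv ℝ (id : R4 → R4)) x 1 := by
  rw [show fderiv ℝ (id : R4 → R4) = fun _ => .id ℝ R4 from funext fun _ => fderiv_id]
  exact (Jb.const _).mono le_rfl ContinuousLinearMap.norm_id_le

theorem jb_d2 {b : R4 → R4} (hb : ContDiffAt ℝ ∞ b x) (h : Jb (m + 1) (b - id) x 1) :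
    Jb m (fderiv ℝ b) x 2 :=
  (Tm.of_bd (at_fd hb) (at_fd contDiffAt_id) jb_id (jb_d1 hb h)).bu.mono le_rfl (by norm_num)

theorem fd_cmp {f : R4 → F} {b : R4 → R4} (hf : ContDiffAt ℝ ∞ f (b x))
    (hb : ContDiffAt ℝ ∞ b x) : fderiv ℝ (fun y => f (b y)) =ᶠ[𝓝 x]
      fun y => (fderiv ℝ f (b y)).comp (fderiv ℝ b y) := by
  filter_upwards [hb.continuousAt.eventually (ev_df hf), ev_df hb] with y h1 h2
  exact fderiv_fun_comp y h1 h2

end

/-- Composition with a map near the identity is bounded. -/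
theorem cmp (m : ℕ) : ∃ C, 1 ≤ C ∧ ∀ {F : Type} [NormedAddCommGroup F] [NormedSpace ℝ F]
    (f : R4 → F) (b : R4 → R4) (x : R4) (c : ℝ), ContDiffAt ℝ ∞ f (b x) → ContDiffAt ℝ ∞ b x →
    Jb m f (b x) c → Jb m (b - id) x 1 → Jb m (fun y => f (b y)) x (C * c) := by
  induction m with
  | zero => exact ⟨1, le_rfl, fun f b x c _ _ h _ => .of_zero (by simpa using h.zero)⟩
  | succ m ih =>
    obtain ⟨C, hC, H⟩ := ih
    have p : (1 : ℝ) ≤ 2 ^ m := one_le_pow₀ one_le_two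
    refine ⟨2 ^ m * (C * 2), by nlinarith, fun f b x c hf hb h h1 => .succ ?_ ?_⟩
    · exact h.zero.trans (le_mul_of_one_le_left h.nonneg (by nlinarith))
    · exact ((Jb.cl ((at_fd hf).comp x hb) (at_fd hb) (H _ b x c (at_fd hf) hb h.fd
        (h1.mono (Nat.le_succ m) le_rfl)) (jb_d2 hb h1)).congr (fd_cmp hf hb)).mono le_rfl
        (le_of_eq (by ring))

/-- Composition with a map near the identity is near the identity. -/
theorem dif (m : ℕ) : ∃ C, 1 ≤ C ∧ ∀ {F : Type} [NormedAddCommGroup F] [NormedSpace ℝ F]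
    (f : R4 → F) (b : R4 → R4) (x : R4) (ρ B ε : ℝ), ε ≤ 1 → ε ≤ ρ →
    (∀ y, ‖y - x‖ ≤ ρ → ContDiffAt ℝ ∞ f y ∧ Jb (m + 1) f y B) → ContDiffAt ℝ ∞ b x →
    Jb m (b - id) x ε → Jb m ((fun y => f (b y)) - f) x (C * (B * ε)) := by
  have z : ∀ {F : Type} [NormedAddCommGroup F] [NormedSpace ℝ F] {m : ℕ} {f : R4 → F} {x y : R4}
      {ρ B ε : ℝ}, ε ≤ ρ → (∀ y, ‖y - x‖ ≤ ρ → ContDiffAt ℝ ∞ f y ∧ Jb (m + 1) f y B) →
      ‖y - x‖ ≤ ε → ‖f y - f x‖ ≤ B * ε := fun {F _ _ m f x y ρ B ε} hρ hf h => by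
    have n := (norm_nonneg _).trans h
    have hx : x ∈ closedBall x ρ := mem_closedBall_self (n.trans hρ)
    exact ((convex_closedBall x ρ).norm_image_sub_le_of_norm_fderiv_le (𝕜 := ℝ)
      (fun z hz => at_df (hf z (mem_closedBall_iff_norm.1 hz)).1)
      (fun z hz => (hf z (mem_closedBall_iff_norm.1 hz)).2.fd.zero) hx
      (mem_closedBall_iff_norm.2 (h.trans hρ))).trans
      (mul_le_mul_of_nonneg_left h (hf x (mem_closedBall_iff_norm.1 hx)).2.nonneg)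
  induction m with
  | zero =>
    exact ⟨1, le_rfl, fun f b x ρ B ε _ hρ hf _ h => .of_zero (by simpa using z hρ hf h.zero)⟩
  | succ m ih =>
    obtain ⟨C, hC, H⟩ := ih
    have p : (1 : ℝ) ≤ 2 ^ m := one_le_pow₀ one_le_two
    refine ⟨2 ^ m * (C * 2 + 1), by nlinarith, fun f b x ρ B ε h1 hρ hf hb h => ?_⟩
    have n := h.nonneg
    obtain ⟨s0, b0⟩ := hf x (by simpa using n.trans hρ)
    have s1 := (hf (b x) (h.zero.trans hρ)).1
    have k := (at_fd s1).comp x hb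
    refine .succ ((z hρ hf h.zero).trans (le_mul_of_one_le_left (mul_nonneg b0.nonneg n)
      (by nlinarith))) ?_
    have t1 := Jb.cl (k.sub (at_fd s0)) (at_fd hb) (H (fderiv ℝ f) b x ρ B ε h1 hρ
      (fun y hy => ⟨at_fd (hf y hy).1, (hf y hy).2.fd⟩) hb (h.mono (Nat.le_succ m) le_rfl))
      (jb_d2 hb (h.mono le_rfl h1))
    have t2 := Jb.cl (at_fd s0) ((at_fd hb).sub (at_fd contDiffAt_id))
      (b0.fd.mono (Nat.le_succ m) le_rfl) (jb_d1 hb h)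
    refine ((Jb.add ((k.sub (at_fd s0)).clm_comp (at_fd hb)) ((at_fd s0).clm_comp
      ((at_fd hb).sub (at_fd contDiffAt_id))) t1 t2).congr ?_).mono le_rfl (le_of_eq (by ring))
    filter_upwards [fd_sub (s1.comp x hb) s0, fd_cmp s1 hb] with y e1 e2
    refine e1.trans ?_
    rw [Pi.sub_apply, show fderiv ℝ (f ∘ b) y = _ from e2]
    simp [ContinuousLinearMap.sub_comp, ContinuousLinearMap.comp_sub]

/-- The 1-jet of a metric, the state, and the right side of the equation. -/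
def j1 (h : R4 → B2) (y : R4) : J1 := (h y, fderiv ℝ h y)
def uu (h0 h : R4 → B2) (b : R4 → R4) (y : R4) : J1 × J1 × L4 := (j1 h0 y, j1 h (b y), fderiv ℝ b y)
def Tu (r : J1 × J1 × L4) : R4 →L[ℝ] W1 :=
  r.2.2.prod (bil fun a c => r.2.2 (GJ r.1 a c) - GJ r.2.1 (r.2.2 a) (r.2.2 c))

instance finU : FiniteDimensional ℝ (J1 × J1 × L4) :=
  @Module.Finite.prod _ _ _ _ _ _ _ _ finJ (@Module.Finite.prod _ _ _ _ _ _ _ _ finJ finL)

theorem Tu_cd {r : J1 × J1 × L4} (hi : r.1.1.IsInvertible) (hi' : r.2.1.1.IsInvertible) :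
    ContDiffAt ℝ ∞ Tu r := by
  have a : ContDiffAt ℝ ∞ (fun r : J1 × J1 × L4 => r.2.2) r := contDiffAt_snd.snd
  have j : ContDiffAt ℝ ∞ (fun r : J1 × J1 × L4 => r.1) r := contDiffAt_fst
  have j' : ContDiffAt ℝ ∞ (fun r : J1 × J1 × L4 => r.2.1) r := contDiffAt_snd.fst
  refine prod_cd a (bil_cd fun u v => ?_)
  exact (a.clm_apply (GJ_cd hi j contDiffAt_const contDiffAt_const)).sub
    (GJ_cd hi' j' (a.clm_apply contDiffAt_const) (a.clm_apply contDiffAt_const))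

theorem Tu_id (h : R4 → B2) (y : R4) : fderiv ℝ (wj id) y = Tu (uu h h id y) := by
  rw [show wj id = fun y => (y, .id ℝ R4) from funext fun y => by simp [wj],
    show fderiv ℝ (fun y : R4 => ((y, .id ℝ R4) : W1)) y = _ from
      ((hasFDerivAt_id y).prodMk (hasFDerivAt_const _ y)).fderiv]
  simp [Tu, uu, bil]

theorem j1_cd {h : R4 → B2} {x : R4} (s : ContDiffAt ℝ ∞ h x) : ContDiffAt ℝ ∞ (j1 h) x :=
  s.prodMk (at_fd s)

theorem j1_jb {h : R4 → B2} {x : R4} {m : ℕ} {c : ℝ} (s : ContDiffAt ℝ ∞ h x)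
    (H : Jb (m + 1) h x c) : Jb m (j1 h) x c :=
  Jb.pair s (at_fd s) (H.mono (Nat.le_succ m) le_rfl) H.fd

theorem j1_sub {h h' : R4 → B2} {x : R4} {m : ℕ} {c : ℝ} (s : ContDiffAt ℝ ∞ h x)
    (s' : ContDiffAt ℝ ∞ h' x) (H : Jb (m + 1) (h - h') x c) : Jb m (j1 h - j1 h') x c := by
  refine (j1_jb (s.sub s') H).congr ?_
  filter_upwards [fd_sub s s'] with y e
  exact Prod.ext rfl e.symm

/-- A compact set of states. -/
theorem ex_K (B : ℝ) {c : ℝ} (hc : 0 < c) : ∃ K : Set (J1 × J1 × L4), IsCompact K ∧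
    (∀ r ∈ K, r.1.1.IsInvertible ∧ r.2.1.1.IsInvertible) ∧ ∀ r r0 : J1 × J1 × L4, ‖r0‖ ≤ B →
      (∀ v, c * ‖v‖ ≤ ‖r0.1.1 v‖) → r0.2.1 = r0.1 → ‖r - r0‖ ≤ min 1 (c / 2) → r ∈ K := by
  have : ProperSpace (J1 × J1 × L4) := FiniteDimensional.proper ℝ _
  have cl : IsClosed {h : B2 | ∀ v, c / 2 * ‖v‖ ≤ ‖h v‖} := by
    rw [ofPred_forall]
    exact isClosed_iInter fun v => isClosed_le continuous_const
      (ContinuousLinearMap.apply ℝ (R4 →L[ℝ] ℝ) v).continuous.norm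
  have iv : ∀ h : B2, (∀ v, c / 2 * ‖v‖ ≤ ‖h v‖) → h.IsInvertible := fun h H =>
    inv_of_inj fun a ha => by
      have := H a
      rw [show h a = 0 from ContinuousLinearMap.ext ha, norm_zero] at this
      exact norm_le_zero_iff.1 (by nlinarith [norm_nonneg a])
  have nr : ∀ h h0 : B2, (∀ v, c * ‖v‖ ≤ ‖h0 v‖) → ‖h - h0‖ ≤ c / 2 →
      ∀ v, c / 2 * ‖v‖ ≤ ‖h v‖ := fun h h0 H n v => by
    have a1 := ((h - h0).le_opNorm v).trans (mul_le_mul_of_nonneg_right n (norm_nonneg v))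
    have a2 := norm_sub_le (h v) ((h - h0) v)
    rw [sub_apply, sub_sub_cancel, ← sub_apply] at a2
    linarith [H v]
  refine ⟨closedBall 0 (B + 1) ∩ ((fun r => r.1.1) ⁻¹' {h | ∀ v, c / 2 * ‖v‖ ≤ ‖h v‖} ∩
    (fun r => r.2.1.1) ⁻¹' {h | ∀ v, c / 2 * ‖v‖ ≤ ‖h v‖}), (isCompact_closedBall _ _).inter_right
    ((cl.preimage continuous_fst.fst).inter (cl.preimage continuous_snd.fst.fst)),
    fun r hr => ⟨iv _ hr.2.1, iv _ hr.2.2⟩, fun r r0 n H e d => ⟨?_, ?_, ?_⟩⟩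
  · have := norm_add_le r0 (r - r0)
    rw [add_sub_cancel] at this
    exact mem_closedBall_zero_iff.2 (by linarith [min_le_left 1 (c / 2)])
  · exact nr _ _ H (((norm_fst_le (r - r0).1).trans (norm_fst_le (r - r0))).trans
      (d.trans (min_le_right _ _)))
  · exact nr _ r0.2.1.1 (by rw [e]; exact H) (((norm_fst_le (r - r0).2.1).trans
      ((norm_fst_le (r - r0).2).trans (norm_snd_le (r - r0)))).trans (d.trans (min_le_right _ _)))

/-- The hypotheses at a point. -/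
structure Pt (n : ℕ) (B c ρ η : ℝ) (h0 h : R4 → B2) (b : R4 → R4) (x : R4) : Prop where
  sb : ContDiffAt ℝ ∞ b x
  sh : ContDiffAt ℝ ∞ h (b x)
  eq : (pb h b x).IsInvertible → fderiv ℝ (wj b) =ᶠ[𝓝 x] fun y => Tu (uu (pb h b) h b y)
  ball : ∀ y, ‖y - x‖ ≤ ρ → ContDiffAt ℝ ∞ h0 y ∧ Jb (n + 1) h0 y B
  nd : ∀ v, c * ‖v‖ ≤ ‖h0 x v‖
  b1 : Jb n (pb h b - h0) x η
  b2 : ‖b x - x‖ ≤ ρ → Jb n (h - h0) (b x) η

theorem Pt.mono {n n' : ℕ} {B c ρ η η' : ℝ} {h0 h : R4 → B2} {b : R4 → R4} {x : R4}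
    (H : Pt n B c ρ η h0 h b x) (hn : n' ≤ n) (hη : η ≤ η') : Pt n' B c ρ η' h0 h b x :=
  ⟨H.sb, H.sh, H.eq, fun y hy => ⟨(H.ball y hy).1, (H.ball y hy).2.mono (by omega) le_rfl⟩, H.nd,
    H.b1.mono hn hη, fun e => (H.b2 e).mono hn hη⟩

/-- The state is near the state of the identity. -/
theorem Pt.uu (j : ℕ) {B : ℝ} (hB : 0 ≤ B) : ∃ A, 1 ≤ A ∧ ∀ c ρ ε h0 h b x, ε ≤ 1 → ε ≤ ρ →
    Pt (j + 1) B c ρ ε h0 h b x → Jb (j + 1) (b - id) x ε →
      Tm j (B + 1 + A * ε) (A * ε) x (uu (pb h b) h b) (uu h0 h0 id) := by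
  obtain ⟨C1, h1, H1⟩ := cmp j
  obtain ⟨C2, h2, H2⟩ := dif j
  have p : 0 ≤ C2 * B := by positivity
  refine ⟨C1 + C2 * B, by linarith, fun c ρ ε h0 h b x e1 eρ H hb => ?_⟩
  have n := hb.nonneg
  have l : ε ≤ (C1 + C2 * B) * ε := le_mul_of_one_le_left n (by linarith)
  obtain ⟨s0, b0⟩ := H.ball x (by simpa using n.trans eρ)
  have m := hb.zero.trans eρ
  have s1 := (H.ball _ m).1
  have hb' := hb.mono (Nat.le_succ j) le_rfl
  have k1 := j1_cd (pb_cd H.sh H.sb)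
  have k2 : ContDiffAt ℝ ∞ (fun y => j1 h (b y)) x := (j1_cd H.sh).comp x H.sb
  have k3 : ContDiffAt ℝ ∞ (fun y => j1 h0 (b y)) x := (j1_cd s1).comp x H.sb
  have k0 := j1_cd s0
  have t1 := H1 _ b x ε ((j1_cd H.sh).sub (j1_cd s1)) H.sb (j1_sub H.sh s1 (H.b2 m))
    (hb'.mono le_rfl e1)
  have t2 := H2 (j1 h0) b x ρ B ε e1 eρ
    (fun y hy => ⟨j1_cd (H.ball y hy).1, j1_jb (H.ball y hy).1 (H.ball y hy).2⟩) H.sb hb'
  have t3 : Jb j ((fun y => j1 h (b y)) - j1 h0) x ((C1 + C2 * B) * ε) :=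
    ((Jb.add (k2.sub k3) (k3.sub k0) t1 t2).congr (.of_forall fun y => by simp)).mono le_rfl
      (le_of_eq (by ring))
  have v0 : Jb j (j1 h0) x (B + 1) := (j1_jb s0 b0).mono (Nat.le_succ j) (by linarith)
  exact (Tm.of_bd k1 k0 v0 ((j1_sub (pb_cd H.sh H.sb) s0 H.b1).mono le_rfl l)).pair
    ((Tm.of_bd k2 k0 v0 t3).pair (Tm.of_bd (at_fd H.sb) (at_fd contDiffAt_id)
      (jb_id.mono le_rfl (by linarith)) ((jb_d1 H.sb hb).mono le_rfl l)))

/-- The gain of one order at a point. -/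
theorem Pt.step (j : ℕ) {B c ρ : ℝ} (hB : 0 ≤ B) (hc : 0 < c) (hρ : 0 < ρ) : ∃ C δ, 1 ≤ C ∧
    0 < δ ∧ ∀ ε h0 h b x, ε ≤ δ → Pt (j + 1) B c ρ ε h0 h b x → Jb (j + 1) (b - id) x ε →
      Jb j (fderiv ℝ (wj b) - fderiv ℝ (wj id)) x (C * ε) := by
  obtain ⟨A, hA, H1⟩ := Pt.uu j hB
  obtain ⟨K, hK, hi, hm⟩ := ex_K (B + 2) hc
  obtain ⟨C, hC, H2⟩ := comp j hK (fun r hr => Tu_cd (hi r hr).1 (hi r hr).2) (B + 2)
  have p : 0 < C * A := by positivity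
  refine ⟨C * A + 1, min (min 1 ρ) (min 1 (c / 2) / A), by linarith, by positivity,
    fun ε h0 h b x e H hb => ?_⟩
  have e1 := le_min_iff.1 (e.trans (min_le_left _ _))
  have e2 := (le_div_iff₀' (by linarith)).1 (e.trans (min_le_right _ _))
  have t := (H1 c ρ ε h0 h b x e1.1 e1.2 H hb).mono le_rfl
    (show _ ≤ B + 2 by linarith [min_le_left 1 (c / 2)]) le_rfl
  have m1 := hm _ _ t.bv.zero H.nd rfl (t.bd.zero.trans e2)
  have m2 := hm (P354XM.uu h0 h0 id x) _ t.bv.zero H.nd rfl (by rw [sub_self, norm_zero]; positivity)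
  exact ((H2 _ _ x _ t m1 m2).congr (H.eq (hi _ m1).1) (.of_forall (Tu_id h0))).bd.mono le_rfl
    (by linarith [hb.nonneg])

/-- The order zero along the curve. -/
theorem arg0 (L : ℝ) {B c ρ : ℝ} (hB : 0 ≤ B) (hc : 0 < c) (hρ : 0 < ρ) : ∃ C δ, 1 ≤ C ∧
    0 < δ ∧ ∀ ε h0 h b (γ : ℝ → R4), ε ≤ δ → (∀ s ∈ Icc (0 : ℝ) 1, DifferentiableAt ℝ γ s ∧
      ‖deriv γ s‖ ≤ L ∧ Pt 1 B c ρ ε h0 h b (γ s)) → Jb 1 (b - id) (γ 0) ε →
      ∀ s ∈ Icc (0 : ℝ) 1, Jb 1 (b - id) (γ s) (C * ε) := by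
  obtain ⟨C, δ, hC, hδ, H⟩ := Pt.step 0 hB hc hρ
  obtain ⟨l, hl⟩ : ∃ l, l = C * |L| + 1 := ⟨_, rfl⟩
  have l0 : 0 < l := by rw [hl]; positivity
  refine ⟨Real.exp l, δ / Real.exp l / 2, Real.one_le_exp l0.le, by positivity,
    fun η h0 h b γ hη hγ z s0 hs0 => ?_⟩
  have η0 := z.nonneg
  have df : ∀ s ∈ Icc (0 : ℝ) 1, HasDerivAt (fun s => wj b (γ s) - wj id (γ s))
      ((fderiv ℝ (wj b) (γ s) - fderiv ℝ (wj id) (γ s)) (deriv γ s)) s := fun s hs =>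
    ((at_df (wj_cd (hγ s hs).2.2.sb)).hasFDerivAt.sub
      (at_df (wj_cd contDiffAt_id)).hasFDerivAt).comp_hasDerivAt s (hγ s hs).1.hasDerivAt
  have z0 := ((jb_wj (j := 0) (hγ 0 (left_mem_Icc.2 zero_le_one)).2.2.sb).2 z).zero
  have key : ∀ θ ∈ Ioo η (δ / Real.exp l), ‖wj b (γ s0) - wj id (γ s0)‖ ≤ Real.exp l * θ := by
    intro θ hθ
    have θ0 : 0 < θ := η0.trans_lt hθ.1
    have le : ∀ s ∈ Icc (0 : ℝ) 1, Real.exp (l * s) * θ ≤ Real.exp l * θ := fun s hs =>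
      mul_le_mul_of_nonneg_right (Real.exp_le_exp.2 (mul_le_of_le_one_right l0.le hs.2)) θ0.le
    refine (image_norm_le_of_norm_deriv_right_lt_deriv_boundary (a := 0) (b := 1)
      (B := fun s => Real.exp (l * s) * θ) (B' := fun s => Real.exp (l * s) * (l * 1) * θ)
      (fun s hs => (df s hs).continuousAt.continuousWithinAt)
      (fun s hs => (df s (Ico_subset_Icc_self hs)).hasDerivWithinAt)
      (by simpa using z0.trans hθ.1.le)
      (fun s => (((hasDerivAt_id s).const_mul l).exp).mul_const θ) (fun s hs e => ?_)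
      hs0).trans (le s0 hs0)
    have hs' := Ico_subset_Icc_self hs
    obtain ⟨-, v, pt⟩ := hγ s hs'
    have e1 : 1 ≤ Real.exp (l * s) := Real.one_le_exp (mul_nonneg l0.le hs.1)
    have t := (H _ h0 h b _ ((le s hs').trans ((lt_div_iff₀' (Real.exp_pos l)).1 hθ.2).le)
      (pt.mono le_rfl (by nlinarith [hθ.1])) ((jb_wj (j := 0) pt.sb).1 (.of_zero e.le))).zero
    refine (ContinuousLinearMap.le_opNorm _ _).trans_lt ?_
    have t2 := mul_le_mul t (v.trans (le_abs_self L)) (norm_nonneg _) (by positivity)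
    have t3 : 0 < Real.exp (l * s) * θ := by positivity
    refine t2.trans_lt ?_
    have t4 : Real.exp (l * s) * (l * 1) * θ = (C * |L| + 1) * (Real.exp (l * s) * θ) := by
      rw [← hl]; ring
    rw [t4]
    linarith
  have lt : η < δ / Real.exp l := by
    have : 0 < δ / Real.exp l := by positivity
    linarith
  refine (jb_wj (j := 0) (hγ s0 hs0).2.2.sb).1 (.of_zero ?_)
  refine ge_of_tendsto (f := fun θ => Real.exp l * θ) (x := 𝓝[>] η)
    ((continuous_const.mul continuous_id).tendsto η |>.mono_left nhdsWithin_le_nhds) ?_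
  filter_upwards [Ioo_mem_nhdsGT lt] with θ hθ using key θ hθ

/-- The higher orders at a point. -/
theorem arg1 (j : ℕ) {B c ρ C0 : ℝ} (hB : 0 ≤ B) (hc : 0 < c) (hρ : 0 < ρ) (h0 : 1 ≤ C0) :
    ∃ C δ, 1 ≤ C ∧ 0 < δ ∧ ∀ ε h0 h b x, ε ≤ δ → Pt j B c ρ ε h0 h b x →
      Jb 1 (b - id) x (C0 * ε) → Jb (j + 1) (b - id) x (C * ε) := by
  induction j with
  | zero => exact ⟨C0, 1, h0, one_pos, fun _ _ _ _ _ _ _ z => z⟩
  | succ j ih =>
    obtain ⟨C1, δ1, hC1, hδ1, H1⟩ := ih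
    obtain ⟨C, δ, hC, hδ, H⟩ := Pt.step j hB hc hρ
    refine ⟨C * C1, min δ1 (δ / C1), by nlinarith, by positivity, fun ε h0 h b x e pt z => ?_⟩
    have t := H1 ε h0 h b x (e.trans (min_le_left _ _)) (pt.mono (Nat.le_succ j) le_rfl) z
    have t1 := H _ h0 h b x ((le_div_iff₀' (by linarith)).1 (e.trans (min_le_right _ _)))
      (pt.mono le_rfl (le_mul_of_one_le_left pt.b1.nonneg hC1)) t
    rw [mul_assoc]
    exact (jb_wj pt.sb).1 (.succ (((jb_wj pt.sb).2 t).zero.trans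
      (le_mul_of_one_le_left t.nonneg hC)) (t1.congr (fd_sub (wj_cd pt.sb) (wj_cd contDiffAt_id))))

end Vale.Agent.P354XM
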