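import Vale.Agent.P354RK.Comp

/-!
Rational functions of the parameters and of r and z with the denominators Sigma and 1 - z^2.
-/

set_option maxSynthPendingDepth 3

open scoped ContDiff
open Set Filter Topology

noncomputable section

namespace Vale.Agent.P354XM

open Vale.Agent.P354n (R4)
open Vale.Agent.P354R Vale.Agent.P354RC Vale.Agent.P354RK

/-- The parameters (M, a). -/
abbrev P2 : Type := ℝ × ℝ

/-- Expressions; u and w are the inverses of Sigma and of 1 - z^2. -/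
inductive Ey where
  | k (n : ℤ) | r | z | a | m | u | w
  | add (x y : Ey) | mul (x y : Ey)

open Ey

/-- The value. -/
def ev (p : P2) (y : R4) : Ey → ℝ
  | .k n => n
  | .r => y.2.1
  | .z => y.2.2.1
  | .a => p.2
  | .m => p.1
  | .u => (Sig p.2 y.2.1 y.2.2.1)⁻¹
  | .w => (1 - y.2.2.1 ^ 2)⁻¹
  | .add x x' => ev p y x + ev p y x'
  | .mul x x' => ev p y x * ev p y x'

/-- The partial derivative. -/
def d (i : Fin 4) : Ey → Ey
  | .r => if i = 1 then k 1 else k 0
  | .z => if i = 2 then k 1 else k 0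
  | .u => if i = 1 then mul (k (-2)) (mul r (mul u u)) else
      if i = 2 then mul (k (-2)) (mul (mul a (mul a z)) (mul u u)) else k 0
  | .w => if i = 2 then mul (k 2) (mul z (mul w w)) else k 0
  | .add x x' => add (d i x) (d i x')
  | .mul x x' => add (mul (d i x) x') (mul x (d i x'))
  | _ => k 0

/-- The domain. -/
def dom (p : P2) : Set R4 := {y | Sig p.2 y.2.1 y.2.2.1 ≠ 0 ∧ 1 - y.2.2.1 ^ 2 ≠ 0}

variable {p : P2} {y : R4}

theorem open_dom2 : IsOpen {q : P2 × R4 | q.2 ∈ dom q.1} := by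
  refine (isOpen_ne_fun ?_ continuous_const).inter (isOpen_ne_fun ?_ continuous_const)
  · unfold Sig; fun_prop
  · fun_prop

theorem open_dom : IsOpen (dom p) := open_dom2.preimage (f := fun y => (p, y)) (by fun_prop)

theorem ev_cd2 (hy : y ∈ dom p) (e : Ey) :
    ContDiffAt ℝ ∞ (fun q : P2 × R4 => ev q.1 q.2 e) (p, y) := by
  induction e with
  | add x x' h h' => exact h.add h'
  | mul x x' h h' => exact h.mul h'
  | u =>
    exact ContDiffAt.inv (f := fun q : P2 × R4 => Sig q.1.2 q.2.2.1 q.2.2.2.1)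
      (by unfold Sig; fun_prop) hy.1
  | w => exact ContDiffAt.inv (f := fun q : P2 × R4 => 1 - q.2.2.2.1 ^ 2) (by fun_prop) hy.2
  | _ => simp only [ev]; fun_prop

theorem ev_cd (hy : y ∈ dom p) (e : Ey) : ContDiffAt ℝ ∞ (fun y => ev p y e) y :=
  (ev_cd2 hy e).comp y (f := fun y => (p, y)) (by fun_prop)

theorem ev_fd (hy : y ∈ dom p) (i : Fin 4) (e : Ey) :
    fderiv ℝ (fun y => ev p y e) y (bs i) = ev p y (d i e) := by
  have r' : HasFDerivAt (fun y : R4 => y.2.1) (cv 1) y := (cv 1).hasFDerivAt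
  have z' : HasFDerivAt (fun y : R4 => y.2.2.1) (cv 2) y := (cv 2).hasFDerivAt
  induction e with
  | add x x' h h' =>
    simp only [ev, d]
    rw [fderiv_fun_add (at_df (ev_cd hy x)) (at_df (ev_cd hy x')), add_apply, h, h']
  | mul x x' h h' =>
    simp only [ev, d]
    rw [fderiv_fun_mul (at_df (ev_cd hy x)) (at_df (ev_cd hy x')), add_apply, smul_apply,
      smul_apply, h, h', smul_eq_mul, smul_eq_mul]
    ring
  | r => rw [show fderiv ℝ (fun y => ev p y .r) y = _ from r'.fderiv, cv_bs, d]; split_ifs <;> simp [ev]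
  | z => rw [show fderiv ℝ (fun y => ev p y .z) y = _ from z'.fderiv, cv_bs, d]; split_ifs <;> simp [ev]
  | u =>
    rw [show fderiv ℝ (fun y => ev p y .u) y = _ from ((hasDerivAt_inv hy.1).comp_hasFDerivAt y
      ((r'.pow 2).add ((z'.pow 2).const_mul (p.2 ^ 2)))).fderiv]
    fin_cases i <;> simp [cv_bs, d, ev] <;> ring
  | w =>
    rw [show fderiv ℝ (fun y => ev p y .w) y = _ from ((hasDerivAt_inv hy.2).comp_hasFDerivAt y
      ((z'.pow 2).const_sub 1)).fderiv]
    fin_cases i <;> simp [cv_bs, d, ev]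
    rw [← inv_pow]
    ring
  | _ => simp [ev, d]

theorem ev_sh (c φ : ℝ) (e : Ey) : ev p (y - (c, 0, 0, φ)) e = ev p y e := by
  induction e with
  | add x x' h h' => simp only [ev, h, h']
  | mul x x' h h' => simp only [ev, h, h']
  | _ => simp [ev]

/-- The field of bilinear forms with the components g. -/
def fld (g : Fin 4 → Fin 4 → Ey) (p : P2) (y : R4) : B2 :=
  ∑ i, ∑ j, ev p y (g i j) • (cv i).smulRight (cv j)

variable {g : Fin 4 → Fin 4 → Ey}

theorem fld_ap (A B : R4) : fld g p y A B = ∑ i, ∑ j, ev p y (g i j) * (cv i A * cv j B) := by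
  simp only [fld, sum_apply, smul_apply, ContinuousLinearMap.smulRight_apply, smul_eq_mul]

theorem fld_bs (i j : Fin 4) : fld g p y (bs i) (bs j) = ev p y (g i j) := by
  simp [fld_ap, cv_bs]

theorem fld_cd2 (hy : y ∈ dom p) : ContDiffAt ℝ ∞ (fun q : P2 × R4 => fld g q.1 q.2) (p, y) :=
  ContDiffAt.sum fun _ _ => ContDiffAt.sum fun _ _ => (ev_cd2 hy _).smul contDiffAt_const

theorem fld_cd (hy : y ∈ dom p) : ContDiffAt ℝ ∞ (fld g p) y :=
  ContDiffAt.sum fun _ _ => ContDiffAt.sum fun _ _ => (ev_cd hy _).smul contDiffAt_const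

theorem fld_1 (hy : y ∈ dom p) (l i j : Fin 4) :
    fderiv ℝ (fld g p) y (bs l) (bs i) (bs j) = ev p y (d l (g i j)) := by
  simp only [fd1 (fld_cd hy), fld_bs, ev_fd hy]

theorem fld_2 (hy : y ∈ dom p) (n l i j : Fin 4) :
    fderiv ℝ (fderiv ℝ (fld g p)) y (bs n) (bs l) (bs i) (bs j) = ev p y (d n (d l (g i j))) := by
  rw [fd2 (fld_cd hy), ← ev_fd hy]
  refine congrFun (congrArg _ (EventuallyEq.fderiv_eq ?_)) _
  filter_upwards [open_dom.mem_nhds hy] with x hx using fld_1 hx l i j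

/-! ### Kerr in the coordinates (v, r, z, φ) -/

/-- The expressions 1 - z^2, 2 M r / Sigma, r^2 + a^2. -/
def xs : Ey := add (k 1) (mul (k (-1)) (mul z z))
def xq : Ey := mul (mul (k 2) m) (mul r u)
def xp : Ey := add (mul r r) (mul a a)

/-- The components of the metric. -/
def gk : Fin 4 → Fin 4 → Ey :=
  ![![add (k (-1)) xq, k 1, k 0, mul (mul (k (-1)) a) (mul xs xq)],
    ![k 1, k 0, k 0, mul (mul (k (-1)) a) xs],
    ![k 0, k 0, mul (add (mul r r) (mul (mul a a) (mul z z))) w, k 0],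
    ![mul (mul (k (-1)) a) (mul xs xq), mul (mul (k (-1)) a) xs, k 0,
      add (mul xs xp) (mul (mul a a) (mul (mul xs xs) xq))]]

/-- The components of the inverse. -/
def gik (p : P2) (y : R4) : Fin 4 → Fin 4 → ℝ :=
  ![![p.2 ^ 2 * ev p y xs * ev p y u, ev p y xp * ev p y u, 0, p.2 * ev p y u],
    ![ev p y xp * ev p y u, Del p.1 p.2 y.2.1 * ev p y u, 0, p.2 * ev p y u],
    ![0, 0, ev p y xs * ev p y u, 0],
    ![p.2 * ev p y u, p.2 * ev p y u, 0, ev p y u * ev p y w]]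

theorem gik_inv (hy : y ∈ dom p) (i l : Fin 4) :
    ∑ k, gik p y k l * fld gk p y (bs k) (bs i) = if i = l then 1 else 0 := by
  obtain ⟨h1, h2⟩ := hy
  simp only [fld_bs, Fin.sum_univ_four]
  fin_cases i <;> fin_cases l <;> simp [gk, gik, ev, xs, xq, xp] <;> field_simp <;>
    simp only [Del, Sig] <;> ring

/-- A component of the curvature. -/
def rk (p : P2) (y : R4) (i j l n : Fin 4) : ℝ :=
  rmA (gik p y) (fun b c e => ev p y (d b (gk c e))) (fun f b c e => ev p y (d f (d b (gk c e))))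
    i j l n

/-- The coframe dual to l, n, e2, e3. -/
def th (p : P2) (y : R4) : Fin 4 → Fin 4 → ℝ :=
  ![![ev p y u, 0, 0, -(p.2 * ev p y xs * ev p y u)],
    ![Del p.1 p.2 y.2.1 / 2 * ev p y u, -1, 0, -(Del p.1 p.2 y.2.1 / 2 * p.2 * ev p y xs * ev p y u)],
    ![0, 0, 1, 0],
    ![-(p.2 * ev p y u), 0, 0, ev p y xp * ev p y u]]

/-- The real and the imaginary part of M / (r - i a z)^3, times Sigma^2. -/
def al (p : P2) (y : R4) : ℝ :=
  p.1 * y.2.1 * (y.2.1 ^ 2 - 3 * p.2 ^ 2 * y.2.2.1 ^ 2) * ev p y u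
def be (p : P2) (y : R4) : ℝ :=
  p.1 * p.2 * y.2.2.1 * (3 * y.2.1 ^ 2 - p.2 ^ 2 * y.2.2.1 ^ 2) * ev p y u

/-- The curvature of type D from the values of the six 2-forms on two pairs of vectors. -/
def tyD (α β s w : ℝ) (A B : Fin 4 → Fin 4 → ℝ) : ℝ :=
  2 * α * (A 0 1 * B 0 1 - A 2 3 * B 2 3) - 2 * β * (A 0 1 * B 2 3 + A 2 3 * B 0 1) -
    α * w * (A 0 2 * B 1 2 + A 1 2 * B 0 2) - α * s * (A 0 3 * B 1 3 + A 1 3 * B 0 3) -
    β * (A 0 2 * B 1 3 + A 1 3 * B 0 2) + β * (A 0 3 * B 1 2 + A 1 2 * B 0 3)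

/-- The components of the 2-forms. -/
def om (p : P2) (y : R4) (i j A B : Fin 4) : ℝ := th p y A i * th p y B j - th p y A j * th p y B i

/-- The claimed value of a component. -/
def rd4 (p : P2) (y : R4) (i j l n : Fin 4) : ℝ :=
  tyD (al p y) (be p y) (ev p y xs) (ev p y w) (om p y i j) (om p y l n)

end Vale.Agent.P354XM
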