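import Vale.Agent.P354XM.Jnt
import Vale.Agent.P354YC.Jet2

/-!
Jets of the far rays along the slices.
-/

set_option maxSynthPendingDepth 3

open scoped ContDiff Nat
open Set Filter Topology Metric

noncomputable section

namespace Vale.Agent.P354XM

open Vale.Agent.P354n (R4)
open Vale.Agent.P354H (X3)
open Vale.Agent.P354R (Met)
open Vale.Agent.P354XE (Tw)
open Vale.Agent.P354YQ (SA JB JD Sol)
open Vale.Agent.P354SA Vale.Agent.P354LF

abbrev E6 : Type := E5 × ℝ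

/-- The scaling of the radius and of the gradient. -/
def Dg (a b : ℝ) : E6 →L[ℝ] E6 := LinearMap.toContinuousLinearMap
  ⟨⟨fun u => ((a * u.1.1, u.1.2.1, b • u.1.2.2), u.2), fun _ _ => by simp [mul_add]⟩,
    fun c _ => by simp [mul_left_comm, smul_comm c]⟩

theorem Dg_ap (a b : ℝ) (u : E6) : Dg a b u = ((a * u.1.1, u.1.2.1, b • u.1.2.2), u.2) := rfl

theorem Dg_Dg (a b c d : ℝ) (u : E6) : Dg a b (Dg c d u) = Dg (a * c) (b * d) u := by
  simp only [Dg_ap, mul_assoc, smul_smul]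

theorem Dg_le {a b : ℝ} (ha : a ∈ Icc (0 : ℝ) 1) (hb : b ∈ Icc (0 : ℝ) 1) : ‖Dg a b‖ ≤ 1 := by
  refine ContinuousLinearMap.opNorm_le_bound _ zero_le_one fun u => ?_
  have k : ∀ {c x : ℝ}, c ∈ Icc (0 : ℝ) 1 → 0 ≤ x → ‖c‖ * x ≤ x := fun h x0 =>
    mul_le_of_le_one_left x0 ((Real.norm_of_nonneg h.1).trans_le h.2)
  rw [one_mul, Dg_ap]
  simp only [Prod.norm_def, norm_mul, norm_smul]
  gcongr <;> exact k ‹_› (by positivity)

theorem Dg_cont {a b : ℝ → ℝ} {S : Set ℝ} (ha : ContinuousOn a S) (hb : ContinuousOn b S) :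
    ContinuousOn (fun s => Dg (a s) (b s)) S := by
  have : (fun s => Dg (a s) (b s)) = fun s => Dg 0 0 + a s • (Dg 1 0 - Dg 0 0) +
      b s • (Dg 0 1 - Dg 0 0) := funext fun s => ContinuousLinearMap.ext fun u => by
    ext <;> simp [Dg_ap]
  rw [this]
  exact (continuousOn_const.add (ha.smul continuousOn_const)).add (hb.smul continuousOn_const)

/-- The field as a bilinear map. -/
def Bl : (ℝ × (E6 →L[ℝ] ℝ)) →L[ℝ] (ℝ × E6) →L[ℝ] E6 := LinearMap.toContinuousBilinearMap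
  (LinearMap.mk₂ ℝ (fun a u => ((u.1 * a.1 - a.2 (u.2.1.2.2.1 • ((0, 0, 1, 0), 0) +
      u.2.1.2.2.2 • ((0, 0, 0, 1), 0)),
    (-(u.1 * a.2 ((0, 0, 1, 0), 0)), -(u.1 * a.2 ((0, 0, 0, 1), 0))),
    u.1 * a.2 ((0, (1, 0), 0), 0) + u.2.1.2.2.1 * a.2 ((1, 0, 0), 0),
    u.1 * a.2 ((0, (0, 1), 0), 0) + u.2.1.2.2.2 * a.2 ((1, 0, 0), 0)), u.2.2 * a.2 ((1, 0, 0), 0)))
    (fun _ _ _ => by ext <;> simp only [map_add, map_smul, smul_eq_mul, Prod.fst_add,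
      Prod.snd_add, add_apply] <;> ring)
    (fun _ _ _ => by ext <;> simp only [map_add, map_smul, smul_eq_mul, Prod.smul_fst,
      Prod.smul_snd, smul_apply] <;> ring)
    (fun _ _ _ => by ext <;> simp only [map_add, map_smul, smul_eq_mul, Prod.fst_add,
      Prod.snd_add] <;> ring)
    fun _ _ _ => by ext <;> simp only [map_add, map_smul, smul_eq_mul, Prod.smul_fst,
      Prod.smul_snd] <;> ring)

theorem Bl_ap (a : ℝ × (E6 →L[ℝ] ℝ)) (u : ℝ × E6) : Bl a u =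
    ((u.1 * a.1 - a.2 (u.2.1.2.2.1 • ((0, 0, 1, 0), 0) + u.2.1.2.2.2 • ((0, 0, 0, 1), 0)),
    (-(u.1 * a.2 ((0, 0, 1, 0), 0)), -(u.1 * a.2 ((0, 0, 0, 1), 0))),
    u.1 * a.2 ((0, (1, 0), 0), 0) + u.2.1.2.2.1 * a.2 ((1, 0, 0), 0),
    u.1 * a.2 ((0, (0, 1), 0), 0) + u.2.1.2.2.2 * a.2 ((1, 0, 0), 0)),
    u.2.2 * a.2 ((1, 0, 0), 0)) := rfl

/-- The phase point in the scale of Fs. -/
def Lf (r ϖ : ℝ) : E6 →L[ℝ] Q6 := LinearMap.toContinuousLinearMap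
  ⟨⟨fun u => ((0, r * u.1.1, u.1.2.1), ϖ • u.1.2.2), fun _ _ => by simp [mul_add]⟩,
    fun c _ => by simp [mul_left_comm, smul_comm c]⟩

theorem Lf_ap (r ϖ : ℝ) (u : E6) : Lf r ϖ u = ((0, r * u.1.1, u.1.2.1), ϖ • u.1.2.2) := rfl

/-- A ray with bounds for the Hamiltonian; l and v are the scales of the radius and of the
gradient. -/
structure Tr (N : ℕ) (a b η : ℝ) (l v m : ℝ → ℝ) (g : Tw) (D : Set R4) (Y : R4 → E5) (x : X3) :
    Prop where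
  met : IsOpen D ∧ Met g D
  cont : ContinuousOn l (Icc a b) ∧ ContinuousOn v (Icc a b) ∧ ContinuousOn m (Icc a b)
  mono : MonotoneOn l (Icc a b) ∧ MonotoneOn v (Icc a b)
  pt : ∀ s ∈ Icc a b, ∫ t in a..s, m t ≤ η ∧ 1 ≤ v s ∧ v s ≤ l s ∧ l s ≤ (Y (s, x)).1 ∧ 0 ≤ m s ∧
    Sol e0 (cf g) Y (s, x) ∧ pq Y (s, x) ∈ Ug g D ∧ ‖(Y (s, x)).2.2‖ ≤ 2 * v s ∧
    JD N (fun u => Hm g (pq Y (s, x) + Lf (Y (s, x)).1 (v s) u)) 0 (m s * v s)

theorem fd_sh {f : Q6 → ℝ} {q : Q6} (L : E6 →L[ℝ] Q6) {u : E6}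
    (h : DifferentiableAt ℝ f (q + L u)) (w : E6) :
    fderiv ℝ (fun u => f (q + L u)) u w = fderiv ℝ f (q + L u) (L w) :=
  DFunLike.congr_fun (h.hasFDerivAt.comp u (L.hasFDerivAt.const_add q)).fderiv w

theorem core (n : ℕ) (A C : ℝ) : ∃ C' ≥ 1, ∀ a b η l v m g D Y x (k : R4 → ℝ),
    Tr (n + 1) a b η l v m g D Y x → η ≤ A → (∀ s ∈ Icc a b, SA k (s, x) ∧ |k (s, x)| ≤ C ∧
      ∀ᶠ y in 𝓝 x, dv e0 k (s, y) = Hd g e1 (pq Y (s, y)) * k (s, y)) →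
    JD n (fun y => (Y (a, y), k (a, y))) x C → ∀ s ∈ Icc a b,
      JD n (fun y => Dg (l s)⁻¹ (v s)⁻¹ (Y (s, y), k (s, y))) x C' ∧
      JD n (fun y => (Y (s, y)).2.1 - (Y (a, y)).2.1) x (C' * η) := by
  let c := 2 ^ n * (‖Bl‖ * (2 ^ n * n !)) * max 2 C
  have c0 : 0 ≤ c := by positivity
  obtain ⟨C', C1, H⟩ := P354YC.jet n (c * A) |C|
  refine ⟨C' * (c + 1), by nlinarith, fun a b η l v m g D Y x k h hA hk h0 s hs => ?_⟩
  obtain ⟨o, mt⟩ := h.met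
  have ab := hs.1.trans hs.2
  have v0 : ∀ t ∈ Icc a b, 0 < v t := fun t e => one_pos.trans_le (h.pt t e).2.1
  have l0 : ∀ t ∈ Icc a b, 0 < l t := fun t e => (v0 t e).trans_le (h.pt t e).2.2.1
  have fr : ∀ {p q : ℝ}, 0 < p → p ≤ q → q⁻¹ * p ∈ Icc (0 : ℝ) 1 := fun p0 e =>
    ⟨mul_nonneg (inv_pos.2 (p0.trans_le e)).le p0.le, inv_mul_le_one_of_le₀ e (p0.le.trans e)⟩
  let Z : ℝ × X3 → E6 := fun z => (Y z, k z)
  let u0 : ℝ → E6 := fun t => Dg (l t)⁻¹ (v t)⁻¹ (Z (t, x))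
  let F : ℝ → E6 → ℝ := fun t u => Hm g (pq Y (t, x) + Lf (Y (t, x)).1 (v t) u)
  let ξ : ℝ → X3 × E6 → E6 := fun t u => Dg ((Y (t, x)).1⁻¹ * l t) 1 (u.2 - u0 t)
  let W : ℝ → X3 × E6 → E6 := fun t u => Dg ((l t)⁻¹ * v t) 1 (Bl ((v t)⁻¹ • (F t (ξ t u) -
    F t (ξ t (x, u0 t)), (fderiv ℝ (F t) (ξ t u)).comp (Dg ((Y (t, x)).1⁻¹ * v t) 1)))
    (1, u.2 - (((u0 t).1.1, (u0 t).1.2.1, 0), 0))) + (((l t)⁻¹ * F t (ξ t (x, u0 t)), 0, 0), 0)
  have := H X3 E6 Z (fun t => Dg (l t) (v t)) (fun t => Dg (l t)⁻¹ (v t)⁻¹) W (fun t => c * m t)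
    a b x (continuousOn_const.mul h.cont.2.2) (Dg_cont (h.cont.1.inv₀ fun t e => (l0 t e).ne')
      (h.cont.2.1.inv₀ fun t e => (v0 t e).ne')) (by
        rw [intervalIntegral.integral_const_mul]
        exact mul_le_mul_of_nonneg_left ((h.pt b ⟨ab, le_rfl⟩).1.trans hA) c0) (fun t e => ?_)
    (((h0.mono (le_abs_self C)).clm _).mono (mul_le_of_le_one_left (abs_nonneg C) (by
      have e : a ∈ Icc a b := ⟨le_rfl, ab⟩
      have := h.pt a e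
      exact Dg_le (by simpa using fr one_pos (this.2.1.trans this.2.2.1))
        (by simpa using fr one_pos this.2.1)))) s hs
  · have i0 : 0 ≤ ∫ t in a..s, m t := intervalIntegral.integral_nonneg hs.1 fun t e =>
      (h.pt t ⟨e.1, e.2.trans hs.2⟩).2.2.2.2.1
    refine ⟨this.1.mono (by nlinarith), (this.2.clm ((ContinuousLinearMap.fst ℝ Y2 Y2 ∘L
      .snd ℝ ℝ _) ∘L .fst ℝ E5 ℝ)).mono ?_⟩
    rw [intervalIntegral.integral_const_mul]
    refine (mul_le_of_le_one_left (by positivity) (ContinuousLinearMap.opNorm_le_bound _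
      zero_le_one fun u => ?_)).trans ?_
    · exact ((norm_fst_le u.1.2).trans ((norm_snd_le u.1).trans (norm_fst_le u))).trans_eq
        (one_mul _).symm
    · have i1 := (h.pt s hs).1
      have i2 := mul_le_mul_of_nonneg_left i1 c0
      exact (mul_le_mul_of_nonneg_left (i2.trans (mul_le_mul_of_nonneg_right
        (le_add_of_nonneg_right zero_le_one) (i0.trans i1))) (zero_le_one.trans C1)).trans_eq
        (mul_assoc ..).symm
  obtain ⟨-, v1, vl, lr, m0, so, ug, hp, hH⟩ := h.pt t e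
  have r0 := (l0 t e).trans_le lr
  have hv := (v0 t e).ne'
  have hl := (l0 t e).ne'
  refine ⟨mul_nonneg c0 m0, so.sm.prod (hk t e).1, fun u => by simp [Dg_ap, smul_smul, hv, hl],
    fun t' e' => ?_, ?_, ?_⟩
  · have e'' : t' ∈ Icc a b := ⟨e'.1, e'.2.trans e.2⟩
    exact le_of_eq_of_le (congrArg _ (ContinuousLinearMap.ext (Dg_Dg _ _ _ _)))
      (Dg_le (fr (l0 _ e'') (h.mono.1 e'' e e'.2)) (fr (v0 _ e'') (h.mono.2 e'' e e'.2)))
  · have p0 := mul_nonneg m0 (v0 t e).le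
    have o1 : (1 : ℝ) ∈ Icc (0 : ℝ) 1 := ⟨zero_le_one, le_rfl⟩
    have j1 := (((hH.ord n.le_succ).sub_const p0).mono (le_mul_of_one_le_left p0
      (one_le_pow₀ one_le_two : (1 : ℝ) ≤ 2 ^ n))).prod ((hH.fderiv.ccomp ((JB.const _).mono
        (Dg_le (fr (v0 t e) (vl.trans lr)) o1))).mono (by rw [mul_one]))
    have j2 : JD n (ξ t) (x, u0 t) 1 := ((((JD.lin (.snd ℝ X3 E6)).sub (JD.const (u0 t))).clm
      _).mono (by
        rw [add_zero]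
        exact mul_le_one₀ (Dg_le (fr (l0 t e) lr) o1) (norm_nonneg _)
          (ContinuousLinearMap.norm_snd_le ..)))
    have j3 := ((JB.comp (f := ξ t) ((show ξ t (x, u0 t) = 0 by simp [ξ]) ▸ j1) j2
      le_rfl).clm ((v t)⁻¹ • ContinuousLinearMap.id ℝ _)).clm Bl
    have j4 : JB n (fun u : X3 × E6 => ((1 : ℝ), u.2 - (((u0 t).1.1, (u0 t).1.2.1, 0), 0)))
        (x, u0 t) (max 2 C) := by
      refine ((JB.const _).mono (by simp)).prod ((((JD.lin (.snd ℝ X3 E6)).sub (JD.const _)).mono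
        ((add_zero _).le.trans ((ContinuousLinearMap.norm_snd_le ..).trans (by simp)))).jb ?_)
      refine max_le (le_max_of_le_left ?_) (le_max_of_le_right (by
        simpa [u0, Dg_ap, Z] using (hk t e).2.1))
      have : ‖(v t)⁻¹ • (Y (t, x)).2.2‖ ≤ 2 := by
        rw [norm_smul, Real.norm_of_nonneg (inv_pos.2 (v0 t e)).le, inv_mul_le_iff₀ (v0 t e)]
        linarith
      simpa [u0, Dg_ap, Z, Prod.norm_def] using this
    refine ((((j3.app j4).jd.clm (Dg ((l t)⁻¹ * v t) 1)).add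
      (JD.const (((l t)⁻¹ * F t (ξ t (x, u0 t)), 0, 0), 0))).mono ?_)
    rw [add_zero, norm_smul, ContinuousLinearMap.norm_id, Real.norm_of_nonneg
      (inv_pos.2 (v0 t e)).le]
    refine (mul_le_of_le_one_left (by positivity) (Dg_le (fr (v0 t e) vl) o1)).trans_eq ?_
    simp only [c, one_pow]
    field_simp
  have ct : ContinuousAt (fun y : X3 => ((t, y) : R4)) x := by fun_prop
  filter_upwards [ct.eventually (so.sm.ev.and so.ode), ct.eventually (hk t e).1.ev, (hk t e).2.2,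
    ct.eventually ((sa_pq so.sm).cont ((ug_open o mt).mem_nhds ug))] with y a1 a2 a3 a4
  have e1' : pq Y (t, x) + Lf (Y (t, x)).1 (v t) (ξ t (y, Dg (l t)⁻¹ (v t)⁻¹ (Z (t, y)))) =
      pq Y (t, y) := by
    simp only [ξ, u0, Z, Lf_ap, Dg_ap, pq, ph]
    ext <;> simp <;> field_simp <;> ring
  have hd : ∀ u, fderiv ℝ (F t) (ξ t (y, Dg (l t)⁻¹ (v t)⁻¹ (Z (t, y)))) u =
      fderiv ℝ (Hm g) (pq Y (t, y)) (Lf (Y (t, x)).1 (v t) u) := fun u =>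
    e1' ▸ fd_sh _ (e1' ▸ (hm_cd o mt a4).differentiableAt (by simp)) u
  have w := fun π => (hm_p o mt a4 π).1
  have w2 := (wv_ap o mt a4).2
  rw [xp_ap] at w2
  have q1 : ∀ A : Q6 →L[ℝ] ℝ, A (Lf (Y (t, x)).1 (v t) (Dg ((Y (t, x)).1⁻¹ * v t) 1
      ((1, 0, 0), 0))) = v t * A (e1, 0) := fun A => by
    rw [← smul_eq_mul (v t) (A _), ← map_smul]
    simp [Lf_ap, Dg_ap, e1, r0.ne', Prod.mk_zero_zero]
  have q2 : ∀ c η, Lf (Y (t, x)).1 (v t) (Dg c 1 ((0, η, 0), 0)) = ((0, 0, η), 0) := by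
    simp [Lf_ap, Dg_ap]
  have q3 : ∀ c π, Lf (Y (t, x)).1 (v t) (Dg c 1 ((0, 0, π), 0)) = (0, v t • π) := by
    simp [Lf_ap, Dg_ap, Prod.mk_zero_zero]
  refine (DFunLike.congr_fun (a1.1.diff.hasFDerivAt.prodMk a2.diff.hasFDerivAt).fderiv
    (1, 0)).trans ?_
  have a5 : fderiv ℝ Y (t, y) (1, 0) = _ := a1.2
  have a6 : fderiv ℝ k (t, y) (1, 0) = _ := a3
  simp only [ContinuousLinearMap.prod_apply, a5, a6, W, Bl_ap]
  simp only [Prod.smul_fst, Prod.smul_snd, map_add, map_smul, smul_apply,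
    ContinuousLinearMap.comp_apply, hd, q1, q2, q3, w]
  simp only [F, e1']
  rw [← w2]
  simp only [Dg_ap, Z, cf, Hd, pq, dot, ey, smul_eq_mul,
    show ∀ w y, (ph w y).2 = y.2.2 from fun _ _ => rfl]
  ext <;> simp <;> field_simp <;> ring

end Vale.Agent.P354XM
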