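import Vale.Agent.P354XM.Fj

/-!
The jet half of FLOW.
-/

set_option maxSynthPendingDepth 3

open scoped ContDiff Nat
open Set Filter Topology Metric

noncomputable section

namespace Vale.Agent.P354XM

open Vale.Agent.P354n (R4)
open Vale.Agent.P354H (X3)
open Vale.Agent.P354R (Met)
open Vale.Agent.P354XE (Tw)
open Vale.Agent.P354YQ (SA JB JD Sol)
open Vale.Agent.P354SA Vale.Agent.P354LF

/-- The a priori bounds along one ray, on the interval from s2 to s1. -/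
def Ap (n : ℕ) (B e σ δ T s2 r2 s1 : ℝ) (vp : ℝ → ℝ) (g : Tw) (D : Set R4) (Y : R4 → E5)
    (x : X3) : Prop :=
  ∀ s ∈ Icc s2 s1, Sol e0 (cf g) Y (s, x) ∧ pq Y (s, x) ∈ Ug g D ∧ Fs n B e σ δ T g (pq Y (s, x)) ∧
    (Y (s, x)).1 ∈ Icc (rb r2 s2 s / 2) (2 * rb r2 s2 s) ∧ ‖(Y (s, x)).2.2‖ ≤ 2 * vp s

def FJ : Prop :=
  ∀ (n : ℕ) (A C : ℝ), ∃ C' ≥ 1, ∀ σ δ T s2 r2 C1 b B0 e η ε vp m nn B s1 g D Y x,
    Wf σ δ T s2 r2 C1 b B0 e η ε vp m nn → 1 ≤ C1 → 1 ≤ b → 1 ≤ B0 → 0 ≤ e → η ≤ 1 → B ≤ A →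
    s1 ≤ 3 * T → IsOpen D → Met g D → Ap (n + 2) B e σ δ T s2 r2 s1 vp g D Y x →
    JD (n + 1) (fun y => Y (s2, y)) x C → ‖(Y (s2, x)).2.2‖ ≤ C → ∀ s ∈ Icc s2 s1,
      JD n (fun y => nz Y (s, x) (s, y)) x C' ∧
      JD (n + 1) (fun y => (Y (s, y)).2.1 - (Y (s2, y)).2.1) x (C' * η) ∧
      ∃ k, |k| ≤ C' * η ∧ kv Y e1 (s, x) = Real.exp k * kv Y e1 (s2, x)

theorem Tr.ord {N N' : ℕ} {a b η : ℝ} {l v m : ℝ → ℝ} {g : Tw} {D : Set R4} {Y : R4 → E5} {x : X3}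
    (h : Tr N a b η l v m g D Y x) (e : N' ≤ N) : Tr N' a b η l v m g D Y x :=
  ⟨h.met, h.cont, h.mono, fun s hs => by
    obtain ⟨a1, a2, a3, a4, a5, a6, a7, a8, a9⟩ := h.pt s hs
    exact ⟨a1, a2, a3, a4, a5, a6, a7, a8, a9.ord e⟩⟩

theorem Tr.hd {N : ℕ} {a b η s : ℝ} {l v m : ℝ → ℝ} {g : Tw} {D : Set R4} {Y : R4 → E5} {x : X3}
    (h : Tr (N + 1) a b η l v m g D Y x) (hs : s ∈ Icc a b) : |Hd g e1 (pq Y (s, x))| ≤ m s := by
  obtain ⟨-, a2, a3, a4, a5, -, a7, -, a9⟩ := h.pt s hs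
  have r0 := one_pos.trans_le (a2.trans (a3.trans a4))
  have := (ContinuousLinearMap.le_opNorm _ ((1, 0, 0), 0)).trans (mul_le_mul_of_nonneg_right
    a9.fderiv.zero (norm_nonneg _))
  rw [fd_sh _ (by simpa using (hm_cd h.met.1 h.met.2 a7).differentiableAt (by simp)), map_zero,
    add_zero, show Lf (Y (s, x)).1 (v s) ((1, 0, 0), 0) = (Y (s, x)).1 • (e1, 0) by
      simp [Lf_ap, e1, Prod.mk_zero_zero], map_smul, norm_smul, Real.norm_of_nonneg r0.le] at this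
  refine le_of_mul_le_mul_left (this.trans ?_) r0
  simpa [Prod.norm_def, mul_comm] using mul_le_mul_of_nonneg_left (a3.trans a4) a5

theorem nu_mono {A B B0 e σ δ T ϖ : ℝ} {z : R4} (h : B ≤ A) (h0 : 1 ≤ B0) (he : 0 ≤ e)
    (hz : 0 ≤ z.2.1) : nu B e σ δ T ϖ z ≤ |A| * nu B0 e σ δ T ϖ z := by
  have j : ∀ t, 0 ≤ om T t z := fun t => Real.rpow_nonneg (Real.sqrt_nonneg _) _
  have := j δ
  have := j σ
  rw [nu, nu, ← mul_assoc]
  exact mul_le_mul_of_nonneg_right (h.trans ((le_abs_self A).trans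
    (le_mul_of_one_le_right (abs_nonneg A) h0))) (by positivity)

theorem tr_of {N : ℕ} {A σ δ T s2 r2 C1 b B0 e η ε B s1 : ℝ} {vp m nn : ℝ → ℝ} {g : Tw}
    {D : Set R4} {Y : R4 → E5} {x : X3} (w : Wf σ δ T s2 r2 C1 b B0 e η ε vp m nn) (c1 : 1 ≤ C1)
    (hb : 1 ≤ b) (h0 : 1 ≤ B0) (he : 0 ≤ e) (hB : B ≤ A) (h1 : s1 ≤ 3 * T) (o : IsOpen D)
    (mt : Met g D) (h : Ap N B e σ δ T s2 r2 s1 vp g D Y x) :
    Tr N s2 s1 (N ! * |A| * η) (fun s => rb r2 s2 s / 2) vp (fun s => N ! * |A| * m s) g D Y x := by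
  have sub : Icc s2 s1 ⊆ Icc s2 (3 * T) := Icc_subset_Icc_right h1
  refine ⟨⟨o, mt⟩, ⟨by unfold rb; fun_prop, w.cont.1.mono sub,
    continuousOn_const.mul (w.cont.2.1.mono sub)⟩, ⟨fun s _ t _ e => by simp only [rb]; linarith,
    w.mono.mono sub⟩, fun s hs => ?_⟩
  obtain ⟨a1, a2, -, a4, -, a6, a7, -⟩ := w.pt s (sub hs)
  obtain ⟨b1, b2, b3, b4, b5⟩ := h s hs
  have v1 : 1 ≤ vp s := by linarith
  have vl : vp s ≤ rb r2 s2 s / 2 := by nlinarith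
  have e3 := hs.2.trans h1
  have r0 := (zero_le_one.trans v1).trans (vl.trans b4.1)
  have k := (nu_mono (σ := σ) (δ := δ) (T := T) (ϖ := vp s) (z := (pq Y (s, x)).1) hB h0 he
    r0).trans (mul_le_mul_of_nonneg_left ((a7 _ rfl b4).trans a6) (abs_nonneg A))
  refine ⟨?_, v1, vl, b4.1, by positivity, b1, b2, b5, ?_⟩
  · rw [intervalIntegral.integral_const_mul]
    refine mul_le_mul_of_nonneg_left (le_trans ?_ w.int) (by positivity)
    refine intervalIntegral.integral_mono_interval le_rfl hs.1 e3 ?_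
      (w.cont.2.1.intervalIntegrable_of_Icc (hs.1.trans e3))
    exact (MeasureTheory.ae_restrict_mem measurableSet_Ioc).mono fun t ht =>
      (w.pt t (Ioc_subset_Icc_self ht)).2.2.2.1
  · have j := (b3 _ ⟨zero_le_one.trans v1, vl.trans b4.1⟩ b5).2.mono k
    refine (JD.comp (f := fun u : E6 => u.1) (z := 0) (D := 1) (C := |A| * (m s * vp s)) j
      ((JD.lin (.fst ℝ E5 ℝ)).mono (ContinuousLinearMap.norm_fst_le ..)) le_rfl
      (by positivity)).mono (le_of_eq ?_)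
    ring

theorem sa_kv {Y : R4 → E5} {z : R4} (s : SA Y z) (w : R4) : SA (kv Y w) z :=
  (s.and (sa_ph s).fderiv).mono fun _ k =>
    (xp_cd.contDiffAt.comp _ k.1.snd.snd).clm_apply (k.2.clm_apply contDiffAt_const)

theorem kv_jb (n : ℕ) (C : ℝ) : ∃ c ≥ 1, ∀ (Y : R4 → E5) s x, SA Y (s, x) →
    JD (n + 1) (fun y => Y (s, y)) x C → ‖(Y (s, x)).2.2‖ ≤ C →
    JB n (fun y => kv Y e1 (s, y)) x c := by
  have : ProperSpace (Y2 × (X3 →L[ℝ] E5)) := FiniteDimensional.proper ℝ _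
  obtain ⟨c, c0, hc⟩ := jb_cpt n (K := closedBall 0 C) (U := univ)
    (G := fun a : Y2 × (X3 →L[ℝ] E5) => xp a.1 (0, (a.2 (1, 0, 0)).1, (a.2 (1, 0, 0)).2.1))
    (isCompact_closedBall _ _) isOpen_univ (subset_univ _) fun a _ =>
      (xp_cd.contDiffAt.comp _ contDiffAt_fst).clm_apply (by fun_prop)
  refine ⟨max 1 (n ! * c * max 1 C ^ n), le_max_left _ _, fun Y s x sm h hp => ?_⟩
  have p := (h.ord n.le_succ).clm (ContinuousLinearMap.snd ℝ Y2 Y2 ∘L .snd ℝ ℝ _)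
  have p1 : ‖ContinuousLinearMap.snd ℝ Y2 Y2 ∘L ContinuousLinearMap.snd ℝ ℝ (Y2 × Y2)‖ ≤ 1 :=
    ContinuousLinearMap.opNorm_le_bound _ zero_le_one fun u =>
      ((norm_snd_le u.2).trans (norm_snd_le u)).trans_eq (one_mul _).symm
  refine ((JB.comp (f := fun y => ((Y (s, y)).2.2, fderiv ℝ (fun y => Y (s, y)) y))
    (hc _ (mem_closedBall_zero_iff.2 (max_le hp h.fderiv.zero))) ((p.mono ((mul_le_of_le_one_left
      h.fderiv.nonneg p1).trans (le_max_right 1 C))).prod (h.fderiv.jd.mono (le_max_right 1 C)))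
    (le_max_left _ _)).mono (le_max_right _ _)).congr ?_
  have ct : ContinuousAt (fun y : X3 => ((s, y) : R4)) x := by fun_prop
  filter_upwards [ct.eventually sm.ev] with y a
  have : fderiv ℝ (fun y => Y (s, y)) y = _ := (HasFDerivAt.comp (f := fun y => (s, y)) y
    a.diff.hasFDerivAt (hasFDerivAt_prodMk_right s y)).fderiv
  rw [kv, ph_fd a, this]
  rfl

theorem fj : FJ := by
  intro n A C
  obtain ⟨c, c1, hc⟩ := kv_jb n C
  let a : ℝ := (n + 2)! * |A|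
  have a0 : 0 ≤ a := by positivity
  obtain ⟨C1', p1, H1⟩ := core n a (Real.exp a * c + |C|)
  obtain ⟨C2', p2, H2⟩ := core (n + 1) a |C|
  refine ⟨C1' + C2' * a + a, by nlinarith [mul_nonneg (zero_le_one.trans p2) a0], fun σ δ T s2 r2 C1
    b B0 e η ε vp m nn B s1 g D Y x w h1 hb h0 he hη hB hs1 o mt h hj hp s hs => ?_⟩
  have tr := tr_of w h1 hb h0 he hB hs1 o mt h
  have ha : a * η ≤ a := mul_le_of_le_one_right a0 hη
  have e2 : s2 ∈ Icc s2 s1 := ⟨le_rfl, hs.1.trans hs.2⟩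
  have η0 : 0 ≤ a * η := by simpa using (tr.pt s2 e2).1
  have hk : ∀ t ∈ Icc s2 s1, ∃ k, |k| ≤ a * η ∧ kv Y e1 (t, x) = Real.exp k * kv Y e1 (s2, x) :=
    fun t ht => ⟨_, (intervalIntegral.norm_integral_le_of_norm_le ht.1 (.of_forall fun u hu =>
      (Real.norm_eq_abs _).trans_le (tr.hd ⟨hu.1.le, hu.2.trans ht.2⟩)) ((tr.cont.2.2.mono (Icc_subset_Icc_right
        ht.2)).intervalIntegrable_of_Icc ht.1)).trans (tr.pt t ht).1,
      (ray g D Y o mt).2 x s2 t (fun u hu => by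
        rw [uIcc_of_le ht.1] at hu
        exact ⟨(h u ⟨hu.1, hu.2.trans ht.2⟩).1, (h u ⟨hu.1, hu.2.trans ht.2⟩).2.1⟩) e1 rfl⟩
  have k0 := hc Y s2 x (h s2 e2).1.sm hj hp
  have ex := Real.one_le_exp a0
  have C0 := abs_nonneg C
  have r1 := (H1 _ _ _ _ _ _ _ _ _ _ (kv Y e1) (tr.ord (n + 1).le_succ) ha (fun t ht => ?_)
    (((hj.ord n.le_succ).mono ((le_abs_self C).trans (le_add_of_nonneg_left (by positivity)))).prod
      (k0.jd.mono (by nlinarith))) s hs).1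
  · have r2 := (H2 _ _ _ _ _ _ _ _ _ _ (fun _ => 0) tr ha (fun t ht => ⟨.of contDiff_const,
      by simp, .of_forall fun y => by simp [dv]⟩) ((hj.mono (le_abs_self C)).prod
        ((JD.const _).mono C0)) s hs).2
    obtain ⟨k, k1, k2⟩ := hk s hs
    obtain ⟨-, v1, vl, lr, -⟩ := tr.pt s hs
    have v0 := one_pos.trans_le v1
    have l0 := v0.trans_le vl
    have r0 := l0.trans_le lr
    have η1 : 0 ≤ η := by
      have := (w.pt s2 ⟨le_rfl, e2.2.trans hs1⟩).2.2.2.2.2.2.2.1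
      have := w.sm
      have := mul_nonneg (zero_le_one.trans h0) he
      linarith
    have fr : ∀ {p : ℝ}, 0 < p → p ≤ (Y (s, x)).1 → (Y (s, x)).1⁻¹ * p ∈ Icc (0 : ℝ) 1 :=
      fun p0 e => ⟨by positivity, inv_mul_le_one_of_le₀ e r0.le⟩
    have := mul_nonneg (zero_le_one.trans p2) a0
    refine ⟨((r1.clm _).mono ((mul_le_of_le_one_left (by linarith) (Dg_le (fr l0 lr)
      (fr v0 (vl.trans lr)))).trans (by linarith))).congr (.of_forall fun y => ?_),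
      r2.mono ?_, k, k1.trans (mul_le_mul_of_nonneg_right (by linarith) η1), k2⟩
    · simp only [Dg_Dg, mul_inv_cancel_right₀ l0.ne', mul_inv_cancel_right₀ v0.ne']
      simp only [nz, Dg_ap, div_eq_inv_mul]
    · rw [← mul_assoc]
      exact mul_le_mul_of_nonneg_right (by linarith) η1
  obtain ⟨k, k1, k2⟩ := hk t ht
  obtain ⟨so, ug, -⟩ := h t ht
  have ct : ContinuousAt (fun y : X3 => ((t, y) : R4)) x := by fun_prop
  refine ⟨sa_kv so.sm e1, ?_, ?_⟩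
  · rw [k2, abs_mul, abs_of_pos (Real.exp_pos k)]
    exact (mul_le_mul (Real.exp_le_exp.2 ((le_abs_self k).trans (k1.trans ha))) k0.zero
      (abs_nonneg _) (Real.exp_pos a).le).trans (le_add_of_nonneg_right C0)
  filter_upwards [ct.eventually so.sm.ev, ct.eventually so.ode.eventually_nhds,
    ct.eventually ((sa_pq so.sm).cont ((ug_open o mt).mem_nhds ug))] with y b1 b2 b3
  exact (((ray g D Y o mt).1 _ ⟨b1, b2⟩ b3).2.2 e1 rfl).1

end Vale.Agent.P354XM
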