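import Vale.Agent.P354XM.Kv

/-!
The invariants at one point determine the parameters and the 1-jet: the linear computation.
-/

set_option maxSynthPendingDepth 3

open scoped ContDiff
open Set Filter Topology Complex

noncomputable section

namespace Vale.Agent.P354XM

open Vale.Agent.P354n (R4)
open Vale.Agent.P354R (Sig Del)
open Vale.Agent.P354RC Vale.Agent.P354RK

/-- The pull back of a form by a linear map. -/
def pl (h : B2) (A : L4) : B2 := ((h.comp A).flip.comp A).flip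

theorem pl_ap (h : B2) (A : L4) (v w : R4) : pl h A v w = h (A v) (A w) := rfl

theorem pl_cd {Q : Type} [NormedAddCommGroup Q] [NormedSpace ℝ Q] {h : Q → B2} {A : Q → L4} {q : Q}
    (hh : ContDiffAt ℝ ∞ h q) (hA : ContDiffAt ℝ ∞ A q) :
    ContDiffAt ℝ ∞ (fun q => pl (h q) (A q)) q :=
  (ContinuousLinearMap.flipₗᵢ ℝ R4 R4 ℝ).contDiff.contDiffAt.comp q
    (((ContinuousLinearMap.flipₗᵢ ℝ R4 R4 ℝ).contDiff.contDiffAt.comp q (hh.clm_comp hA)).clm_comp hA)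

/-- The invariants of Kerr and their differential. -/
def IK (p : P2) (y : R4) : ℝ × ℝ := G2 (ps p y)
def Nv (p : P2) (y v : R4) : ℂ := -3 * p.1 * (ze p y)⁻¹ ^ 4 * (v.2.1 - I * (p.2 * v.2.2.1))

theorem IK_cd {p : P2} {y : R4} (hy : y ∈ dom p) :
    ContDiffAt ℝ ∞ (fun q : P2 × R4 => IK q.1 q.2) (p, y) := by
  have c : ∀ f : P2 × R4 → ℝ, ContDiff ℝ ∞ f → ContDiffAt ℝ ∞ (fun q => (f q : ℂ)) (p, y) :=
    fun f hf => (ofRealCLM.contDiff.comp hf).contDiffAt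
  have z : ContDiffAt ℝ ∞ (fun q : P2 × R4 => ze q.1 q.2) (p, y) :=
    (c _ (by fun_prop)).sub (contDiffAt_const.mul ((c _ (by fun_prop)).mul (c _ (by fun_prop))))
  have s : ContDiffAt ℝ ∞ (fun q : P2 × R4 => ps q.1 q.2) (p, y) :=
    (c _ (by fun_prop)).mul (((contDiffAt_inv ℝ (ze_ne hy)).comp (p, y) z).pow 3)
  exact (contDiffAt_const.mul (reCLM.contDiff.contDiffAt.comp _ (s.pow 2))).prodMk
    (contDiffAt_const.mul (reCLM.contDiff.contDiffAt.comp _ (s.pow 3)))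

theorem hd_re {f : ℝ → ℂ} {f' : ℂ} (h : HasDerivAt f f' 0) :
    HasDerivAt (fun s => (f s).re) f'.re 0 := reCLM.hasFDerivAt.comp_hasDerivAt 0 h

theorem hd1 {E F : Type} [NormedAddCommGroup E] [NormedSpace ℝ E] [NormedAddCommGroup F]
    [NormedSpace ℝ F] {f : ℝ → E × F} {f' : E × F} (h : HasDerivAt f f' 0) :
    HasDerivAt (fun s => (f s).1) f'.1 0 :=
  (ContinuousLinearMap.fst ℝ E F).hasFDerivAt.comp_hasDerivAt 0 h

theorem hd2 {E F : Type} [NormedAddCommGroup E] [NormedSpace ℝ E] [NormedAddCommGroup F]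
    [NormedSpace ℝ F] {f : ℝ → E × F} {f' : E × F} (h : HasDerivAt f f' 0) :
    HasDerivAt (fun s => (f s).2) f'.2 0 :=
  (ContinuousLinearMap.snd ℝ E F).hasFDerivAt.comp_hasDerivAt 0 h

theorem at_df' {E F : Type} [NormedAddCommGroup E] [NormedSpace ℝ E] [NormedAddCommGroup F]
    [NormedSpace ℝ F] {f : E → F} {x : E} (h : ContDiffAt ℝ ∞ f x) : DifferentiableAt ℝ f x :=
  h.differentiableAt (by simp)

theorem hd_line {E : Type} [NormedAddCommGroup E] [NormedSpace ℝ E] (e v : E) :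
    HasDerivAt (fun s : ℝ => e + s • v) v 0 := by
  simpa using ((hasDerivAt_id (0 : ℝ)).smul_const v).const_add e

theorem kill {ψ w : ℂ} (h : ψ.im ≠ 0) (e : ((96 * (ψ * w).re, -288 * (ψ ^ 2 * w).re) : ℝ × ℝ) = 0) :
    w = 0 := by
  have h1 : (ψ * w).re = 0 := by linarith [congrArg Prod.fst e, show (0 : ℝ × ℝ).1 = 0 from rfl]
  have h2 : (ψ ^ 2 * w).re = 0 := by linarith [congrArg Prod.snd e, show (0 : ℝ × ℝ).2 = 0 from rfl]
  rw [sq, mul_assoc, mul_re, h1, mul_zero, zero_sub, neg_eq_zero] at h2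
  have h3 : ψ * w = 0 := Complex.ext h1 ((mul_eq_zero.1 h2).resolve_left h)
  exact (mul_eq_zero.1 h3).resolve_left fun k => h (by rw [k, zero_im])

section
variable {p : ℝ → P2} {y v : ℝ → R4} {p' : P2} {y' v' : R4}

/-- The variation of r - i a z. -/
def dz (p p' : P2) (y y' : R4) : ℂ := y'.2.1 - I * (p'.2 * y.2.2.1 + p.2 * y'.2.2.1)

theorem hd_X (hp : HasDerivAt p p' 0) (hv : HasDerivAt v v' 0) :
    HasDerivAt (fun s => ze (p s) (v s)) (dz (p 0) p' (v 0) v') 0 :=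
  (hd1 (hd2 hv)).ofReal_comp.sub (((hd2 hp).ofReal_comp.mul
    (hd1 (hd2 (hd2 hv))).ofReal_comp).const_mul I)

theorem hd_inv (hp : HasDerivAt p p' 0) (hy : HasDerivAt y y' 0) (h0 : y 0 ∈ dom (p 0)) :
    HasDerivAt (fun s => (ze (p s) (y s))⁻¹) (-dz (p 0) p' (y 0) y' * (ze (p 0) (y 0))⁻¹ ^ 2) 0 := by
  have := (hd_X hp hy).inv (ze_ne h0)
  rwa [div_eq_mul_inv, ← inv_pow] at this

theorem hd_ps (hp : HasDerivAt p p' 0) (hy : HasDerivAt y y' 0) (h0 : y 0 ∈ dom (p 0)) :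
    HasDerivAt (fun s => ps (p s) (y s)) (p'.1 * (ze (p 0) (y 0))⁻¹ ^ 3 -
      3 * (p 0).1 * (ze (p 0) (y 0))⁻¹ ^ 4 * dz (p 0) p' (y 0) y') 0 :=
  ((hd1 hp).ofReal_comp.mul ((hd_inv hp hy h0).pow 3)).congr_deriv (by simp; ring)

theorem hd_G {f : ℝ → ℂ} {f' : ℂ} (h : HasDerivAt f f' 0) : HasDerivAt (fun s => G2 (f s))
    (96 * (f 0 * f').re, -288 * (f 0 ^ 2 * f').re) 0 :=
  (((hd_re (h.pow 2)).const_mul 48).prodMk ((hd_re (h.pow 3)).const_mul (-96))).congr_deriv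
    (Prod.ext (by simp; ring) (by simp; ring))

end

theorem fd_IK {p : P2} {y : R4} (hy : y ∈ dom p) (v : R4) : fderiv ℝ (IK p) y v =
    (96 * (ps p y * Nv p y v).re, -288 * (ps p y ^ 2 * Nv p y v).re) := by
  have d : DifferentiableAt ℝ (IK p) y :=
    at_df ((IK_cd hy).comp y (f := fun y => (p, y)) (by fun_prop))
  have h1 := d.hasFDerivAt.comp_hasDerivAt_of_eq (0 : ℝ) (hd_line y v) (by simp)
  have h2 := hd_G (hd_ps (hasDerivAt_const 0 p) (hd_line y v) (by simpa using hy))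
  rw [h1.unique h2]
  simp [Nv, dz]

theorem par_fd {P V : Type} [NormedAddCommGroup P] [NormedSpace ℝ P] [NormedAddCommGroup V]
    [NormedSpace ℝ V] {f : P → R4 → V} {q : P × R4}
    (h : ContDiffAt ℝ ∞ (fun q : P × R4 => f q.1 q.2) q) :
    ContDiffAt ℝ ∞ (fun q : P × R4 => fderiv ℝ (f q.1) q.2) q :=
  ContDiffAt.fderiv (f := fun q : P × R4 => f q.1) (n := ∞)
    (h.comp (f := fun r : (P × R4) × R4 => (r.1.1, r.2)) (q, q.2) (by fun_prop))
    contDiffAt_snd (by simp)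

/-- The collection of the invariants. -/
def Ps (n l e : R4) (q : P2 × W1) : (ℝ × ℝ) × (ℝ × ℝ) × (R4 →L[ℝ] ℝ × ℝ) × B2 × ℝ :=
  ((q.2.1.1, q.2.1.2.2.2), IK q.1 q.2.1, (fderiv ℝ (IK q.1) q.2.1).comp q.2.2,
    pl (kin q.1 q.2.1) q.2.2, Rm (kin q.1) q.2.1 (q.2.2 n) (q.2.2 l) (q.2.2 n) (q.2.2 e))

theorem Ps_cd (n l e : R4) {q : P2 × W1} (hy : q.2.1 ∈ dom q.1) : ContDiffAt ℝ ∞ (Ps n l e) q := by
  have π : ContDiffAt ℝ ∞ (fun q : P2 × W1 => (q.1, q.2.1)) q :=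
    contDiffAt_fst.prodMk contDiffAt_snd.fst
  have A : ContDiffAt ℝ ∞ (fun q : P2 × W1 => q.2.2) q := contDiffAt_snd.snd
  have k0 := famC.sm (q.1, q.2.1) hy
  have j : ContDiffAt ℝ ∞ (fun q : P2 × R4 => j2 (kin q.1) q.2) (q.1, q.2.1) :=
    (k0.prodMk (par_fd k0)).prodMk (par_fd (f := fun p => fderiv ℝ (kin p)) (par_fd k0))
  have c1 : ContDiffAt ℝ ∞ (fun q : P2 × W1 => IK q.1 q.2.1) q :=
    (IK_cd hy).comp (f := fun q : P2 × W1 => (q.1, q.2.1)) q π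
  have c2 : ContDiffAt ℝ ∞ (fun q : P2 × W1 => fderiv ℝ (IK q.1) q.2.1) q :=
    (par_fd (IK_cd hy)).comp (f := fun q : P2 × W1 => (q.1, q.2.1)) q π
  have c3 : ContDiffAt ℝ ∞ (fun q : P2 × W1 => kin q.1 q.2.1) q :=
    k0.comp (f := fun q : P2 × W1 => (q.1, q.2.1)) q π
  have c4 : ContDiffAt ℝ ∞ (fun q : P2 × W1 => j2 (kin q.1) q.2.1) q :=
    j.comp (f := fun q : P2 × W1 => (q.1, q.2.1)) q π
  have c0 : ContDiffAt ℝ ∞ (fun q : P2 × W1 => (q.2.1.1, q.2.1.2.2.2)) q :=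
    contDiffAt_snd.fst.fst.prodMk contDiffAt_snd.fst.snd.snd.snd
  have c5 : ContDiffAt ℝ ∞ (fun q : P2 × W1 =>
      Rm (kin q.1) q.2.1 (q.2.2 n) (q.2.2 l) (q.2.2 n) (q.2.2 e)) q := by
    simp only [Rm_eq]
    exact RJ_cd (inv_of_inj (kin_nd hy)) c4 (A.clm_apply contDiffAt_const)
      (A.clm_apply contDiffAt_const) (A.clm_apply contDiffAt_const) (A.clm_apply contDiffAt_const)
  have c6 : ContDiffAt ℝ ∞ (fun q : P2 × W1 => (fderiv ℝ (IK q.1) q.2.1).comp q.2.2) q :=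
    c2.clm_comp A
  unfold Ps
  exact c0.prodMk (c1.prodMk (c6.prodMk ((pl_cd c3 A).prodMk c5)))

theorem grad {K : ℝ → B2} {K' : B2} {X : ℝ → R4} {X' : R4} {σ : ℝ → ℝ} {σ' : ℝ} {A : L4}
    (l : R4 →L[ℝ] ℝ) (hK : HasDerivAt K K' 0) (hX : HasDerivAt X X' 0) (hσ : HasDerivAt σ σ' 0)
    (e : ∀ᶠ s in 𝓝 0, ∀ w, K s (X s) w = σ s * l w) (sy : ∀ v w, K 0 v w = K 0 w v)
    (E0 : ∀ v w, K' v w + K 0 (A v) w + K 0 v (A w) = 0) :
    σ' * l (X 0) - σ 0 * l X' + 2 * σ 0 * l (A (X 0)) = 0 := by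
  have h1 := (hK.clm_apply hX).clm_apply (hasDerivAt_const 0 (X 0))
  have h2 := h1.unique ((hσ.mul_const (l (X 0))).congr_of_eventuallyEq (e.mono fun s hs => hs _))
  have h3 := E0 (X 0) (X 0)
  rw [sy (A _), e.self_of_nhds] at h3
  simp only [add_apply, map_zero, add_zero] at h2
  rw [sy X', e.self_of_nhds] at h2
  linarith

theorem kin_X {p : P2} {y : R4} (hy : y ∈ dom p) (w : R4) :
    kin p y (y.2.1 ^ 2 + p.2 ^ 2, Del p.1 p.2 y.2.1, 0, p.2) w = Sig p.2 y.2.1 y.2.2.1 * cv 1 w ∧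
      kin p y (0, 0, 1 - y.2.2.1 ^ 2, 0) w = Sig p.2 y.2.1 y.2.2.1 * cv 2 w := by
  rw [kin_ap hy, kin_ap hy]
  obtain ⟨h1, h2⟩ := hy
  constructor <;> simp [cv] <;> field_simp
  simp only [Sig, Del]
  ring

/-- The parameters and the point. -/
theorem ker1 {p : ℝ → P2} {y : ℝ → R4} {p' : P2} {y' : R4} {A : L4} {K' : B2}
    (hp : HasDerivAt p p' 0) (hy : HasDerivAt y y' 0) (h0 : y 0 ∈ dom (p 0)) (hM : (p 0).1 ≠ 0)
    (ha : (p 0).2 ≠ 0) (hi : (ps (p 0) (y 0)).im ≠ 0)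
    (hK : HasDerivAt (fun s => kin (p s) (y s)) K' 0)
    (e1 : HasDerivAt (fun s => IK (p s) (y s)) 0 0)
    (e2 : HasDerivAt (fun s => (fderiv ℝ (IK (p s)) (y s)).comp (1 + s • A)) 0 0)
    (E0 : ∀ v w, K' v w + kin (p 0) (y 0) (A v) w + kin (p 0) (y 0) v (A w) = 0) :
    p' = 0 ∧ y'.2.1 = 0 ∧ y'.2.2.1 = 0 ∧ ∀ v, (A v).2.1 = 0 ∧ (A v).2.2.1 = 0 := by
  have ev : ∀ᶠ s in 𝓝 0, y s ∈ dom (p s) :=
    (hp.prodMk hy).continuousAt.eventually (open_dom2.mem_nhds h0)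
  have z0 := ze_ne h0
  have M0 : ((p 0).1 : ℂ) ≠ 0 := by exact_mod_cast hM
  have d1 := hd_ps hp hy h0
  have k1 := kill hi ((hd_G d1).unique e1)
  rw [k1] at d1
  obtain ⟨m, hm⟩ : ∃ m, p'.1 = 3 * m * (p 0).1 := ⟨p'.1 / (3 * (p 0).1), by field_simp⟩
  have k2 : dz (p 0) p' (y 0) y' = m * ze (p 0) (y 0) := by
    rw [hm] at k1
    push_cast at k1
    field_simp at k1
    exact mul_left_cancel₀ M0 (by linear_combination (-1 / 3) * k1)
  have k3 : ∀ v, dz (p 0) p' v (A v) = m * ze (p 0) v := fun v => by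
    have hv : HasDerivAt (fun s : ℝ => (1 + s • A) v) (A v) 0 := by simpa using hd_line v (A v)
    have dN := (((hd1 hp).ofReal_comp.const_mul (-3)).mul ((hd_inv hp hy h0).pow 4)).mul (hd_X hp hv)
    have d2 := ((hd_re (d1.mul dN)).const_mul 96).prodMk
      ((hd_re ((d1.pow 2).mul dN)).const_mul (-288))
    have d3 := d2.unique ((e2.clm_apply (hasDerivAt_const 0 v)).congr_of_eventuallyEq
      (ev.mono fun s hs => (fd_IK hs _).symm))
    simp only [zero_mul, mul_zero, zero_add, zero_apply, map_zero] at d3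
    have k := kill hi d3
    simp only [Pi.mul_apply, Pi.pow_apply, zero_smul, add_zero, show (1 : L4) v = v from rfl, k2,
      hm] at k
    push_cast at k
    field_simp at k
    exact mul_left_cancel₀ M0 (by linear_combination (-1 / 3) * k)
  have re : ∀ {v v' : R4}, dz (p 0) p' v v' = m * ze (p 0) v → v'.2.1 = m * v.2.1 ∧
      p'.2 * v.2.2.1 + (p 0).2 * v'.2.2.1 = m * ((p 0).2 * v.2.2.1) := fun h => by
    have h1 := congrArg Complex.re h
    have h2 := congrArg Complex.im h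
    simp [dz, ze] at h1 h2
    exact ⟨by simpa using h1, by linarith⟩
  have r := hd1 (hd2 hy)
  have z := hd1 (hd2 (hd2 hy))
  have a := hd2 hp
  have S := (r.pow 2).add ((a.pow 2).mul (z.pow 2))
  have g1 := grad (cv 1) hK (((r.pow 2).add (a.pow 2)).prodMk (((((r.pow 2).sub
    (((hd1 hp).const_mul 2).mul r)).add (a.pow 2))).prodMk ((hasDerivAt_const 0 (0 : ℝ)).prodMk a)))
    S (ev.mono fun s hs w => (kin_X hs w).1) (kin_sy h0) E0
  have g2 := grad (cv 2) hK ((hasDerivAt_const 0 (0 : ℝ)).prodMk ((hasDerivAt_const 0 (0 : ℝ)).prodMk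
    (((z.pow 2).const_sub 1).prodMk (hasDerivAt_const 0 (0 : ℝ))))) S
    (ev.mono fun s hs w => (kin_X hs w).2) (kin_sy h0) E0
  obtain ⟨b1, b2⟩ := re k2
  have c1 := fun v => (re (k3 v)).1
  have c2 := fun v => (re (k3 v)).2
  have c3 := c2 (0, 0, 1 - (y 0).2.2.1 ^ 2, 0)
  have s0 : (y 0).2.1 ^ 2 + (p 0).2 ^ 2 * (y 0).2.2.1 ^ 2 ≠ 0 := h0.1
  simp [cv, c1] at g1 g2 c3
  rw [b1, hm] at g1
  rw [b1] at g2
  generalize (A (0, 0, 1 - (y 0).2.2.1 ^ 2, 0)).2.2.1 = γ at g2 c3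
  have f1 : (p 0).2 * p'.2 = m * (y 0).2.1 ^ 2 + 2 * m * (p 0).2 ^ 2 :=
    mul_left_cancel₀ s0 (by
      linear_combination (-1 / 2) * g1 + (p 0).2 * (y 0).2.2.1 *
        ((y 0).2.1 ^ 2 - 2 * (p 0).1 * (y 0).2.1 + (p 0).2 ^ 2) * b2)
  have f2 : m * (1 - (y 0).2.2.1 ^ 2) + (y 0).2.2.1 * y'.2.2.1 + γ = 0 :=
    mul_left_cancel₀ s0 (by
      linear_combination (1 / 2) * g2 - (p 0).2 * (y 0).2.2.1 * (1 - (y 0).2.2.1 ^ 2) * b2)
  obtain rfl : m = 0 := mul_right_cancel₀ s0 (by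
    linear_combination -((p 0).2 ^ 2 * f2 - (p 0).2 * (y 0).2.2.1 * b2 - (p 0).2 * c3) - f1)
  have a0 : p'.2 = 0 := mul_left_cancel₀ ha (by linear_combination f1)
  simp only [a0, zero_mul, zero_add, mul_zero, mul_eq_zero, ha, false_or] at b1 b2 c1 c2 hm
  exact ⟨Prod.ext hm a0, b1, b2, fun v => ⟨c1 v, c2 v⟩⟩

theorem th_exp {p : P2} {y : R4} (hy : y ∈ dom p) (v : R4) :
    v = ∑ j, thL p y j v • fr p y j ∧ ∀ j, kin p y v (fr' p y j) = thL p y j v := by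
  have e := (fr_dual hy).exp v
  have k : ∀ j, kin p y v (fr' p y j) = thL p y j v := fun j => by
    conv_rhs => rw [e]
    simp [th_fr hy]
  exact ⟨by simpa only [k] using e, k⟩

/-- The linear part. -/
theorem ker2 {p : P2} {y : R4} {A : L4} (hy : y ∈ dom p) (hb : be p y ≠ 0)
    (h1 : ∀ v, (A v).2.1 = 0 ∧ (A v).2.2.1 = 0)
    (E0 : ∀ v w, kin p y (A v) w + kin p y v (A w) = 0)
    (e : HasDerivAt (fun s : ℝ => Rm (kin p) y ((1 + s • A) (fr p y 1)) ((1 + s • A) (fr p y 0))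
      ((1 + s • A) (fr p y 1)) ((1 + s • A) (fr p y 2))) 0 0) : A = 0 := by
  have u0 : ev p y .u ≠ 0 := inv_ne_zero hy.1
  have sw := xs_w hy
  have s0 : ev p y xs ≠ 0 := left_ne_zero_of_mul_eq_one sw
  have w0 : ev p y .w ≠ 0 := right_ne_zero_of_mul_eq_one sw
  obtain ⟨c, hc⟩ : ∃ c : Fin 4 → Fin 4 → ℝ, ∀ i j, thL p y i (A (fr p y j)) = c i j := ⟨_, fun _ _ => rfl⟩
  have r2 : ∀ j, c 2 j = 0 := fun j => by
    rw [← hc]
    simpa [thL, Fin.sum_univ_four, th, cv] using (h1 _).2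
  have r1 : ∀ j, c 1 j = Del p.1 p.2 y.2.1 / 2 * c 0 j := fun j => by
    rw [← hc, ← hc]
    simp [thL, Fin.sum_univ_four, th, cv, (h1 _).1]
    ring
  have k := fun v => (th_exp hy v).2
  have k0 : ∀ v, -ev p y .u * kin p y v (fr p y 1) = thL p y 0 v := fun v => by
    simpa [fr'] using k v 0
  have k1 : ∀ v, -ev p y .u * kin p y v (fr p y 0) = thL p y 1 v := fun v => by
    simpa [fr'] using k v 1
  have k2 : ∀ v, ev p y xs * ev p y .u * kin p y v (fr p y 2) = thL p y 2 v := fun v => by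
    simpa [fr'] using k v 2
  have k3 : ∀ v, ev p y .u * ev p y .w * kin p y v (fr p y 3) = thL p y 3 v := fun v => by
    simpa [fr'] using k v 3
  have E : ∀ i j, kin p y (A (fr p y i)) (fr p y j) + kin p y (A (fr p y j)) (fr p y i) = 0 :=
    fun i j => by rw [kin_sy hy (A (fr p y j))]; exact E0 _ _
  have a01 : c 0 1 = 0 := by linear_combination (-ev p y .u / 2) * E 1 1 - k0 (A (fr p y 1)) - hc 0 1
  have a11 : c 1 1 = 0 := by rw [r1, a01, mul_zero]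
  have a00 : c 0 0 = 0 := by
    linear_combination (-ev p y .u) * E 0 1 - k0 (A (fr p y 0)) - k1 (A (fr p y 1)) - hc 0 0 -
      hc 1 1 - a11
  have a33 : c 3 3 = 0 := by
    linear_combination (ev p y .u * ev p y .w / 2) * E 3 3 - k3 (A (fr p y 3)) - hc 3 3
  have a02 : c 0 2 = 0 := mul_left_cancel₀ s0 (by
    linear_combination (-(ev p y xs * ev p y .u)) * E 1 2 - ev p y xs * k0 (A (fr p y 2)) -
      ev p y xs * hc 0 2 + k2 (A (fr p y 1)) + hc 2 1 + r2 1)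
  have a32 : c 3 2 = 0 := mul_left_cancel₀ s0 (by
    linear_combination (ev p y xs * ev p y .u * ev p y .w) * E 2 3 - ev p y xs * k3 (A (fr p y 2)) -
      ev p y xs * hc 3 2 - ev p y .w * (k2 (A (fr p y 3)) + hc 2 3 + r2 3))
  have a31 : c 3 1 = ev p y .w * c 0 3 := by
    linear_combination (ev p y .u * ev p y .w) * E 1 3 - k3 (A (fr p y 1)) - hc 3 1 +
      ev p y .w * (k0 (A (fr p y 3)) + hc 0 3)
  have a30 : c 3 0 = ev p y .w * c 1 3 := by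
    linear_combination (ev p y .u * ev p y .w) * E 0 3 - k3 (A (fr p y 0)) - hc 3 0 +
      ev p y .w * (k1 (A (fr p y 3)) + hc 1 3)
  have t : ∀ i j, HasDerivAt (fun s : ℝ => thL p y i ((1 + s • A) (fr p y j))) (c i j) 0 :=
    fun i j => by
      simpa [hc] using ((hasDerivAt_id (0 : ℝ)).mul_const (c i j)).const_add (thL p y i (fr p y j))
  have o : ∀ j k i l, HasDerivAt (fun s : ℝ => Om p y ((1 + s • A) (fr p y j))
      ((1 + s • A) (fr p y k)) i l) _ 0 := fun j k i l => ((t i j).mul (t l k)).sub ((t i k).mul (t l j))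
  simp only [rm_val hy, tyD] at e
  have d := e.unique ((((((((((o 1 0 0 1).mul (o 1 2 0 1)).sub ((o 1 0 2 3).mul (o 1 2 2 3))).const_mul
    _).sub ((((o 1 0 0 1).mul (o 1 2 2 3)).add ((o 1 0 2 3).mul (o 1 2 0 1))).const_mul _)).sub
    ((((o 1 0 0 2).mul (o 1 2 1 2)).add ((o 1 0 1 2).mul (o 1 2 0 2))).const_mul _)).sub
    ((((o 1 0 0 3).mul (o 1 2 1 3)).add ((o 1 0 1 3).mul (o 1 2 0 3))).const_mul _)).sub
    ((((o 1 0 0 2).mul (o 1 2 1 3)).add ((o 1 0 1 3).mul (o 1 2 0 2))).const_mul _)).add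
    ((((o 1 0 0 3).mul (o 1 2 1 2)).add ((o 1 0 1 2).mul (o 1 2 0 3))).const_mul _)))
  simp [Om, th_fr hy, a01, a02, a32, r2] at d
  have a03 : c 0 3 = 0 := by
    have : be p y * (ev p y .w * c 0 3) = 0 := by rw [← a31]; linarith
    simpa [hb, w0] using this
  have all : ∀ i j, c i j = 0 := fun i j => by
    fin_cases i <;> fin_cases j <;> simp [a00, a01, a02, a03, r1, r2, a30, a31, a32, a33]
  refine ContinuousLinearMap.ext fun v => ?_
  rw [(th_exp hy v).1, map_sum]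
  refine Finset.sum_eq_zero fun j _ => ?_
  rw [map_smul, (th_exp hy (A _)).1]
  simp [hc, all]

theorem ps_im {p : P2} {y : R4} (hy : y ∈ dom p) (hb : be p y ≠ 0) : (ps p y).im ≠ 0 := by
  rw [ps_eq hy, add_im, ofReal_im, mul_im, I_re, I_im, ofReal_re, ofReal_im]
  simpa [hb, ev] using hy.1

/-- The invariants separate the parameters and the 1-jets near a base point. -/
theorem sep {p : P2} {y : R4} (hy : y ∈ dom p) (hM : p.1 ≠ 0) (ha : p.2 ≠ 0) (hb : be p y ≠ 0) :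
    ∃ C δ, 0 < C ∧ 0 < δ ∧ ∀ q q' : P2 × W1, ‖q - (p, y, 1)‖ ≤ δ → ‖q' - (p, y, 1)‖ ≤ δ →
      ‖q - q'‖ ≤ C * ‖Ps (fr p y 1) (fr p y 0) (fr p y 2) q - Ps (fr p y 1) (fr p y 0) (fr p y 2) q'‖ := by
  refine immers (Ps_cd _ _ _ hy) fun ⟨p', y', A⟩ h => ?_
  have hp := hd_line p p'
  have hy' := hd_line y y'
  have h0 : y + (0 : ℝ) • y' ∈ dom (p + (0 : ℝ) • p') := by simpa using hy
  have dK := (at_df' (famC.sm (_, _) h0)).hasFDerivAt.comp_hasDerivAt (0 : ℝ) (hp.prodMk hy')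
  have E0 : ∀ v w, _ := fun v w => (((dK.clm_apply (hd_line v (A v))).clm_apply
    (hd_line w (A w))).unique (((hd1 (hd2 (hd2 (hd2 h)))).clm_apply (hasDerivAt_const 0 v)).clm_apply
      (hasDerivAt_const 0 w)))
  simp only [zero_smul, add_zero, add_apply, Function.comp_apply, Prod.fst_zero, Prod.snd_zero,
    zero_apply, map_zero] at E0
  obtain ⟨rfl, k1, k2, k3⟩ := ker1 (A := A) hp hy' h0 (by simpa using hM) (by simpa using ha)
    (by simpa using ps_im hy hb) dK (hd1 (hd2 h)) (hd1 (hd2 (hd2 h))) (by simpa using E0)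
  have k4 : y'.1 = 0 := (hd1 hy').unique (hd1 (hd1 h))
  have k5 : y'.2.2.2 = 0 := (hd2 (hd2 (hd2 hy'))).unique (hd2 (hd1 h))
  obtain rfl : y' = 0 := Prod.ext k4 (Prod.ext k1 (Prod.ext k2 k5))
  rw [show ((0, 0) : P2 × R4) = 0 from rfl] at E0
  rw [ker2 hy hb k3 (by simpa using E0) (by simpa [Ps] using hd2 (hd2 (hd2 (hd2 h))))]
  rfl

end Vale.Agent.P354XM
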