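import Vale.Agent.P354XM.Ex

/-!
The components of the curvature of Kerr, first part.
-/

set_option linter.all false

namespace Vale.Agent.P354XM

open Vale.Agent.P354n (R4)
open Vale.Agent.P354R Vale.Agent.P354RC Vale.Agent.P354RK Ey

variable {p : P2} {y : R4}

theorem r0101 (hy : y ∈ dom p) : rk p y 0 1 0 1 = rd4 p y 0 1 0 1 := by
  obtain ⟨h1, h2⟩ := hy
  simp only [rk, Fin.sum_univ_four, rmA, c1, c2, rd4, tyD, om]
  simp [gk, gik, th, al, be, ev, xs, xq, xp, d]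
  all_goals field_simp
  all_goals simp only [Del, Sig]
  all_goals ring

theorem r0102 (hy : y ∈ dom p) : rk p y 0 1 0 2 = rd4 p y 0 1 0 2 := by
  obtain ⟨h1, h2⟩ := hy
  simp only [rk, Fin.sum_univ_four, rmA, c1, c2, rd4, tyD, om]
  simp [gk, gik, th, al, be, ev, xs, xq, xp, d]
  all_goals field_simp
  all_goals simp only [Del, Sig]
  all_goals ring

theorem r0103 (hy : y ∈ dom p) : rk p y 0 1 0 3 = rd4 p y 0 1 0 3 := by
  obtain ⟨h1, h2⟩ := hy
  simp only [rk, Fin.sum_univ_four, rmA, c1, c2, rd4, tyD, om]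
  simp [gk, gik, th, al, be, ev, xs, xq, xp, d]
  all_goals field_simp
  all_goals simp only [Del, Sig]
  all_goals ring

theorem r0112 (hy : y ∈ dom p) : rk p y 0 1 1 2 = rd4 p y 0 1 1 2 := by
  obtain ⟨h1, h2⟩ := hy
  simp only [rk, Fin.sum_univ_four, rmA, c1, c2, rd4, tyD, om]
  simp [gk, gik, th, al, be, ev, xs, xq, xp, d]
  all_goals field_simp
  all_goals simp only [Del, Sig]
  all_goals ring

theorem r0113 (hy : y ∈ dom p) : rk p y 0 1 1 3 = rd4 p y 0 1 1 3 := by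
  obtain ⟨h1, h2⟩ := hy
  simp only [rk, Fin.sum_univ_four, rmA, c1, c2, rd4, tyD, om]
  simp [gk, gik, th, al, be, ev, xs, xq, xp, d]
  all_goals field_simp
  all_goals simp only [Del, Sig]
  all_goals ring

theorem r0123 (hy : y ∈ dom p) : rk p y 0 1 2 3 = rd4 p y 0 1 2 3 := by
  obtain ⟨h1, h2⟩ := hy
  simp only [rk, Fin.sum_univ_four, rmA, c1, c2, rd4, tyD, om]
  simp [gk, gik, th, al, be, ev, xs, xq, xp, d]
  all_goals field_simp
  all_goals simp only [Del, Sig]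
  all_goals ring

theorem r0201 (hy : y ∈ dom p) : rk p y 0 2 0 1 = rd4 p y 0 2 0 1 := by
  obtain ⟨h1, h2⟩ := hy
  simp only [rk, Fin.sum_univ_four, rmA, c1, c2, rd4, tyD, om]
  simp [gk, gik, th, al, be, ev, xs, xq, xp, d]
  all_goals field_simp
  all_goals simp only [Del, Sig]
  all_goals ring

theorem r0202 (hy : y ∈ dom p) : rk p y 0 2 0 2 = rd4 p y 0 2 0 2 := by
  obtain ⟨h1, h2⟩ := hy
  simp only [rk, Fin.sum_univ_four, rmA, c1, c2, rd4, tyD, om]
  simp [gk, gik, th, al, be, ev, xs, xq, xp, d]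
  all_goals field_simp
  all_goals simp only [Del, Sig]
  all_goals ring

theorem r0203 (hy : y ∈ dom p) : rk p y 0 2 0 3 = rd4 p y 0 2 0 3 := by
  obtain ⟨h1, h2⟩ := hy
  simp only [rk, Fin.sum_univ_four, rmA, c1, c2, rd4, tyD, om]
  simp [gk, gik, th, al, be, ev, xs, xq, xp, d]
  all_goals field_simp
  all_goals simp only [Del, Sig]
  all_goals ring

theorem r0212 (hy : y ∈ dom p) : rk p y 0 2 1 2 = rd4 p y 0 2 1 2 := by
  obtain ⟨h1, h2⟩ := hy
  simp only [rk, Fin.sum_univ_four, rmA, c1, c2, rd4, tyD, om]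
  simp [gk, gik, th, al, be, ev, xs, xq, xp, d]
  all_goals field_simp
  all_goals simp only [Del, Sig]
  all_goals ring

theorem r0213 (hy : y ∈ dom p) : rk p y 0 2 1 3 = rd4 p y 0 2 1 3 := by
  obtain ⟨h1, h2⟩ := hy
  simp only [rk, Fin.sum_univ_four, rmA, c1, c2, rd4, tyD, om]
  simp [gk, gik, th, al, be, ev, xs, xq, xp, d]
  all_goals field_simp
  all_goals simp only [Del, Sig]
  all_goals ring

theorem r0223 (hy : y ∈ dom p) : rk p y 0 2 2 3 = rd4 p y 0 2 2 3 := by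
  obtain ⟨h1, h2⟩ := hy
  simp only [rk, Fin.sum_univ_four, rmA, c1, c2, rd4, tyD, om]
  simp [gk, gik, th, al, be, ev, xs, xq, xp, d]
  all_goals field_simp
  all_goals simp only [Del, Sig]
  all_goals ring

theorem r0301 (hy : y ∈ dom p) : rk p y 0 3 0 1 = rd4 p y 0 3 0 1 := by
  obtain ⟨h1, h2⟩ := hy
  simp only [rk, Fin.sum_univ_four, rmA, c1, c2, rd4, tyD, om]
  simp [gk, gik, th, al, be, ev, xs, xq, xp, d]
  all_goals field_simp
  all_goals simp only [Del, Sig]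
  all_goals ring

theorem r0302 (hy : y ∈ dom p) : rk p y 0 3 0 2 = rd4 p y 0 3 0 2 := by
  obtain ⟨h1, h2⟩ := hy
  simp only [rk, Fin.sum_univ_four, rmA, c1, c2, rd4, tyD, om]
  simp [gk, gik, th, al, be, ev, xs, xq, xp, d]
  all_goals field_simp
  all_goals simp only [Del, Sig]
  all_goals ring

theorem r0303 (hy : y ∈ dom p) : rk p y 0 3 0 3 = rd4 p y 0 3 0 3 := by
  obtain ⟨h1, h2⟩ := hy
  simp only [rk, Fin.sum_univ_four, rmA, c1, c2, rd4, tyD, om]
  simp [gk, gik, th, al, be, ev, xs, xq, xp, d]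
  all_goals field_simp
  all_goals simp only [Del, Sig]
  all_goals ring

theorem r0312 (hy : y ∈ dom p) : rk p y 0 3 1 2 = rd4 p y 0 3 1 2 := by
  obtain ⟨h1, h2⟩ := hy
  simp only [rk, Fin.sum_univ_four, rmA, c1, c2, rd4, tyD, om]
  simp [gk, gik, th, al, be, ev, xs, xq, xp, d]
  all_goals field_simp
  all_goals simp only [Del, Sig]
  all_goals ring

theorem r0313 (hy : y ∈ dom p) : rk p y 0 3 1 3 = rd4 p y 0 3 1 3 := by
  obtain ⟨h1, h2⟩ := hy
  simp only [rk, Fin.sum_univ_four, rmA, c1, c2, rd4, tyD, om]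
  simp [gk, gik, th, al, be, ev, xs, xq, xp, d]
  all_goals field_simp
  all_goals simp only [Del, Sig]
  all_goals ring

theorem r0323 (hy : y ∈ dom p) : rk p y 0 3 2 3 = rd4 p y 0 3 2 3 := by
  obtain ⟨h1, h2⟩ := hy
  simp only [rk, Fin.sum_univ_four, rmA, c1, c2, rd4, tyD, om]
  simp [gk, gik, th, al, be, ev, xs, xq, xp, d]
  all_goals field_simp
  all_goals simp only [Del, Sig]
  all_goals ring

end Vale.Agent.P354XM
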