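import Vale.Agent.P354XM.Ex

/-!
The curvature operator of type D in a principal frame and its traces.
-/

set_option linter.all false

noncomputable section

namespace Vale.Agent.P354XM

/-- The table. -/
def tb (α β s w : ℝ) : Fin 4 → Fin 4 → Fin 4 → Fin 4 → ℝ :=
  ![![![![0, 0, 0, 0], ![0, 0, 0, 0], ![0, 0, 0, 0], ![0, 0, 0, 0]],
      ![![0, -2 * α, 0, 0], ![2 * α, 0, 0, 0], ![0, 0, 0, 2 * β], ![0, 0, -(2 * β), 0]],
      ![![0, 0, α, -(s * β)], ![0, 0, 0, 0], ![-α, 0, 0, 0], ![s * β, 0, 0, 0]],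
      ![![0, 0, w * β, α], ![0, 0, 0, 0], ![-(w * β), 0, 0, 0], ![-α, 0, 0, 0]]],
    ![![![0, 2 * α, 0, 0], ![-2 * α, 0, 0, 0], ![0, 0, 0, -(2 * β)], ![0, 0, 2 * β, 0]],
      ![![0, 0, 0, 0], ![0, 0, 0, 0], ![0, 0, 0, 0], ![0, 0, 0, 0]],
      ![![0, 0, 0, 0], ![0, 0, α, s * β], ![0, -α, 0, 0], ![0, -(s * β), 0, 0]],
      ![![0, 0, 0, 0], ![0, 0, -(w * β), α], ![0, w * β, 0, 0], ![0, -α, 0, 0]]],
    ![![![0, 0, -α, s * β], ![0, 0, 0, 0], ![α, 0, 0, 0], ![-(s * β), 0, 0, 0]],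
      ![![0, 0, 0, 0], ![0, 0, -α, -(s * β)], ![0, α, 0, 0], ![0, s * β, 0, 0]],
      ![![0, 0, 0, 0], ![0, 0, 0, 0], ![0, 0, 0, 0], ![0, 0, 0, 0]],
      ![![0, -2 * β, 0, 0], ![2 * β, 0, 0, 0], ![0, 0, 0, -2 * α], ![0, 0, 2 * α, 0]]],
    ![![![0, 0, -(w * β), -α], ![0, 0, 0, 0], ![w * β, 0, 0, 0], ![α, 0, 0, 0]],
      ![![0, 0, 0, 0], ![0, 0, w * β, -α], ![0, -(w * β), 0, 0], ![0, α, 0, 0]],
      ![![0, 2 * β, 0, 0], ![-2 * β, 0, 0, 0], ![0, 0, 0, 2 * α], ![0, 0, -2 * α, 0]],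
      ![![0, 0, 0, 0], ![0, 0, 0, 0], ![0, 0, 0, 0], ![0, 0, 0, 0]]]]

/-- The matrix. -/
def tM (α β s w : ℝ) : Matrix (Fin 4 × Fin 4) (Fin 4 × Fin 4) ℝ :=
  Matrix.of fun A B => tb α β s w A.1 A.2 B.1 B.2

theorem tr2 {α β s w : ℝ} (h : s * w = 1) :
    (tM α β s w * tM α β s w).trace = 48 * (α ^ 2 - β ^ 2) := by
  simp only [Matrix.trace, Matrix.diag, Matrix.mul_apply, Fintype.sum_prod_type, Fin.sum_univ_four,
    tM, Matrix.of_apply]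
  simp [tb]
  linear_combination (-16 * β ^ 2) * h

theorem tr3 {α β s w : ℝ} (h : s * w = 1) :
    (tM α β s w * tM α β s w * tM α β s w).trace = -96 * (α ^ 3 - 3 * α * β ^ 2) := by
  simp only [Matrix.trace, Matrix.diag, Matrix.mul_apply, Fintype.sum_prod_type, Fin.sum_univ_four,
    tM, Matrix.of_apply]
  simp [tb]
  linear_combination (-96 * α * β ^ 2) * h

/-- The 2-forms on two vectors of the frame, and the dual frame. -/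
def D0 (k l A B : Fin 4) : ℝ :=
  (if A = k then 1 else 0) * (if B = l then 1 else 0) - (if A = l then 1 else 0) * (if B = k then 1 else 0)
def cf (s w u : ℝ) : Fin 4 → ℝ := ![-u, -u, s * u, u * w]
def sw : Fin 4 → Fin 4 := ![1, 0, 2, 3]

section
variable {α β s u : ℝ} (h : s ≠ 0)
include h

theorem tb0 (j k l : Fin 4) : cf s s⁻¹ u 0 * cf s s⁻¹ u j *
    tyD α β s s⁻¹ (D0 (sw 0) (sw j)) (D0 k l) = tb (α * u ^ 2) (β * u ^ 2) s s⁻¹ 0 j k l := by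
  fin_cases j <;> fin_cases k <;> fin_cases l <;> simp [tb, tyD, D0, cf, sw] <;> field_simp

theorem tb1 (j k l : Fin 4) : cf s s⁻¹ u 1 * cf s s⁻¹ u j *
    tyD α β s s⁻¹ (D0 (sw 1) (sw j)) (D0 k l) = tb (α * u ^ 2) (β * u ^ 2) s s⁻¹ 1 j k l := by
  fin_cases j <;> fin_cases k <;> fin_cases l <;> simp [tb, tyD, D0, cf, sw] <;> field_simp

theorem tb2 (j k l : Fin 4) : cf s s⁻¹ u 2 * cf s s⁻¹ u j *
    tyD α β s s⁻¹ (D0 (sw 2) (sw j)) (D0 k l) = tb (α * u ^ 2) (β * u ^ 2) s s⁻¹ 2 j k l := by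
  fin_cases j <;> fin_cases k <;> fin_cases l <;> simp [tb, tyD, D0, cf, sw] <;> field_simp

theorem tb3 (j k l : Fin 4) : cf s s⁻¹ u 3 * cf s s⁻¹ u j *
    tyD α β s s⁻¹ (D0 (sw 3) (sw j)) (D0 k l) = tb (α * u ^ 2) (β * u ^ 2) s s⁻¹ 3 j k l := by
  fin_cases j <;> fin_cases k <;> fin_cases l <;> simp [tb, tyD, D0, cf, sw] <;> field_simp

theorem tb_eq (i j k l : Fin 4) : cf s s⁻¹ u i * cf s s⁻¹ u j *
    tyD α β s s⁻¹ (D0 (sw i) (sw j)) (D0 k l) = tb (α * u ^ 2) (β * u ^ 2) s s⁻¹ i j k l := by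
  fin_cases i
  exacts [tb0 h j k l, tb1 h j k l, tb2 h j k l, tb3 h j k l]

end

end Vale.Agent.P354XM
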