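import Vale.Agent.P354XM.Inv
import Vale.Agent.P354XM.RmA
import Vale.Agent.P354XM.RmB
import Vale.Agent.P354XM.Tr

/-!
The curvature of Kerr in the coordinates (v, r, z, φ) and the values of the invariants.
-/

set_option maxSynthPendingDepth 3
set_option linter.unnecessarySeqFocus false
set_option linter.unusedSimpArgs false

open scoped ContDiff
open Set Filter Topology

noncomputable section

namespace Vale.Agent.P354XM

open Vale.Agent.P354n (R4)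
open Vale.Agent.P354R (Sig Del)
open Vale.Agent.P354RC Vale.Agent.P354RK

variable {p : P2} {y : R4}

/-- The metric in the chart. -/
def kin (p : P2) : R4 → B2 := fld gk p

theorem kin_ap (hy : y ∈ dom p) (v w : R4) : kin p y v w =
    -(v.1 * w.1) + (v.1 * w.2.1 + v.2.1 * w.1) -
      p.2 * (1 - y.2.2.1 ^ 2) * (v.2.1 * w.2.2.2 + v.2.2.2 * w.2.1) +
      Sig p.2 y.2.1 y.2.2.1 / (1 - y.2.2.1 ^ 2) * (v.2.2.1 * w.2.2.1) +
      (1 - y.2.2.1 ^ 2) * (y.2.1 ^ 2 + p.2 ^ 2) * (v.2.2.2 * w.2.2.2) +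
      2 * p.1 * y.2.1 / Sig p.2 y.2.1 y.2.2.1 * ((v.1 - p.2 * (1 - y.2.2.1 ^ 2) * v.2.2.2) *
        (w.1 - p.2 * (1 - y.2.2.1 ^ 2) * w.2.2.2)) := by
  obtain ⟨h1, h2⟩ := hy
  simp only [kin, fld_ap, Fin.sum_univ_four]
  simp [gk, cv, ev, xs, xq, xp]
  field_simp
  simp only [Sig]
  ring

theorem kin_sy (hy : y ∈ dom p) (v w : R4) : kin p y v w = kin p y w v := by
  rw [kin_ap hy, kin_ap hy]; ring

theorem kin_nd (hy : y ∈ dom p) (A : R4) (h : ∀ B, kin p y A B = 0) : A = 0 := by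
  have e : ∀ l, cv l A = 0 := fun l => by
    have k : ∑ n, gik p y n l * fld gk p y (bs n) A = cv l A := by
      simp only [fun n => lin_bs (fld gk p y (bs n)) A, Finset.mul_sum]
      rw [Finset.sum_comm]
      simp only [mul_left_comm _ (cv _ A), ← Finset.mul_sum, gik_inv hy]
      simp
    rw [← k]
    exact Finset.sum_eq_zero fun n _ => by
      rw [show fld gk p y (bs n) A = 0 from (kin_sy hy _ _).trans (h _), mul_zero]
  rw [← sum_bs A]
  simp [e]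

theorem famC : Fam kin {q | q.2 ∈ dom q.1} :=
  ⟨open_dom2, fun _ hq => fld_cd2 hq, fun _ hq => kin_sy hq, fun _ hq => kin_nd hq⟩

theorem rm_comp (hy : y ∈ dom p) (i j k l : Fin 4) :
    Rm (kin p) y (bs i) (bs j) (bs k) (bs l) = rk p y i j k l := by
  have r := famC.rp p
  have e : ∀ a b c d, kin p y (Gm (kin p) y (bs a) (bs b)) (Gm (kin p) y (bs c) (bs d)) =
      ∑ m, c2 (gik p y) (fun a b c => fderiv ℝ (kin p) y (bs a) (bs b) (bs c)) c d m *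
        c1 (fun a b c => fderiv ℝ (kin p) y (bs a) (bs b) (bs c)) a b m := fun a b c d => by
    rw [r.gm hy, Gm, inv_comp r hy (gik_inv hy)]
    simp only [map_sum, map_smul, smul_eq_mul, c2, c1, ← C1_ap]
  rw [Rm, e, e]
  simp only [kin, dC, fld_1 hy, fld_2 hy]
  rfl

theorem zero_of_lt {f : Fin 4 → Fin 4 → ℝ} (a : ∀ i j, f i j = -f j i) (h : ∀ i j, i < j → f i j = 0)
    (i j : Fin 4) : f i j = 0 := by
  rcases lt_trichotomy i j with k | rfl | k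
  · exact h i j k
  · linarith [a i i]
  · rw [a, h j i k, neg_zero]

theorem lt_cases : ∀ i j : Fin 4, i < j → (i = 0 ∧ j = 1) ∨ (i = 0 ∧ j = 2) ∨ (i = 0 ∧ j = 3) ∨
    (i = 1 ∧ j = 2) ∨ (i = 1 ∧ j = 3) ∨ (i = 2 ∧ j = 3) := by decide

theorem rm_rd (hy : y ∈ dom p) (i j k l : Fin 4) :
    Rm (kin p) y (bs i) (bs j) (bs k) (bs l) = rd4 p y i j k l := by
  rw [← sub_eq_zero]
  refine zero_of_lt (f := fun i j => Rm (kin p) y (bs i) (bs j) (bs k) (bs l) - rd4 p y i j k l)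
    (fun i j => by simp only [Rm, rd4, tyD, om]; ring) (fun i j hij => ?_) i j
  refine zero_of_lt (f := fun k l => Rm (kin p) y (bs i) (bs j) (bs k) (bs l) - rd4 p y i j k l)
    (fun k l => by rw [Rm_anti (famC.rp p) hy]; simp only [rd4, tyD, om]; ring)
    (fun k l hkl => ?_) k l
  rw [sub_eq_zero, rm_comp hy]
  rcases lt_cases i j hij with ⟨rfl, rfl⟩ | ⟨rfl, rfl⟩ | ⟨rfl, rfl⟩ | ⟨rfl, rfl⟩ | ⟨rfl, rfl⟩ |
    ⟨rfl, rfl⟩ <;> rcases lt_cases k l hkl with ⟨rfl, rfl⟩ | ⟨rfl, rfl⟩ | ⟨rfl, rfl⟩ | ⟨rfl, rfl⟩ |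
    ⟨rfl, rfl⟩ | ⟨rfl, rfl⟩
  exacts [r0101 hy, r0102 hy, r0103 hy, r0112 hy, r0113 hy, r0123 hy, r0201 hy, r0202 hy, r0203 hy,
    r0212 hy, r0213 hy, r0223 hy, r0301 hy, r0302 hy, r0303 hy, r0312 hy, r0313 hy, r0323 hy,
    r1201 hy, r1202 hy, r1203 hy, r1212 hy, r1213 hy, r1223 hy, r1301 hy, r1302 hy, r1303 hy,
    r1312 hy, r1313 hy, r1323 hy, r2301 hy, r2302 hy, r2303 hy, r2312 hy, r2313 hy, r2323 hy]

/-- The coframe and the 2-forms on vectors. -/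
def thL (p : P2) (y : R4) (A : Fin 4) : R4 →L[ℝ] ℝ := ∑ i, th p y A i • cv i
def Om (p : P2) (y a b : R4) (A B : Fin 4) : ℝ := thL p y A a * thL p y B b - thL p y A b * thL p y B a

theorem thL_bs (A i : Fin 4) : thL p y A (bs i) = th p y A i := by simp [thL, cv_bs]

theorem rm_val (hy : y ∈ dom p) (a b c d : R4) : Rm (kin p) y a b c d =
    tyD (al p y) (be p y) (ev p y xs) (ev p y .w) (Om p y a b) (Om p y c d) := by
  refine (ml_Rm _ _).ext (R' := fun a b c d =>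
    tyD (al p y) (be p y) (ev p y xs) (ev p y .w) (Om p y a b) (Om p y c d)) ?_
    (fun i j k l => ?_) a b c d
  · refine ⟨fun _ _ _ => ⟨?_, ?_⟩, fun _ _ _ => ⟨?_, ?_⟩, fun _ _ _ => ⟨?_, ?_⟩,
      fun _ _ _ => ⟨?_, ?_⟩⟩ <;> intro _ _ <;>
      simp only [tyD, Om, map_add, map_smul, smul_eq_mul] <;> ring
  · rw [rm_rd hy]
    simp only [rd4, tyD, Om, om, thL_bs]

/-- The principal frame l, n, e2, e3 and the dual frame. -/
def fr (p : P2) (y : R4) : Fin 4 → R4 :=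
  ![(y.2.1 ^ 2 + p.2 ^ 2, Del p.1 p.2 y.2.1 / 2, 0, p.2), (0, -1, 0, 0), (0, 0, 1, 0),
    (p.2 * (1 - y.2.2.1 ^ 2), 0, 0, 1)]
def fr' (p : P2) (y : R4) : Fin 4 → R4 :=
  ![-ev p y .u • fr p y 1, -ev p y .u • fr p y 0, (ev p y xs * ev p y .u) • fr p y 2,
    (ev p y .u * ev p y .w) • fr p y 3]

theorem th_fr (hy : y ∈ dom p) (A B : Fin 4) : thL p y A (fr p y B) = if A = B then 1 else 0 := by
  obtain ⟨h1, h2⟩ := hy
  fin_cases A <;> fin_cases B <;> simp [thL, Fin.sum_univ_four, th, fr, cv, ev, xs, xp] <;>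
    field_simp <;> simp only [Sig] <;> ring

theorem fr_dual (hy : y ∈ dom p) : Dual (kin p y) (fr p y) (fr' p y) := fun A B => by
  rw [kin_ap hy]
  obtain ⟨h1, h2⟩ := hy
  fin_cases A <;> fin_cases B <;> simp [fr', fr, ev, xs] <;> field_simp <;>
    (try simp only [Sig, Del]) <;> ring

theorem xs_w (hy : y ∈ dom p) : ev p y xs * ev p y .w = 1 := by
  have := hy.2
  simp [ev, xs]
  field_simp
  ring

theorem mx_val (hy : y ∈ dom p) : Mx (Rm (kin p) y) (fr p y) (fr' p y) =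
    tM (al p y * ev p y .u ^ 2) (be p y * ev p y .u ^ 2) (ev p y xs) (ev p y .w) := by
  have h := xs_w hy
  have h' : ev p y .w = (ev p y xs)⁻¹ := (inv_eq_of_mul_eq_one_right h).symm
  have h0 : ev p y xs ≠ 0 := left_ne_zero_of_mul_eq_one h
  have e : ∀ i, fr' p y i = cf (ev p y xs) (ev p y .w) (ev p y .u) i • fr p y (sw i) := fun i => by
    fin_cases i <;> rfl
  have o : ∀ k l, Om p y (fr p y k) (fr p y l) = D0 k l := fun k l => by
    funext A B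
    simp only [Om, D0, th_fr hy]
  ext ⟨i, j⟩ ⟨k, l⟩
  simp only [Mx, tM, Matrix.of_apply, e]
  rw [((ml_Rm _ _).l1 _ _ _).map_smul, ((ml_Rm _ _).l2 _ _ _).map_smul, rm_val hy, o, o, h',
    ← tb_eq h0, smul_eq_mul, smul_eq_mul, mul_assoc]

/-- The complex scalar M / (r - i a z)^3. -/
def ze (p : P2) (y : R4) : ℂ := y.2.1 - Complex.I * (p.2 * y.2.2.1)
def ps (p : P2) (y : R4) : ℂ := p.1 * (ze p y)⁻¹ ^ 3

theorem ze_mul (p : P2) (y : R4) : ze p y * (y.2.1 + Complex.I * (p.2 * y.2.2.1)) =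
    (Sig p.2 y.2.1 y.2.2.1 : ℝ) := by
  simp only [ze, Sig]
  push_cast
  linear_combination (-(p.2 * y.2.2.1 : ℂ) ^ 2) * Complex.I_sq

theorem ze_ne (hy : y ∈ dom p) : ze p y ≠ 0 := fun h => hy.1 (by
  have := ze_mul p y
  rw [h, zero_mul] at this
  exact_mod_cast this.symm)

theorem ps_eq (hy : y ∈ dom p) : ps p y =
    (al p y * ev p y .u ^ 2 : ℝ) + Complex.I * (be p y * ev p y .u ^ 2 : ℝ) := by
  have s : ((Sig p.2 y.2.1 y.2.2.1 : ℝ) : ℂ) ≠ 0 := by exact_mod_cast hy.1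
  have e : (ze p y)⁻¹ = (y.2.1 + Complex.I * (p.2 * y.2.2.1)) * ((Sig p.2 y.2.1 y.2.2.1 : ℝ) : ℂ)⁻¹ :=
    inv_eq_of_mul_eq_one_right (by rw [← mul_assoc, ze_mul, mul_inv_cancel₀ s])
  simp only [ps, e, al, be, ev]
  push_cast
  linear_combination (p.1 * ((Sig p.2 y.2.1 y.2.2.1 : ℝ) : ℂ)⁻¹ ^ 3 * (p.2 * y.2.2.1) ^ 2 *
    (3 * y.2.1 + Complex.I * (p.2 * y.2.2.1))) * Complex.I_sq

/-- The invariants as functions of the complex scalar. -/
def G2 (ψ : ℂ) : ℝ × ℝ := (48 * (ψ ^ 2).re, -96 * (ψ ^ 3).re)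

theorem IJ_kin (hy : y ∈ dom p) : IJ (j2 (kin p) y) = G2 (ps p y) := by
  rw [IJ_dual (famC.rp p) hy (fr_dual hy), mx_val hy, trs, tr2 (xs_w hy), tr3 (xs_w hy), G2, ps_eq hy]
  generalize al p y * ev p y .u ^ 2 = α
  generalize be p y * ev p y .u ^ 2 = β
  simp [pow_succ]
  ring

end Vale.Agent.P354XM
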