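import Vale.Agent.P354XM.Ker
import Vale.Agent.P354XM.Kin

/-!
The chart (v, r, z, φ) near the half plane φ = 0.
-/

set_option maxSynthPendingDepth 3

open scoped ContDiff
open Set Filter Topology

noncomputable section

namespace Vale.Agent.P354XM

open Vale.Agent.P354n (R4)
open Vale.Agent.P354R (Sig Del)
open Vale.Agent.P354RC
open Vale.Agent.P354XE (rd gin dr dq kf)
open Vale.Agent.P354XA (ip dr_eq dq_eq rnd_eq Sg_eq rd_eq rd_cd rd_fd rd_sq rd_nonneg Sg_ge)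

/-- The chart. -/
def lam (x : R4) : R4 := (x.1 + rd x, rd x, x.2.2.2 / rd x, Real.arctan (x.2.2.1 / x.2.1))

variable {x : R4} {p : P2}

theorem rd_pos (h : 0 < x.2.1) : 0 < rd x := by
  refine (rd_nonneg x).lt_of_ne' fun k => ?_
  have := rd_sq x
  rw [k, ip] at this
  nlinarith [mul_self_nonneg x.2.2.1, mul_self_nonneg x.2.2.2, mul_pos h h]

theorem lam_cd (h : 0 < x.2.1) : ContDiffAt ℝ ∞ lam x := by
  have r := rd_cd (n := ∞) (rd_pos h).ne'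
  exact (contDiffAt_fst.add r).prodMk (r.prodMk ((ContDiffAt.div (by fun_prop) r
    (rd_pos h).ne').prodMk (Real.contDiff_arctan.contDiffAt.comp x
      (ContDiffAt.div contDiffAt_snd.snd.fst contDiffAt_snd.fst h.ne'))))

theorem s_eq (h : 0 < x.2.1) :
    1 - (x.2.2.2 / rd x) ^ 2 = (x.2.1 ^ 2 + x.2.2.1 ^ 2) / rd x ^ 2 := by
  have := (rd_pos h).ne'
  have k := rd_sq x
  field_simp
  rw [k, ip]
  ring

theorem lam_dom (h : 0 < x.2.1) (p : P2) : lam x ∈ dom p := by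
  have := rd_pos h
  refine ⟨?_, ?_⟩
  · simp only [lam, Sig]; positivity
  · simp only [lam, s_eq h]; positivity

theorem lam_fd (h : 0 < x.2.1) (v : R4) : fderiv ℝ lam x v =
    (v.1 + dr x v, dr x v, (v.2.2.2 - x.2.2.2 / rd x * dr x v) / rd x,
      dq x v / (1 - (x.2.2.2 / rd x) ^ 2)) := by
  have r0 := (rd_pos h).ne'
  have l := hd_line x v
  have r : HasDerivAt (fun s : ℝ => rd (x + s • v)) (dr x v) 0 := by
    rw [← rd_fd r0]
    exact (at_df (rd_cd r0)).hasFDerivAt.comp_hasDerivAt_of_eq (0 : ℝ) l (by simp)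
  have d := ((hd1 l).add r).prodMk (r.prodMk (((hd2 (hd2 (hd2 l))).div r (by simpa using r0)).prodMk
    ((hd1 (hd2 (hd2 l))).div (hd1 (hd2 l)) (by simpa using h.ne')).arctan))
  rw [((at_df (lam_cd h)).hasFDerivAt.comp_hasDerivAt_of_eq (0 : ℝ) l (by simp)).unique d, s_eq h,
    dq_eq]
  have := h.ne'
  have h2 : x.2.1 ^ 2 + x.2.2.1 ^ 2 ≠ 0 := by positivity
  refine Prod.ext rfl (Prod.ext rfl (Prod.ext ?_ ?_)) <;> simp <;> field_simp

theorem pb_lam (h : 0 < x.2.1) (p : P2) : pb (kin p) lam x = hin p x := by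
  refine ContinuousLinearMap.ext fun v => ContinuousLinearMap.ext fun w => ?_
  have r0 := (rd_pos h).ne'
  have s0 := (lam_dom h p).2
  have key : (v.2.2.2 - x.2.2.2 / rd x * dr x v) / rd x * ((w.2.2.2 - x.2.2.2 / rd x * dr x w) / rd x) =
      (1 - (x.2.2.2 / rd x) ^ 2) * P354I.rnd (P354XE.xs x) (P354XE.xs v) (P354XE.xs w) -
        dq x v * dq x w := by
    have k := rd_sq x
    have e : ∀ v : R4, (v.2.2.2 - x.2.2.2 / rd x * dr x v) =
        v.2.2.2 - x.2.2.2 * ip x v / rd x ^ 2 := fun v => by rw [dr_eq]; field_simp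
    rw [div_mul_div_comm, ← sq, e, e, div_pow, rnd_eq, dq_eq, dq_eq]
    have h2 : rd x ^ 2 ≠ 0 := pow_ne_zero 2 r0
    generalize rd x ^ 2 = R at *
    field_simp
    subst k
    unfold ip
    ring
  have hs : P354I.Sg p.2 (rd x) (P354XE.xs x) = Sig p.2 (rd x) (x.2.2.2 / rd x) := by
    rw [Sg_eq, Sig, div_pow]
  rw [pb_ap, kin_ap (lam_dom h p), lam_fd h, lam_fd h, hin_ap, gin, kf, kf, hs]
  simp only [lam] at s0 ⊢
  rw [key]
  have e : rd x ^ 2 + p.2 ^ 2 = Sig p.2 (rd x) (x.2.2.2 / rd x) +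
      p.2 ^ 2 * (1 - (x.2.2.2 / rd x) ^ 2) := by rw [Sig]; ring
  rw [e]
  generalize 1 - (x.2.2.2 / rd x) ^ 2 = s at *
  field_simp
  ring

theorem lam_inj (h : 0 < x.2.1) : Function.Injective (fderiv ℝ lam x) :=
  (injective_iff_map_eq_zero _).2 fun v hv => famK.nd ((0, 0), x) (rd_pos h) v fun w => by
    rw [← pb_lam h, pb_ap, hv]
    simp

/-- The chart and the shifts. -/
theorem lam_sh {c φ : ℝ} (h : 0 < x.2.1) (h0 : x.2.2.1 = 0) (hφ : |φ| < Real.pi / 2) :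
    0 < (sh c φ x).2.1 ∧ lam (sh c φ x) = lam x + (c, 0, 0, φ) ∧
      (fderiv ℝ lam (sh c φ x)).comp (rot φ) = fderiv ℝ lam x := by
  have hc := Real.cos_pos_of_mem_Ioo (abs_lt.1 hφ)
  have k : 0 < (sh c φ x).2.1 := by simp [sh, h0, hc, h]
  refine ⟨k, ?_, ContinuousLinearMap.ext fun v => ?_⟩
  · have e : (sh c φ x).2.2.1 / (sh c φ x).2.1 = Real.tan φ := by
      simp only [sh, h0, Real.tan_eq_sin_div_cos]
      field_simp
      ring
    rw [lam, lam, e, Real.arctan_tan (abs_lt.1 hφ).1 (abs_lt.1 hφ).2, rd_sh]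
    ext <;> simp [sh, h0]
    ring
  · rw [ContinuousLinearMap.comp_apply, lam_fd k, lam_fd h, dr_sh, dq_sh, rd_sh]
    simp [rot_ap, sh]

/-- The action of the chart on 1-jets. -/
def Xi (w : W1) : W1 := (lam w.1, (fderiv ℝ lam w.1).comp w.2)

theorem Xi_cd {w : W1} (h : 0 < w.1.2.1) : ContDiffAt ℝ ∞ Xi w :=
  ((lam_cd h).comp w contDiffAt_fst).prodMk
    (((at_fd (lam_cd h)).comp w contDiffAt_fst).clm_comp contDiffAt_snd)

theorem Xi_sep (h : 0 < x.2.1) : ∃ C δ, 0 < C ∧ 0 < δ ∧ ∀ w w' : W1, ‖w - (x, 1)‖ ≤ δ →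
    ‖w' - (x, 1)‖ ≤ δ → ‖w - w'‖ ≤ C * ‖Xi w - Xi w'‖ := by
  refine immers (Xi_cd (w := (x, 1)) h) fun ⟨y, A⟩ k => ?_
  obtain rfl : y = 0 := lam_inj h (by
    rw [map_zero]
    exact ((at_df (lam_cd h)).hasFDerivAt.comp_hasDerivAt_of_eq (0 : ℝ) (hd_line x y)
      (by simp)).unique (hd1 k))
  refine Prod.ext rfl (ContinuousLinearMap.ext fun v => lam_inj h ?_)
  have k1 := (hd2 k).clm_apply (hasDerivAt_const 0 v)
  have k2 := (fderiv ℝ lam x).hasFDerivAt.comp_hasDerivAt (0 : ℝ) (hd_line v (A v))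
  simpa using k2.unique (by simpa [Xi, Function.comp_def] using k1)

theorem sh_cont (x : R4) : Continuous fun q : ℝ × ℝ => wj (sh q.1 q.2) x := by
  simp only [wj, (sh_fd _ _ _).fderiv]
  refine Continuous.prodMk (by unfold sh; fun_prop) (continuous_clm_apply.2 fun v => ?_)
  simp only [rot_ap, sh]
  fun_prop

/-- The map in the chart, and the naturality of the invariants. -/
def Bm (b : R4 → R4) (c φ : ℝ) (x : R4) : R4 := lam (b x) - (c, 0, 0, φ)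

theorem kin_sh (p : P2) (y : R4) (c φ : ℝ) : kin p (y - (c, 0, 0, φ)) = kin p y := by
  simp only [kin, fld, ev_sh]

theorem Bm_fd {b : R4 → R4} (hb : ContDiffAt ℝ ∞ b x) (h : 0 < (b x).2.1) (c φ : ℝ) :
    fderiv ℝ (Bm b c φ) x = (fderiv ℝ lam (b x)).comp (fderiv ℝ b x) :=
  (((at_df (lam_cd h)).hasFDerivAt.comp x (at_df hb).hasFDerivAt).sub_const _).fderiv

theorem pb_Bm {b : R4 → R4} (hb : ContDiffAt ℝ ∞ b x) (h : 0 < (b x).2.1) (p : P2) (c φ : ℝ) :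
    pb (kin p) (Bm b c φ) x = pb (hin p) b x :=
  ContinuousLinearMap.ext fun v => ContinuousLinearMap.ext fun w => by
    rw [pb_ap, pb_ap, ← pb_lam h, pb_ap, Bm_fd hb h, Bm, kin_sh]
    rfl

/-- The invariants as functions of the 2-jet. -/
def Ph (Λ : L4) (n l e : R4) (J : J2) : (ℝ × ℝ) × B2 × ℝ :=
  (IJ J, pl J.1.1 Λ, RJ J (Λ n) (Λ l) (Λ n) (Λ e))

theorem Ph_cd (Λ : L4) (n l e : R4) {J : J2} (hi : J.1.1.IsInvertible) :
    ContDiffAt ℝ ∞ (Ph Λ n l e) J := by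
  unfold Ph
  exact (IJ_cd hi).prodMk ((pl_cd contDiffAt_fst.fst contDiffAt_const).prodMk
    (RJ_cd (J := id) hi contDiffAt_id contDiffAt_const contDiffAt_const contDiffAt_const
      contDiffAt_const))

theorem Ps_nat (Λ : L4) (n l e : R4) {b : R4 → R4} {O : Set R4} (hO : IsOpen O)
    (hb : ContDiffOn ℝ ∞ b O) (hx : x ∈ O) (h : 0 < (b x).2.1)
    (hi : (pb (hin p) b x).IsInvertible) (c φ : ℝ) :
    Ps n l e (p, Bm b c φ x, (fderiv ℝ (Bm b c φ) x).comp Λ) =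
      (((Bm b c φ x).1, (Bm b c φ x).2.2.2), (Ph Λ n l e (j2 (pb (hin p) b) x)).1,
        (fderiv ℝ (fun y => (Ph Λ n l e (j2 (pb (hin p) b) y)).1) x).comp Λ,
        (Ph Λ n l e (j2 (pb (hin p) b) x)).2) := by
  have o : IsOpen (O ∩ b ⁻¹' {y | 0 < y.2.1}) :=
    hb.continuousOn.isOpen_inter_preimage hO (isOpen_lt continuous_const (by fun_prop))
  have at' : ∀ y ∈ O ∩ b ⁻¹' {y | 0 < y.2.1}, ContDiffAt ℝ ∞ b y := fun y hy =>
    hb.contDiffAt (hO.mem_nhds hy.1)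
  have sm : ContDiffOn ℝ ∞ (Bm b c φ) (O ∩ b ⁻¹' {y | 0 < y.2.1}) := fun y hy =>
    (((lam_cd hy.2).comp y (at' y hy)).sub contDiffAt_const).contDiffWithinAt
  have md : Bm b c φ x ∈ dom p := by simpa [Bm, dom] using lam_dom h p
  obtain ⟨D', hD, pl'⟩ := famC.pull (p := p) o sm ⟨hx, h⟩ md (by rwa [pb_Bm (at' x ⟨hx, h⟩) h])
  have e1 : pb (hin p) b =ᶠ[𝓝 x] pb (kin p) (Bm b c φ) := by
    filter_upwards [o.mem_nhds ⟨hx, h⟩] with y hy using (pb_Bm (at' y hy) hy.2 ..).symm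
  have e2 : j2 (pb (hin p) b) =ᶠ[𝓝 x] j2 (pb (kin p) (Bm b c φ)) := by
    filter_upwards [e1, e1.fderiv (𝕜 := ℝ), (e1.fderiv (𝕜 := ℝ)).fderiv (𝕜 := ℝ)] with y a1 a2 a3
    rw [j2, j2, a1, a2, a3]
  have e3 : (fun y => (Ph Λ n l e (j2 (pb (hin p) b) y)).1) =ᶠ[𝓝 x] fun y => IK p (Bm b c φ y) := by
    filter_upwards [e2, pl'.open'.mem_nhds hD] with y a1 a2
    rw [a1, Ph, IJ_pb pl' (famC.rp p) a2, IJ_kin (pl'.maps a2), IK]
  have d : DifferentiableAt ℝ (IK p) (Bm b c φ x) :=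
    at_df ((IK_cd md).comp _ (f := fun y => (p, y)) (by fun_prop))
  rw [e3.fderiv_eq, e3.eq_of_nhds, fderiv_fun_comp x d (at_df (p_at pl' hD)), e2.eq_of_nhds, Ps, Ph,
    ← Rm_eq, Rm_pb pl' (famC.rp p) hD]
  rfl

end Vale.Agent.P354XM
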