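import Vale.Agent.P354KX.Defs
import Vale.Agent.P354YA.Mir

/-!
The transfer of the kick for the second end, by the mirror on the data.
-/

open scoped ContDiff
open Set Filter Topology Matrix

noncomputable section

namespace Vale.Agent.P354XM

open Vale.Agent.P354H (X3)
open Vale.Agent.P354I (X Dat Eqv)
open Vale.Agent.P354PU (JG JX pg JG_eq fd_vec pull_h pull_K JX_det)
open Vale.Agent.P354XS (DA qm)
open Vale.Agent.P354XB (Win)
open Vale.Agent.P354KX (mx MIRT MX TRKB)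
open Vale.Agent.P354YA (mirD mirD_mirD mx_at mx_ne mx_mx mir_pt cyl_mx qm_mx)

theorem mx_false (M a : ℝ) : mx M a false = P354YA.mx M a := funext fun y => by
  simp only [mx, cond_false, mir_pt]
  ext i
  fin_cases i <;> rfl

theorem mx_true (M a : ℝ) : mx M a true = id := rfl

theorem JG_cmp {ψ : X → X} {j : X3 → X} {z : X3} (d2 : DifferentiableAt ℝ ψ (j z))
    (d1 : DifferentiableAt ℝ j z) : JG (ψ ∘ j) z = JG j z * JX ψ (j z) := by
  ext a k
  rw [JG_eq (d2.comp z d1), fderiv_comp z d2 d1, ContinuousLinearMap.comp_apply, fd_vec,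
    Matrix.mul_apply]
  simp [← JG_eq d1, JX, JG]

theorem pg_cmp {ψ : X → X} {j : X3 → X} {z : X3} (d2 : DifferentiableAt ℝ ψ (j z))
    (d1 : DifferentiableAt ℝ j z) (d : Dat) :
    pg (ψ ∘ j) d.h z = pg j (d.pull ψ).h z ∧ pg (ψ ∘ j) d.K z = pg j (d.pull ψ).K z := by
  simp only [pg, JG_cmp d2 d1, pull_h, pull_K, transpose_mul, mul_assoc, Function.comp_apply,
    and_self]

theorem mxx : MX := by
  intro M a b h
  cases b
  · rw [mx_false]
    refine ⟨P354YA.mx_sm, fun y hy => ⟨mx_ne h hy, mx_mx h hy, _,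
      div_pos (P354YA.cc_pos h) (pow_pos (norm_pos_iff.2 hy) 2), ?_⟩, fun j z dj hz hd => ?_⟩
    · rw [P354YA.mx, PiLp.smul_apply, P354YA.rf_2, smul_eq_mul]
    · rw [JG_cmp ((mx_at hz).differentiableAt (by simp)) dj, det_mul]
      exact mul_ne_zero hd (JX_det (cyl_mx h).choose_spec hz)
  · exact ⟨contDiffOn_id, fun y hy => ⟨hy, rfl, 1, one_pos, (one_mul _).symm⟩,
      fun _ _ _ _ hd => hd⟩

theorem mirt : MIRT := by
  rintro ⟨Λ, H⟩
  refine ⟨Λ, fun β k => ?_⟩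
  obtain ⟨w0, hw0, H⟩ := H β k
  refine ⟨w0, hw0, fun w hw => ?_⟩
  obtain ⟨n, H⟩ := H w hw
  refine ⟨n, fun bb cP hP c hc => ?_⟩
  obtain ⟨c0, hc0, H⟩ := H bb cP hP c hc
  refine ⟨c0, hc0, fun M a h d m b => ?_⟩
  cases b
  swap
  · exact H M a h d m
  rw [mx_false]
  obtain ⟨N, ρ0, H⟩ := H M a h (mirD h d) m
  obtain ⟨C, C0, hC⟩ := qm_mx h m
  obtain ⟨s, hs⟩ := pow_unbounded_of_one_lt C (one_lt_two (α := ℝ))
  refine ⟨N + s + 1, max ρ0 1,
    fun σ T δ R G ν ρ A l γ π U j T0 hδ hG hU r0 rG hj hb ht hl hA hAl => ?_⟩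
  have G1 : 1 ≤ G := one_le_two.trans hG.hG
  have Gl : G ≤ l := (le_self_pow₀ G1 (by omega)).trans hl
  have lG : 2 ≤ l * G := by nlinarith [hG.hG]
  have l1 : 1 ≤ l * G := one_le_two.trans lG
  have ne : ∀ z ∈ Win R w 6, j z ≠ 0 := fun z hz =>
    norm_pos_iff.1 (one_pos.trans_le (((le_max_right _ _).trans r0).trans (hj.loc z hz).1))
  have pc := fun z (hz : z ∈ Win R w 6) => pg_cmp (ψ := P354YA.mx M a)
    ((mx_at (ne z hz)).differentiableAt (by simp))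
    ((hj.sm.contDiffAt ((P354YV.win_open R w 6).mem_nhds hz)).differentiableAt (by simp))
  have e2 : C * (A * (l * G) ^ N) ≤ A * (l * G) ^ (N + s + 1) := by
    rw [mul_left_comm, add_assoc, pow_add, mul_comm C]
    gcongr
    exact hs.le.trans ((pow_le_pow_left₀ zero_le_two lG s).trans (pow_le_pow_right₀ l1 s.le_succ))
  obtain ⟨d', q1, q2, δ', hδ', U', f, q3, q4⟩ := H σ T δ R G ν ρ A l γ π U j T0 hδ hG hU
    ((le_max_left _ _).trans r0) rG hj (fun z hz => ⟨by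
      have := (hb z hz).1
      rwa [(pc z hz _).1, (pc z hz _).2] at this, (hb z hz).2⟩) ht
    ((pow_le_pow_right₀ G1 (by omega)).trans hl) hA
    ((mul_le_mul_of_nonneg_left (pow_le_pow_right₀ l1 (by omega)) hA.le).trans hAl)
  refine ⟨mirD h d', ?_, fun y hy k => ?_, δ', hδ', U', f, fun p hp => ⟨(q3 p hp).1,
    (q3 p hp).2.1, fun e => ?_, fun e i => P354YV.pa_mono ((q3 p hp).2.2.2 e i) (by linarith)
      le_rfl (mul_le_mul_of_nonneg_left (pow_le_pow_right₀ G1 (by omega)) hA.le)⟩, q4⟩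
  · rw [← P354XQ.qm_congr m (fun _ _ => ⟨rfl, rfl⟩) (mirD_mirD h d)]
    refine (hC _ _ d'.2.1.1 (mirD h d).2.1.1).trans ((mul_le_mul_right q1 _).trans ?_)
    rw [← ENNReal.ofReal_mul C0.le]
    exact ENNReal.ofReal_le_ofReal e2
  · obtain ⟨a1, a2⟩ := q2 _ (mx_ne h hy) k
    obtain ⟨b1, b2⟩ := mirD_mirD h d y hy
    rw [← b1, ← b2]
    simp only [P354YA.mirD_val, pull_h, pull_K] at a1 a2 ⊢
    rw [a1, a2]
    exact ⟨rfl, rfl⟩
  · have hz : p.2 ∈ Win R w 6 := by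
      obtain ⟨-, ⟨b1, b2⟩, b3⟩ := hp
      rw [e, zero_add] at b1 b2
      exact ⟨⟨by linarith [hw.1], by linarith [hw.1]⟩, by linarith⟩
    obtain ⟨b1, b2⟩ := mirD_mirD h d' _ (ne _ hz)
    have := (q3 p hp).2.2.1 e
    rw [(pc _ hz _).1, (pc _ hz _).2]
    simp only [pg] at this ⊢
    rwa [← b1, ← b2] at this

end Vale.Agent.P354XM
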