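import Vale.Agent.P354YI.Defs2
import Vale.Agent.P354YI.Near
import Vale.Agent.P354YQ.Vg
import Vale.Agent.P354CH.Lj

/-!
The change of the initial velocity, extended to a neighbourhood of a compact set.
-/

set_option maxSynthPendingDepth 3

open scoped ContDiff Manifold
open Set Filter Topology Metric

noncomputable section

namespace Vale.Agent.P354XM

open Vale.Agent.P354n (R4)
open Vale.Agent.P354XD (tb)
open Vale.Agent.P354XE (Tw Bd)
open Vale.Agent.P354XV (Lv jet Jet)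
open Vale.Agent.P354YI Vale.Agent.P354CH

/-- A smooth map extends from a closed set. -/
theorem ex_ext {E F : Type} [NormedAddCommGroup E] [NormedSpace ℝ E] [FiniteDimensional ℝ E]
    [NormedAddCommGroup F] [NormedSpace ℝ F] {U C : Set E} {W : E → F} (hU : IsOpen U)
    (hW : ContDiffOn ℝ ∞ W U) (hC : IsClosed C) (h : C ⊆ U) :
    ∃ V, ContDiff ℝ ∞ V ∧ ∀ x ∈ C, V x = W x := by
  obtain ⟨g, hg⟩ := exists_contMDiffMap_forall_mem_convex_of_local (n := ⊤) 𝓘(ℝ, E)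
    (t := fun x => {v | x ∈ C → v = W x})
    (fun x u hu w hw a c _ _ e m => by rw [hu m, hw m, ← add_smul, e, one_smul]) fun x => by
      by_cases m : x ∈ C
      · exact ⟨U, hU.mem_nhds (h m), W, hW.contMDiffOn, fun _ _ _ => rfl⟩
      · exact ⟨_, hC.isOpen_compl.mem_nhds m, fun _ => 0, contMDiffOn_const,
          fun y a k => (a k).elim⟩
  exact ⟨g, g.contMDiff.contDiff, hg⟩

theorem jet_sb {k : ℕ} {g g' : Tw} {D D' : Set R4} {y : R4} (a : Lv g D) (b : Lv g' D')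
    (hy : y ∈ D) (hy' : y ∈ D') : jet k (g - g') y = jet k g y - jet k g' y := by
  funext n α i j
  simp only [jet, Pi.sub_apply]
  rw [fun_iteratedFDeriv_sub_apply ((Lv.at a hy _ _).of_le (le_inf _))
    ((Lv.at b hy' _ _).of_le (le_inf _))]
  rfl

theorem vel : VEL := by
  intro k U W g0 D0 K1 K hU hW l0 c1 cK s1 sK hm m e e0
  have sj : ∀ {g D}, Lv g D → ∀ p ∈ D, ContDiffAt ℝ ∞ (fun y => (y, jet k g y)) p :=
    fun l p hp => contDiffAt_id.prodMk
      ((P354XV.jet_cd k l.isOpen l.met).contDiffAt (l.isOpen.mem_nhds hp))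
  have ci : ∀ {S}, IsCompact S → S ⊆ D0 → IsCompact ((fun y => (y, jet k g0 y)) '' S) :=
    fun c s => c.image_of_continuousOn fun p hp =>
      (sj l0 p (s hp)).continuousAt.continuousWithinAt
  obtain ⟨r, r0, hr⟩ := (ci c1 (s1.trans sK)).exists_cthickening_subset_open hU
    (image_subset_iff.2 hm)
  obtain ⟨V, sV, eV⟩ := ex_ext hU hW isClosed_cthickening hr
  let J := {j : (Tw × Set R4) × R4 × ℝ // Lv j.1.1 j.1.2 ∧ j.2.1 ∈ K ∧ j.2.1 ∈ j.1.2 ∧
    Bd (m + k) (j.1.1 - g0) j.2.1 j.2.2 ∧ j.2.2 ≤ 1}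
  have d1 : Oj m (fun j : J => j.1.2.1) (fun j y => jet k j.1.1.1 y - jet k g0 y)
      fun j => j.1.2.2 :=
    (P354YQ.oj_jt (Oj.tb (fun j v w => (Lv.at j.2.1 j.2.2.2.1 v w).sub
      (Lv.at l0 (sK j.2.2.1) v w)) fun j => j.2.2.2.2.1)).congr fun j =>
      ((j.2.1.isOpen.eventually_mem j.2.2.2.1).and (l0.isOpen.eventually_mem (sK j.2.2.1))).mono
        fun _ h => (jet_sb j.2.1 l0 h.1 h.2).symm
  have d2 : Oj m (fun j : J => j.1.2.1) (fun j y => (y, jet k j.1.1.1 y) - (y, jet k g0 y))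
      fun j => j.1.2.2 := (d1.clm (.inr ℝ R4 _)).congr' (by simp)
  have b0 : Oj m (fun j : J => j.1.2.1) (fun _ y => (y, jet k g0 y)) 1 :=
    .fix cK (fun p hp => sj l0 p (sK hp)) fun j => j.2.2.1
  have b1 : Oj m (fun j : J => j.1.2.1) (fun j y => (y, jet k j.1.1.1 y)) 1 :=
    ((d2.mono le_rfl fun j => j.2.2.2.2.2).add b0).congr' fun _ _ => (sub_add_cancel _ _).symm
  obtain ⟨A0, -, h0⟩ := b0.val
  obtain ⟨A1, -, h1⟩ := b1.val
  obtain ⟨A, a0, hA⟩ := d2.val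
  obtain ⟨C, c0, hC⟩ := (oj_lip (G := fun _ => V) (S := fun _ => closedBall 0 (max A0 A1))
    (oj_z b1) (oj_z b0) (fun j => (convex_closedBall _ _).segment_subset
      (mem_closedBall_zero_iff.2 ((h1 j).trans (by simp)))
      (mem_closedBall_zero_iff.2 ((h0 j).trans (by simp)))) d2
    (.fix (isCompact_closedBall _ _) (fun _ _ => sV.contDiffAt) fun i => i.2)).bd
  obtain ⟨η, ⟨⟨l1, l2⟩, l3⟩, η0⟩ := ((((ev_mul 1 one_pos).and (ev_mul A r0)).and
    (ev_mul C e0)).and self_mem_nhdsWithin).exists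
  refine ⟨η, η0, fun g D l h => ⟨D ∩ D0, fun y => V (y, jet k g y) - V (y, jet k g0 y),
    l.isOpen.inter l0.isOpen, fun p hp => ⟨(h p hp).1, sK hp⟩, fun p hp =>
      ((at_comp sV.contDiffAt (sj l p hp.1)).sub
        (at_comp sV.contDiffAt (sj l0 p hp.2))).contDiffWithinAt, fun p hp =>
      (hC ⟨((g, D), p, η), l, hp, (h p hp).1, (h p hp).2, by linarith⟩).mono le_rfl l3,
    fun p hp => ?_⟩⟩
  have m0 := mem_image_of_mem (fun y => (y, jet k g0 y)) hp
  have m1 := mem_cthickening_of_dist_le _ _ r _ m0 ((dist_eq_norm _ _).trans_le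
    ((hA ⟨((g, D), p, η), l, s1 hp, (h p (s1 hp)).1, (h p (s1 hp)).2, by linarith⟩).trans l2))
  exact ⟨hr m1, congrArg₂ (· - ·) (eV _ m1) (eV _ (self_subset_cthickening _ m0))⟩

end Vale.Agent.P354XM
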